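import Mathlib

/-!
# Polynomials annihilating a matrix with polynomial entries
-/

namespace Vale.Agent.P200

open Polynomial

/-- The difference of two commuting elements divides the difference of polynomial values. -/
theorem exists_aeval_sub {R S : Type} [CommRing R] [Ring S] [Algebra R S] {x y : S}
    (h : Commute x y) (p : R[X]) : ∃ Q : S, aeval x p - aeval y p = (x - y) * Q := by
  induction p using Polynomial.induction_on with
  | C a => exact ⟨0, by simp⟩
  | add p p' hp hp' =>
    obtain ⟨Q, hQ⟩ := hp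
    obtain ⟨Q', hQ'⟩ := hp'
    exact ⟨Q + Q', by rw [map_add, map_add, mul_add, ← hQ, ← hQ']; abel⟩
  | monomial i a ih =>
    obtain ⟨Q, hQ⟩ := ih
    refine ⟨Q * x + aeval y (C a * X ^ i), ?_⟩
    have hy : Commute (aeval y (C a * X ^ i)) y := by
      have := (Commute.all (C a * X ^ i) (X : R[X])).map (aeval (R := R) y)
      rwa [aeval_X] at this
    have hx : Commute (aeval y (C a * X ^ i)) x := by
      rw [map_mul, aeval_C, aeval_X_pow]
      exact Commute.mul_left (Algebra.commute_algebraMap_left a x) (h.symm.pow_left i)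
    rw [pow_succ, ← mul_assoc, map_mul (aeval x) (C a * X ^ i) X,
      map_mul (aeval y) (C a * X ^ i) X, aeval_X, aeval_X, mul_add, ← mul_assoc, ← hQ,
      ← (hx.sub_right hy).eq]
    noncomm_ring

/-- If a monic polynomial kills a matrix, the characteristic polynomial divides one of its
powers. -/
theorem charpoly_dvd_pow {R : Type} [CommRing R] {r : ℕ} (T : Matrix (Fin r) (Fin r) R)
    (q : R[X]) (hq : aeval T q = 0) : T.charpoly ∣ q ^ r := by
  classical
  let C' : Matrix (Fin r) (Fin r) R →ₐ[R] Matrix (Fin r) (Fin r) R[X] :=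
    (Polynomial.CAlgHom).mapMatrix
  let Θ : Matrix (Fin r) (Fin r) R[X] := algebraMap R[X] _ X
  have hcomm : Commute Θ (C' T) := Algebra.commute_algebraMap_left X (C' T)
  obtain ⟨Q, hQ⟩ := exists_aeval_sub hcomm q
  rw [aeval_algHom_apply C' T q, hq, map_zero, sub_zero] at hQ
  have h1 : aeval Θ q = algebraMap R[X] (Matrix (Fin r) (Fin r) R[X]) q := by
    rw [show Θ = algebraMap R[X] _ X from rfl, aeval_algebraMap_apply, aeval_X_left_apply]
  have h2 : (Θ - C' T) = T.charmatrix := by
    refine Matrix.ext fun i j => ?_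
    by_cases hij : i = j <;>
      simp [Θ, C', hij, Matrix.charmatrix_apply_eq, Matrix.charmatrix_apply_ne,
        Matrix.algebraMap_eq_diagonal]
  rw [h1, h2] at hQ
  have h3 := congrArg Matrix.det hQ
  rw [Matrix.algebraMap_eq_diagonal, Matrix.det_diagonal, Matrix.det_mul] at h3
  exact ⟨Q.det, by simpa [Matrix.charpoly] using h3⟩

section

variable {K : Type} [Field K]

/-- A polynomial in two variables written with both variables on the same footing. -/
noncomputable def flat : K[X][X] →+* MvPolynomial (Fin 2) K :=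
  eval₂RingHom (aeval (MvPolynomial.X (0 : Fin 2)) : K[X] →ₐ[K] _).toRingHom
    (MvPolynomial.X 1)

theorem flat_eq_sum (P : K[X][X]) :
    flat P = ∑ j ∈ P.support, ∑ i ∈ (P.coeff j).support,
      MvPolynomial.monomial (Finsupp.single (0 : Fin 2) i + Finsupp.single 1 j)
        ((P.coeff j).coeff i) := by
  rw [flat, coe_eval₂RingHom, eval₂_eq_sum, Polynomial.sum_def]
  refine Finset.sum_congr rfl fun j _ => ?_
  rw [AlgHom.toRingHom_eq_coe, RingHom.coe_coe, aeval_def, eval₂_eq_sum, Polynomial.sum_def,
    Finset.sum_mul]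
  refine Finset.sum_congr rfl fun i _ => ?_
  rw [MvPolynomial.algebraMap_eq, MvPolynomial.X_pow_eq_monomial, MvPolynomial.X_pow_eq_monomial,
    MvPolynomial.C_mul_monomial, MvPolynomial.monomial_mul, mul_one, mul_one]

theorem coeff_flat (P : K[X][X]) (i j : ℕ) :
    MvPolynomial.coeff (Finsupp.single (0 : Fin 2) i + Finsupp.single 1 j) (flat P) =
      (P.coeff j).coeff i := by
  classical
  have hinj : ∀ i' j' : ℕ, Finsupp.single (0 : Fin 2) i' + Finsupp.single 1 j' =
      Finsupp.single (0 : Fin 2) i + Finsupp.single 1 j → i' = i ∧ j' = j := by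
    intro i' j' h
    have h0 := DFunLike.congr_fun h 0
    have h1 := DFunLike.congr_fun h 1
    simp at h0 h1
    exact ⟨h0, h1⟩
  rw [flat_eq_sum, MvPolynomial.coeff_sum, Finset.sum_eq_single j, MvPolynomial.coeff_sum,
    Finset.sum_eq_single i, MvPolynomial.coeff_monomial, if_pos rfl]
  · intro i' _ hne
    rw [MvPolynomial.coeff_monomial, if_neg fun h => hne (hinj _ _ h).1]
  · intro h
    rw [MvPolynomial.coeff_monomial, if_pos rfl]
    simpa using h
  · intro j' _ hne
    rw [MvPolynomial.coeff_sum]
    refine Finset.sum_eq_zero fun i' _ => ?_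
    rw [MvPolynomial.coeff_monomial, if_neg fun h => hne (hinj _ _ h).2]
  · intro h
    rw [Polynomial.notMem_support_iff.mp h, MvPolynomial.coeff_sum]
    simp

theorem degree_single_pair (i j : ℕ) :
    ((Finsupp.single (0 : Fin 2) i + Finsupp.single 1 j).sum fun _ e => e) = i + j := by
  rw [Finsupp.sum_add_index' (by simp) (by simp)]
  simp

theorem le_totalDegree_flat {P : K[X][X]} (hP : P.Monic) :
    P.natDegree ≤ (flat P).totalDegree ∧ flat P ≠ 0 := by
  have h : MvPolynomial.coeff (Finsupp.single (0 : Fin 2) 0 + Finsupp.single 1 P.natDegree)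
      (flat P) ≠ 0 := by
    rw [coeff_flat, hP.coeff_natDegree]
    simp
  refine ⟨?_, fun h0 => h (by rw [h0]; simp)⟩
  have := MvPolynomial.le_totalDegree (MvPolynomial.mem_support_iff.mpr h)
  rwa [degree_single_pair, zero_add] at this

theorem totalDegree_flat_charpoly {r : ℕ} (Q : Matrix (Fin r) (Fin r) K[X])
    (hQ : ∀ i j, (Q i j).natDegree ≤ 1) : (flat Q.charpoly).totalDegree ≤ r := by
  classical
  have hC : ∀ p : K[X], p.natDegree ≤ 1 → (flat (C p)).totalDegree ≤ 1 := by
    intro p hp
    rw [Polynomial.eq_X_add_C_of_natDegree_le_one hp, flat]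
    simp only [coe_eval₂RingHom, eval₂_C, AlgHom.toRingHom_eq_coe, RingHom.coe_coe, map_add,
      map_mul, aeval_C, aeval_X, MvPolynomial.algebraMap_eq]
    refine (MvPolynomial.totalDegree_add _ _).trans (max_le ?_ (by simp))
    refine (MvPolynomial.totalDegree_mul _ _).trans ?_
    simp
  have hent : ∀ i j, (flat (Q.charmatrix i j)).totalDegree ≤ 1 := by
    intro i j
    by_cases h : i = j
    · subst h
      rw [Matrix.charmatrix_apply_eq, map_sub]
      refine (MvPolynomial.totalDegree_sub _ _).trans (max_le ?_ (hC _ (hQ _ _)))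
      simp [flat]
    · rw [Matrix.charmatrix_apply_ne _ _ _ h, map_neg, MvPolynomial.totalDegree_neg]
      exact hC _ (hQ _ _)
  rw [Matrix.charpoly, RingHom.map_det, Matrix.det_apply]
  refine MvPolynomial.totalDegree_finsetSum_le fun σ _ => ?_
  have h1 : (∏ i, flat.mapMatrix Q.charmatrix (σ i) i).totalDegree ≤ r := by
    refine (MvPolynomial.totalDegree_finsetProd _ _).trans ?_
    refine (Finset.sum_le_sum fun i _ => hent _ _).trans ?_
    simp
  rcases Int.units_eq_one_or (Equiv.Perm.sign σ) with h | h <;> rw [h]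
  · simpa using h1
  · simpa [MvPolynomial.totalDegree_neg] using h1

/-- A monic factor of a power of a polynomial of balanced degree has balanced degree. -/
theorem coeff_eq_zero_of_dvd {P M : K[X][X]} (hP : P.Monic) (hM : M.Monic) {r : ℕ}
    (hdvd : P ∣ M ^ r) (hdeg : (flat M).totalDegree ≤ M.natDegree) {i j : ℕ}
    (hij : P.natDegree < i + j) : (P.coeff j).coeff i = 0 := by
  by_contra hne
  obtain ⟨R, hR⟩ := hdvd
  have hRm : R.Monic := hP.of_mul_monic_left (hR ▸ hM.pow r)
  obtain ⟨h1, hP0⟩ := le_totalDegree_flat hP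
  obtain ⟨h2, hR0⟩ := le_totalDegree_flat hRm
  have h3 := congrArg (fun p => (flat p).totalDegree) hR
  simp only [map_mul, map_pow] at h3
  rw [MvPolynomial.totalDegree_mul_of_isDomain hP0 hR0] at h3
  have h4 := MvPolynomial.totalDegree_pow (flat M) r
  have h5 := congrArg Polynomial.natDegree hR
  rw [hP.natDegree_mul hRm, hM.natDegree_pow] at h5
  have h6 := Nat.mul_le_mul_left r hdeg
  have h7 := MvPolynomial.le_totalDegree (MvPolynomial.mem_support_iff.mpr
    (by rw [coeff_flat]; exact hne :
      MvPolynomial.coeff (Finsupp.single (0 : Fin 2) i + Finsupp.single 1 j) (flat P) ≠ 0))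
  rw [degree_single_pair] at h7
  omega

end

end Vale.Agent.P200
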