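import Mathlib

/-!
# Hilbert functions of homogeneous ideals of a polynomial ring
-/

namespace Vale.Agent.P200

open MvPolynomial Module

noncomputable section

/-- The polynomial ring in `n` variables. -/
abbrev Poly (K : Type) [Field K] (n : ℕ) := MvPolynomial (Fin n) K

/-- Forms of degree `d`. -/
abbrev Forms (K : Type) [Field K] (n d : ℕ) : Submodule K (Poly K n) :=
  homogeneousSubmodule (Fin n) K d

variable {K : Type} [Field K] {n : ℕ}

instance finiteDimensional_forms (d : ℕ) : FiniteDimensional K (Forms K n d) :=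
  Module.Finite.iff_fg.mpr (homogeneousSubmodule_fg (Fin n) K d)

/-- An ideal closed under taking homogeneous components. -/
def Homog (I : Ideal (Poly K n)) : Prop := ∀ p ∈ I, ∀ d, homogeneousComponent d p ∈ I

/-- Degree `d` part of an ideal. -/
def part (I : Ideal (Poly K n)) (d : ℕ) : Submodule K (Poly K n) :=
  I.restrictScalars K ⊓ Forms K n d

theorem mem_part {I : Ideal (Poly K n)} {d : ℕ} {p : Poly K n} :
    p ∈ part I d ↔ p ∈ I ∧ p.IsHomogeneous d := Iff.rfl

theorem part_le_forms (I : Ideal (Poly K n)) (d : ℕ) : part I d ≤ Forms K n d := inf_le_right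

instance finiteDimensional_part (I : Ideal (Poly K n)) (d : ℕ) :
    FiniteDimensional K (part I d) :=
  Submodule.finiteDimensional_of_le (part_le_forms I d)

/-- Hilbert function of the quotient by an ideal. -/
noncomputable def hq (I : Ideal (Poly K n)) (d : ℕ) : ℕ :=
  finrank K (Forms K n d) - finrank K (part I d)

theorem hq_add (I : Ideal (Poly K n)) (d : ℕ) :
    hq I d + finrank K (part I d) = finrank K (Forms K n d) :=
  Nat.sub_add_cancel (Submodule.finrank_mono (part_le_forms I d))

theorem part_mono {I J : Ideal (Poly K n)} (h : I ≤ J) (d : ℕ) : part I d ≤ part J d :=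
  inf_le_inf_right _ h

theorem hq_anti {I J : Ideal (Poly K n)} (h : I ≤ J) (d : ℕ) : hq J d ≤ hq I d := by
  have := Submodule.finrank_mono (part_mono h d)
  unfold hq; omega

theorem part_eq_of_hq_eq {I J : Ideal (Poly K n)} (h : I ≤ J) {d : ℕ} (he : hq I d ≤ hq J d) :
    part I d = part J d := by
  apply Submodule.eq_of_le_of_finrank_le (part_mono h d)
  have := hq_add I d; have := hq_add J d; omega

theorem hq_eq_of_part_eq {I J : Ideal (Poly K n)} {d : ℕ} (h : part I d = part J d) :
    hq I d = hq J d := by unfold hq; rw [h]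

theorem hq_eq_zero_iff {I : Ideal (Poly K n)} {d : ℕ} :
    hq I d = 0 ↔ ∀ p : Poly K n, p.IsHomogeneous d → p ∈ I := by
  constructor
  · intro h p hp
    have hle : Forms K n d ≤ part I d := by
      refine le_of_eq (Submodule.eq_of_le_of_finrank_le (part_le_forms I d) ?_).symm
      have := hq_add I d; omega
    exact (hle hp).1
  · intro h
    have : part I d = Forms K n d :=
      le_antisymm (part_le_forms I d) fun p hp => ⟨h p hp, hp⟩
    unfold hq; rw [this]; omega

theorem component_mul {g : Poly K n} {k : ℕ} (hg : g.IsHomogeneous k) (q : Poly K n) (j : ℕ) :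
    homogeneousComponent (j + k) (g * q) = g * homogeneousComponent j q := by
  conv_lhs => rw [← sum_homogeneousComponent q, Finset.mul_sum, map_sum]
  have hterm : ∀ i, homogeneousComponent (j + k) (g * homogeneousComponent i q) =
      if j = i then g * homogeneousComponent i q else 0 := by
    intro i
    have hm : g * homogeneousComponent i q ∈ Forms K n (k + i) :=
      hg.mul (homogeneousComponent_isHomogeneous i q)
    rw [homogeneousComponent_of_mem hm]
    by_cases h : j = i
    · rw [if_pos h, if_pos (by omega)]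
    · rw [if_neg h, if_neg (by omega)]
  simp only [hterm, Finset.sum_ite_eq, Finset.mem_range]
  split_ifs with h
  · rfl
  · rw [homogeneousComponent_eq_zero, mul_zero]; omega

theorem component_mul_lt {g : Poly K n} {k : ℕ} (hg : g.IsHomogeneous k) (q : Poly K n) {d : ℕ}
    (hd : d < k) : homogeneousComponent d (g * q) = 0 := by
  conv_lhs => rw [← sum_homogeneousComponent q, Finset.mul_sum, map_sum]
  refine Finset.sum_eq_zero fun i _ => ?_
  have hm : g * homogeneousComponent i q ∈ Forms K n (k + i) :=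
    hg.mul (homogeneousComponent_isHomogeneous i q)
  rw [homogeneousComponent_of_mem hm, if_neg (by omega)]

theorem component_self {p : Poly K n} {d : ℕ} (hp : p.IsHomogeneous d) :
    homogeneousComponent d p = p := homogeneousComponent_eq_self hp

theorem Homog.bot : Homog (⊥ : Ideal (Poly K n)) := by
  intro p hp d
  simp only [Ideal.mem_bot] at hp ⊢
  rw [hp, map_zero]

theorem Homog.sup {I J : Ideal (Poly K n)} (hI : Homog I) (hJ : Homog J) : Homog (I ⊔ J) := by
  intro p hp d
  obtain ⟨x, hx, y, hy, rfl⟩ := Submodule.mem_sup.mp hp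
  rw [map_add]
  exact Submodule.add_mem_sup (hI x hx d) (hJ y hy d)

theorem Homog.span_singleton {g : Poly K n} {k : ℕ} (hg : g.IsHomogeneous k) :
    Homog (Ideal.span {g}) := by
  intro p hp d
  obtain ⟨q, rfl⟩ := Ideal.mem_span_singleton'.mp hp
  rw [mul_comm q g]
  by_cases h : k ≤ d
  · obtain ⟨j, rfl⟩ : ∃ j, d = j + k := ⟨d - k, by omega⟩
    rw [component_mul hg]
    exact Ideal.mul_mem_right _ _ (Ideal.mem_span_singleton_self g)
  · rw [component_mul_lt hg q (by omega)]
    exact zero_mem _

theorem Homog.span {s : Set (Poly K n)} (hs : ∀ g ∈ s, ∃ k, g.IsHomogeneous k) :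
    Homog (Ideal.span s) := by
  intro p hp
  induction hp using Submodule.span_induction with
  | mem g hg =>
    intro d
    obtain ⟨k, hk⟩ := hs g hg
    exact Ideal.span_mono (Set.singleton_subset_iff.mpr hg)
      (Homog.span_singleton hk g (Ideal.mem_span_singleton_self g) d)
  | zero => intro d; rw [map_zero]; exact zero_mem _
  | add x y _ _ hx hy => intro d; rw [map_add]; exact add_mem (hx d) (hy d)
  | smul r x _ hx =>
    intro d
    rw [smul_eq_mul, mul_comm, ← sum_homogeneousComponent x, Finset.sum_mul, map_sum]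
    refine Submodule.sum_mem _ fun i _ => ?_
    by_cases h : i ≤ d
    · obtain ⟨j, rfl⟩ : ∃ j, d = j + i := ⟨d - i, by omega⟩
      rw [component_mul (homogeneousComponent_isHomogeneous i x)]
      exact Ideal.mul_mem_right _ _ (hx i)
    · rw [component_mul_lt (homogeneousComponent_isHomogeneous i x) r (by omega)]
      exact zero_mem _

/-- The colon ideal `I : g`. -/
def colon (I : Ideal (Poly K n)) (g : Poly K n) : Ideal (Poly K n) :=
  Submodule.comap (LinearMap.lsmul (Poly K n) (Poly K n) g) I

theorem mem_colon {I : Ideal (Poly K n)} {g p : Poly K n} : p ∈ colon I g ↔ g * p ∈ I := Iff.rfl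

theorem le_colon (I : Ideal (Poly K n)) (g : Poly K n) : I ≤ colon I g :=
  fun _ hp => mem_colon.mpr (I.mul_mem_left g hp)

theorem colon_mono {I J : Ideal (Poly K n)} (h : I ≤ J) (g : Poly K n) :
    colon I g ≤ colon J g := fun _ hp => h hp

theorem Homog.colon {I : Ideal (Poly K n)} (hI : Homog I) {g : Poly K n} {k : ℕ}
    (hg : g.IsHomogeneous k) : Homog (Vale.Agent.P200.colon I g) := by
  intro p hp d
  rw [mem_colon, ← component_mul hg]
  exact hI _ hp _

/-- Multiplication by `g`, as a linear map over the field. -/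
noncomputable def mulL (g : Poly K n) : Poly K n →ₗ[K] Poly K n := LinearMap.mulLeft K g

@[simp] theorem mulL_apply (g p : Poly K n) : mulL g p = g * p := rfl

theorem mulL_injective {g : Poly K n} (hg : g ≠ 0) : Function.Injective (mulL g) :=
  fun _ _ h => mul_left_cancel₀ hg h

theorem finrank_map_mulL {g : Poly K n} (hg : g ≠ 0) (V : Submodule K (Poly K n)) :
    finrank K (V.map (mulL g)) = finrank K V :=
  (Submodule.equivMapOfInjective _ (mulL_injective hg) V).finrank_eq.symm

theorem map_forms_le {g : Poly K n} {k : ℕ} (hg : g.IsHomogeneous k) (d : ℕ) :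
    (Forms K n d).map (mulL g) ≤ Forms K n (d + k) := by
  rintro _ ⟨p, hp, rfl⟩
  rw [add_comm]
  exact hg.mul hp

theorem part_sup_span {I : Ideal (Poly K n)} (hI : Homog I) {g : Poly K n} {k : ℕ}
    (hg : g.IsHomogeneous k) (d : ℕ) :
    part (I ⊔ Ideal.span {g}) (d + k) = part I (d + k) ⊔ (Forms K n d).map (mulL g) := by
  apply le_antisymm
  · rintro p ⟨hp, hd⟩
    obtain ⟨x, hx, y, hy, rfl⟩ := Submodule.mem_sup.mp hp
    obtain ⟨q, rfl⟩ := Ideal.mem_span_singleton'.mp hy
    have hc := component_self hd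
    rw [map_add, mul_comm q g, component_mul hg] at hc
    rw [mul_comm q g, ← hc]
    exact Submodule.add_mem_sup ⟨hI x hx _, homogeneousComponent_isHomogeneous _ _⟩
      ⟨_, homogeneousComponent_isHomogeneous d q, rfl⟩
  · refine sup_le (part_mono le_sup_left _) ?_
    rintro _ ⟨q, hq, rfl⟩
    refine ⟨Submodule.mem_sup_right ?_, map_forms_le hg d ⟨q, hq, rfl⟩⟩
    exact Ideal.mul_mem_right _ _ (Ideal.mem_span_singleton_self g)

/-- The Hilbert function splits along multiplication by a nonzero form. -/
theorem hq_split {I : Ideal (Poly K n)} (hI : Homog I) {g : Poly K n} {k : ℕ}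
    (hg : g.IsHomogeneous k) (hg0 : g ≠ 0) (d : ℕ) :
    hq I (d + k) = hq (I ⊔ Ideal.span {g}) (d + k) + hq (colon I g) d := by
  have h1 := Submodule.finrank_sup_add_finrank_inf_eq (part I (d + k))
    ((Forms K n d).map (mulL g))
  have hinf : part I (d + k) ⊓ (Forms K n d).map (mulL g) = (part (colon I g) d).map (mulL g) := by
    apply le_antisymm
    · rintro _ ⟨hI', q, hq, rfl⟩
      exact ⟨q, ⟨hI'.1, hq⟩, rfl⟩
    · rintro _ ⟨q, ⟨hq1, hq2⟩, rfl⟩
      exact ⟨⟨hq1, map_forms_le hg d ⟨q, hq2, rfl⟩⟩, q, hq2, rfl⟩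
  rw [hinf, ← part_sup_span hI hg, finrank_map_mulL hg0, finrank_map_mulL hg0] at h1
  have a1 := hq_add I (d + k)
  have a2 := hq_add (I ⊔ Ideal.span {g}) (d + k)
  have a3 := hq_add (colon I g) d
  omega

theorem hq_sup_of_lt {I : Ideal (Poly K n)} (hI : Homog I) {g : Poly K n} {k : ℕ}
    (hg : g.IsHomogeneous k) {d : ℕ} (hd : d < k) : hq (I ⊔ Ideal.span {g}) d = hq I d := by
  apply hq_eq_of_part_eq
  refine le_antisymm ?_ (part_mono le_sup_left d)
  rintro p ⟨hp, hpd⟩
  obtain ⟨x, hx, y, hy, rfl⟩ := Submodule.mem_sup.mp hp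
  obtain ⟨q, rfl⟩ := Ideal.mem_span_singleton'.mp hy
  have hc := component_self hpd
  rw [map_add, mul_comm q g, component_mul_lt hg q hd, add_zero] at hc
  rw [mul_comm q g, ← hc]
  exact ⟨hI x hx d, homogeneousComponent_isHomogeneous d x⟩

/-- `g` is a nonzerodivisor modulo `I`. -/
def NZD (I : Ideal (Poly K n)) (g : Poly K n) : Prop := ∀ p, g * p ∈ I → p ∈ I

theorem NZD.colon_eq {I : Ideal (Poly K n)} {g : Poly K n} (h : NZD I g) : colon I g = I :=
  le_antisymm (fun p hp => h p hp) (le_colon I g)

theorem nzd_of_colon_eq {I : Ideal (Poly K n)} {g : Poly K n} (h : colon I g = I) : NZD I g :=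
  fun p hp => h ▸ (mem_colon.mpr hp)

theorem hq_sup_nzd {I : Ideal (Poly K n)} (hI : Homog I) {g : Poly K n} {k : ℕ}
    (hg : g.IsHomogeneous k) (hg0 : g ≠ 0) (hz : NZD I g) (d : ℕ) :
    hq I (d + k) = hq (I ⊔ Ideal.span {g}) (d + k) + hq I d := by
  have h := hq_split hI hg hg0 d
  rwa [hz.colon_eq] at h

theorem hq_forms (d : ℕ) : hq (⊥ : Ideal (Poly K n)) d = finrank K (Forms K n d) := by
  have : part (⊥ : Ideal (Poly K n)) d = ⊥ :=
    le_bot_iff.mp fun p hp => (Submodule.mem_bot K).mpr ((Submodule.mem_bot _).mp hp.1)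
  rw [hq, this, finrank_bot, Nat.sub_zero]

theorem finrank_forms_zero : finrank K (Forms K n 0) = 1 := by
  have h : Forms K n 0 = (1 : Submodule K (Poly K n)) := homogeneousSubmodule_zero _
  rw [h, Submodule.one_eq_span]
  exact finrank_span_singleton one_ne_zero

end

end Vale.Agent.P200
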