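import Mathlib

/-!
# Nondegenerate bilinear maps over an algebraically closed field
-/

namespace Vale.Agent.P200

open MvPolynomial Module

noncomputable section

variable {K : Type} [Field K]

/-- Index set for the parameters of the Segre cone. -/
abbrev Par (r m : ℕ) := Fin r ⊕ Fin m

/-- Index set for the coordinates of the Segre cone. -/
abbrev Mat (r m : ℕ) := Fin r × Fin m

/-- The Segre parametrisation. -/
def segre (K : Type) [Field K] (r m : ℕ) :
    MvPolynomial (Mat r m) K →ₐ[K] MvPolynomial (Par r m) K :=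
  aeval fun p => X (Sum.inl p.1) * X (Sum.inr p.2)

/-- Position in the order of killing the parameters: first `y_1 .. y_{m-1}`, then `x_1 ..`,
last `x_0`. -/
def rk {r m : ℕ} : Par r m → ℕ
  | Sum.inl i => if (i : ℕ) = 0 then m - 1 + (r - 1) else m - 1 + ((i : ℕ) - 1)
  | Sum.inr j => if (j : ℕ) = 0 then m - 1 + r else (j : ℕ) - 1

/-- Setting the first `k` parameters to zero. -/
def kill (K : Type) [Field K] (r m k : ℕ) :
    MvPolynomial (Par r m) K →ₐ[K] MvPolynomial (Par r m) K :=
  aeval fun s => if rk s < k then 0 else X s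

/-- The chain of primes. -/
def chainP (K : Type) [Field K] (r m k : ℕ) : Ideal (MvPolynomial (Mat r m) K) :=
  RingHom.ker ((kill K r m k).comp (segre K r m))

instance chainP_isPrime (r m k : ℕ) : (chainP K r m k).IsPrime := RingHom.ker_isPrime _

theorem kill_zero (r m : ℕ) : kill K r m 0 = AlgHom.id K _ := by
  refine MvPolynomial.algHom_ext fun s => ?_
  simp [kill]

theorem kill_kill (r m : ℕ) {k k' : ℕ} (h : k ≤ k') :
    (kill K r m k').comp (kill K r m k) = kill K r m k' := by
  refine MvPolynomial.algHom_ext fun s => ?_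
  simp only [AlgHom.comp_apply, kill, aeval_X]
  by_cases hs : rk s < k
  · rw [if_pos hs, map_zero, if_pos (by omega)]
  · rw [if_neg hs, aeval_X]

theorem chainP_mono (r m : ℕ) {k k' : ℕ} (h : k ≤ k') :
    chainP K r m k ≤ chainP K r m k' := by
  intro p hp
  have e := kill_kill (K := K) r m h
  simp only [chainP, RingHom.mem_ker, AlgHom.comp_apply] at hp ⊢
  rw [← DFunLike.congr_fun e, AlgHom.comp_apply, hp, map_zero]

theorem X_mem_chainP (r m k : ℕ) (p : Mat r m) :
    (X p : MvPolynomial (Mat r m) K) ∈ chainP K r m k ↔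
      rk (r := r) (m := m) (Sum.inl p.1) < k ∨ rk (r := r) (m := m) (Sum.inr p.2) < k := by
  simp only [chainP, RingHom.mem_ker, AlgHom.comp_apply, segre, kill, aeval_X, map_mul,
    mul_eq_zero]
  refine or_congr ?_ ?_ <;>
  · constructor
    · intro h
      by_contra hc
      rw [if_neg hc] at h
      exact X_ne_zero _ h
    · intro h
      rw [if_pos h]

theorem chainP_lt (r m k : ℕ) (hr : 0 < r) (hm : 0 < m) (hk : k < m - 1 + r) :
    chainP K r m k < chainP K r m (k + 1) := by
  refine lt_of_le_not_ge (chainP_mono r m (by omega)) fun hle => ?_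
  obtain ⟨p, h1, h2⟩ : ∃ p : Mat r m,
      (rk (r := r) (m := m) (Sum.inl p.1) < k + 1 ∨ rk (r := r) (m := m) (Sum.inr p.2) < k + 1) ∧
      ¬(rk (r := r) (m := m) (Sum.inl p.1) < k ∨ rk (r := r) (m := m) (Sum.inr p.2) < k) := by
    by_cases h : k < m - 1
    · refine ⟨(⟨0, hr⟩, ⟨k + 1, by omega⟩), Or.inr ?_, ?_⟩ <;> simp [rk] <;> omega
    by_cases h' : k < m - 1 + (r - 1)
    · refine ⟨(⟨k - (m - 1) + 1, by omega⟩, ⟨0, hm⟩), Or.inl ?_, ?_⟩ <;> simp [rk] <;> omega
    · refine ⟨(⟨0, hr⟩, ⟨0, hm⟩), Or.inl ?_, ?_⟩ <;> simp [rk] <;> omega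
  exact h2 ((X_mem_chainP (K := K) r m k p).mp (hle ((X_mem_chainP r m (k + 1) p).mpr h1)))

/-- A projective point of the Segre variety on few hyperplanes. -/
theorem exists_rank_one [IsAlgClosed K] {r m h : ℕ} (hr : 0 < r) (hm : 0 < m)
    (L : Fin h → MvPolynomial (Mat r m) K) (hL : ∀ i, L i ∈ chainP K r m (m - 1 + r))
    (hh : h + 2 ≤ r + m) :
    ∃ z : Mat r m → K, z ≠ 0 ∧ (∀ i, eval z (L i) = 0) ∧
      ∀ i i' j j', z (i, j) * z (i', j') = z (i, j') * z (i', j) := by
  classical
  set P0 := chainP K r m 0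
  set q := Ideal.Quotient.mk P0
  let Q : ℕ → Ideal (MvPolynomial (Mat r m) K ⧸ P0) := fun k => (chainP K r m k).map q
  have hQp : ∀ k, (Q k).IsPrime := fun k => by
    refine Ideal.map_isPrime_of_surjective Ideal.Quotient.mk_surjective ?_
    rw [Ideal.mk_ker]; exact chainP_mono r m (by omega)
  have hcm : ∀ k, (Q k).comap q = chainP K r m k := fun k => by
    rw [Ideal.comap_map_of_surjective _ Ideal.Quotient.mk_surjective, ← RingHom.ker_eq_comap_bot,
      Ideal.mk_ker, sup_eq_left.mpr (chainP_mono r m (by omega))]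
  have hheight : ∀ k, k ≤ m - 1 + r → (k : ℕ∞) ≤ (Q k).height := by
    intro k
    induction k with
    | zero => intro; simp
    | succ k ih =>
      intro hk
      haveI := hQp k
      haveI := hQp (k + 1)
      have hlt : Q k < Q (k + 1) := by
        refine lt_of_le_not_ge (Ideal.map_mono (chainP_mono r m (by omega))) fun hle => ?_
        have := Ideal.comap_mono (f := q) hle
        rw [hcm, hcm] at this
        exact (chainP_lt r m k hr hm (by omega)).not_ge this
      calc ((k + 1 : ℕ) : ℕ∞) = (k : ℕ∞) + 1 := by push_cast; rfl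
        _ ≤ (Q k).height + 1 := by gcongr; exact ih (by omega)
        _ ≤ (Q (k + 1)).height := Ideal.height_add_one_le_of_lt_of_isPrime hlt
  set N := m - 1 + r
  haveI := hQp N
  have hle : Ideal.span (Set.range fun i => q (L i)) ≤ Q N := by
    rw [Ideal.span_le]
    rintro _ ⟨i, rfl⟩
    exact Ideal.mem_map_of_mem _ (hL i)
  obtain ⟨p, hp, hpN⟩ := Ideal.exists_minimalPrimes_le hle
  have hpne : p ≠ Q N := by
    intro he
    have h1 := Ideal.height_le_card_of_mem_minimalPrimes_span (Set.finite_range _) (he ▸ hp)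
    have h2 := (hheight N le_rfl).trans h1
    have h3 : (Set.range fun i => q (L i)).ncard ≤ h := by
      refine le_trans (le_of_eq (by rw [← Set.image_univ])) ?_
      exact (Set.ncard_image_le Set.finite_univ).trans (by simp)
    have h4 : N ≤ h := le_trans (ENat.coe_le_coe.mp h2) h3
    omega
  haveI : p.IsPrime := hp.1.1
  set p' := p.comap q with hp'
  obtain ⟨z, hz, hz0⟩ : ∃ z ∈ zeroLocus K p', z ≠ 0 := by
    by_contra hc
    push Not at hc
    apply hpne
    refine le_antisymm hpN ?_
    have hN : chainP K r m N ≤ p' := by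
      rw [← MvPolynomial.IsPrime.vanishingIdeal_zeroLocus (k := K) (K := K) p']
      intro f hf
      rw [mem_vanishingIdeal_iff]
      intro x hx
      rw [hc x hx]
      have e : (aeval (fun s : Par r m => if rk s < N then 0 else (0 : K))).comp (segre K r m) =
          (aeval (0 : Mat r m → K) : MvPolynomial (Mat r m) K →ₐ[K] K) := by
        refine MvPolynomial.algHom_ext fun s => ?_
        simp [segre]
      have e2 : ((aeval (fun _ : Par r m => (0 : K))).comp (kill K r m N)) =
          aeval (fun s : Par r m => if rk s < N then 0 else (0 : K)) := by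
        refine MvPolynomial.algHom_ext fun s => ?_
        simp only [AlgHom.comp_apply, kill, aeval_X]
        split <;> simp
      rw [← DFunLike.congr_fun e, AlgHom.comp_apply, ← DFunLike.congr_fun e2, AlgHom.comp_apply]
      simp only [chainP, RingHom.mem_ker, AlgHom.comp_apply] at hf
      rw [hf, map_zero]
    calc Q N = (chainP K r m N).map q := rfl
      _ ≤ p'.map q := Ideal.map_mono hN
      _ ≤ p := Ideal.map_comap_le
  refine ⟨z, hz0, fun i => ?_, fun i i' j j' => ?_⟩
  · have : L i ∈ p' := hp.1.2 (Ideal.subset_span ⟨i, rfl⟩)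
    simpa [aeval_eq_eval] using hz _ this
  · have hmem : (X (i, j) * X (i', j') - X (i, j') * X (i', j) : MvPolynomial (Mat r m) K) ∈ p' := by
      rw [hp', Ideal.mem_comap]
      have : (X (i, j) * X (i', j') - X (i, j') * X (i', j) : MvPolynomial (Mat r m) K) ∈ P0 := by
        simp only [P0, chainP, kill_zero, RingHom.mem_ker, AlgHom.comp_apply, AlgHom.id_apply,
          segre, map_sub, map_mul, aeval_X]
        ring
      rw [Ideal.Quotient.eq_zero_iff_mem.mpr this]
      exact zero_mem _
    have := hz _ hmem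
    simpa [aeval_eq_eval, sub_eq_zero] using this

/-- A nondegenerate bilinear map `K^r × V → W` has `dim W ≥ dim V + r - 1`. -/
theorem hopf [IsAlgClosed K] {r : ℕ} (hr : 0 < r) {V W : Type} [AddCommGroup V] [Module K V]
    [FiniteDimensional K V] [AddCommGroup W] [Module K W] [FiniteDimensional K W]
    (β : (Fin r → K) →ₗ[K] V →ₗ[K] W) (hβ : ∀ c v, β c v = 0 → c = 0 ∨ v = 0)
    (hV : 0 < finrank K V) : r + finrank K V ≤ finrank K W + 1 := by
  classical
  by_contra hlt
  set m := finrank K V
  let bV := Module.finBasis K V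
  let bW := Module.finBasis K W
  let co : Fin (finrank K W) → Mat r m → K := fun k p =>
    bW.repr (β (Pi.single p.1 1) (bV p.2)) k
  let L : Fin (finrank K W) → MvPolynomial (Mat r m) K := fun k => ∑ p, C (co k p) * X p
  have hL : ∀ k, L k ∈ chainP K r m (m - 1 + r) := fun k =>
    Submodule.sum_mem _ fun p _ => Ideal.mul_mem_left _ _ <| (X_mem_chainP _ _ _ p).mpr <| by
      left
      have := p.1.isLt
      simp only [rk]
      split <;> omega
  obtain ⟨z, hz0, hzL, hrel⟩ := exists_rank_one hr hV L hL (by omega)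
  obtain ⟨⟨a, b⟩, hab⟩ := Function.ne_iff.mp hz0
  simp only [Pi.zero_apply] at hab
  let x : Fin r → K := fun i => z (i, b)
  let y : Fin m → K := fun j => z (a, j) / z (a, b)
  have hz : ∀ i j, x i * y j = z (i, j) := fun i j => by
    simp only [x, y, mul_div_assoc', div_eq_iff hab]
    rw [hrel i a b j, mul_comm]
  let v : V := ∑ j, y j • bV j
  have hxv : β x v = 0 := by
    have hx : x = ∑ i, x i • (Pi.single i (1 : K) : Fin r → K) := by
      funext i; simp [Finset.sum_apply, Pi.single_apply]
    refine bW.repr.injective (Finsupp.ext fun k => ?_)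
    have hk := hzL k
    simp only [L, map_sum, map_mul, eval_C, eval_X, Fintype.sum_prod_type] at hk
    rw [hx]
    simp only [v, map_sum, map_smul, LinearMap.sum_apply, LinearMap.smul_apply, map_zero,
      Finsupp.coe_finsetSum, Finset.sum_apply, Finsupp.smul_apply, Finsupp.coe_zero,
      Pi.zero_apply, smul_eq_mul]
    simp only [Finset.mul_sum]
    rw [Finset.sum_comm, ← hk]
    refine Finset.sum_congr rfl fun i _ => Finset.sum_congr rfl fun j _ => ?_
    rw [← hz]
    simp only [co]
    ring
  rcases hβ x v hxv with h | h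
  · exact hab (congrFun h a)
  · have := congrArg (fun w => bV.repr w b) h
    simp [v, y, Finsupp.single_apply, div_self hab] at this

/-- Two maps between spaces of equal positive dimension have a noninjective combination. -/
theorem pencil [IsAlgClosed K] {V W : Type} [AddCommGroup V] [Module K V]
    [FiniteDimensional K V] [AddCommGroup W] [Module K W] [FiniteDimensional K W]
    (A B : V →ₗ[K] W) (hd : finrank K V = finrank K W) (hV : 0 < finrank K V) :
    ∃ s t : K, (s ≠ 0 ∨ t ≠ 0) ∧ ¬ Function.Injective (s • A + t • B) := by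
  by_cases hB : Function.Injective B
  · let e : V ≃ₗ[K] W := LinearEquiv.ofBijective B
      ⟨hB, (LinearMap.injective_iff_surjective_of_finrank_eq_finrank hd).mp hB⟩
    have : Nontrivial V := Module.nontrivial_of_finrank_pos hV
    obtain ⟨μ, hμ⟩ := Module.End.exists_eigenvalue (e.symm.toLinearMap ∘ₗ A)
    obtain ⟨v, hv⟩ := hμ.exists_hasEigenvector
    refine ⟨1, -μ, Or.inl one_ne_zero, fun hinj => hv.2 (hinj ?_)⟩
    have h1 := congrArg e hv.apply_eq_smul
    simp only [LinearMap.comp_apply, LinearEquiv.coe_coe, LinearEquiv.apply_symm_apply,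
      map_smul] at h1
    have h2 : e v = B v := rfl
    simp [h1, h2]
  · exact ⟨0, 1, Or.inr one_ne_zero, by simpa using hB⟩

end

end Vale.Agent.P200
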