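import Vale.Agent.P200.Mono
import Vale.Agent.P200.Hopf

/-!
# Binary slices
-/

namespace Vale.Agent.P200

open MvPolynomial Module

noncomputable section

variable {K : Type} [Field K] {n : ℕ}

/-- Forms in the ideal avoid every point as soon as the list cuts out only the origin. -/
theorem avoid_of_regL (L : List (GForm K n)) {J : Ideal (Poly K n)} (hJ : ∀ a ∈ L, a.g ∈ J)
    {N : ℕ} (hN : hq (idl ⊥ L) N = 0) {j : ℕ} (hj : ∀ a ∈ L, a.k ≤ j) : Avoid J j := by
  intro v hv
  by_contra hc
  push Not at hc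
  obtain ⟨i, hi⟩ := Function.ne_iff.mp hv
  have h1 : ∀ a ∈ L, eval v a.g = 0 := fun a ha => by
    have := hc ((X i : Poly K n) ^ (j - a.k) * a.g) (J.mul_mem_left _ (hJ a ha))
      (by
        have := (isHomogeneous_X_pow (R := K) i (j - a.k)).mul a.hom
        rwa [Nat.sub_add_cancel (hj a ha)] at this)
    rw [map_mul, map_pow, eval_X] at this
    exact (mul_eq_zero.mp this).resolve_left (pow_ne_zero _ hi)
  have h2 : idl ⊥ L ≤ RingHom.ker (eval v) := idl_le bot_le fun a ha => h1 a ha
  have h3 := h2 (hq_eq_zero_iff.mp hN _ (isHomogeneous_X_pow i N))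
  rw [RingHom.mem_ker, map_pow, eval_X] at h3
  exact pow_ne_zero _ hi h3

theorem exists_eval_ne_zero [Infinite K] {p : Poly K n} {d : ℕ} (hp : p.IsHomogeneous d)
    (h0 : p ≠ 0) : ∃ v : Fin n → K, eval v p ≠ 0 := by
  by_contra h
  push Not at h
  exact h0 (hp.eq_zero_of_forall_eval_eq_zero h)

/-- A nonzero form of degree `j + 1` in a binary ideal bounds the next value. -/
theorem hq_succ_le [Infinite K] {U : Ideal (Poly K 2)} (hU : Homog U) {j : ℕ} {p : Poly K 2}
    (hp : p ∈ U) (hd : p.IsHomogeneous (j + 1)) (h0 : p ≠ 0) : hq U (j + 1) ≤ hq U j := by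
  obtain ⟨v, hv⟩ := exists_eval_ne_zero hd h0
  let l : Poly K 2 := v 1 • (X 0 : Poly K 2) - v 0 • (X 1 : Poly K 2)
  have hl : l.IsHomogeneous 1 :=
    Submodule.sub_mem (Forms K 2 1) (Submodule.smul_mem _ _ (isHomogeneous_X K _))
      (Submodule.smul_mem _ _ (isHomogeneous_X K _))
  have hlv : eval v l = 0 := by simp [l, smul_eval, mul_comm]
  have hl0 : l ≠ 0 := by
    intro h
    apply hv
    have hv0 : v = 0 := by
      funext i
      have h1 := congrArg (eval ![(1 : K), 0]) h
      have h2 := congrArg (eval ![(0 : K), 1]) h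
      simp [l, smul_eval] at h1 h2
      fin_cases i <;> simp [h1, h2]
    rw [hv0, eval_zero, constantCoeff_eq]
    exact hd.coeff_eq_zero (by simp)
  obtain ⟨C⟩ := exists_cut hl hl0
  have hz : hq (C.image U) (j + 1) = 0 := by
    have hne : C.φ p ≠ 0 := by
      intro h
      obtain ⟨q, hq⟩ := Ideal.mem_span_singleton'.mp (C.ker_iff.mp h)
      exact hv (by rw [← hq, map_mul, hlv, mul_zero])
    have hle : Submodule.span K {C.φ p} ≤ part (C.image U) (j + 1) :=
      (Submodule.span_singleton_le_iff_mem _ _).mpr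
        ⟨C.mem_image.mpr ⟨p, hp, rfl⟩, C.φ_hom _ _ hd⟩
    have h1 := Submodule.finrank_mono hle
    rw [finrank_span_singleton hne] at h1
    have h2 := hq_add (C.image U) (j + 1)
    rw [finrank_forms_one] at h2
    omega
  rw [C.hq_succ hU hl hl0, hz, zero_add]
  exact hq_anti (le_colon U l) j

theorem hq_two_le {U : Ideal (Poly K 2)} (j : ℕ) : hq U j ≤ j + 1 := by
  have := hq_add U j
  rw [finrank_forms_two] at this
  omega

theorem hq_succ_le_succ {U : Ideal (Poly K 2)} (hU : Homog U) (j : ℕ) :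
    hq U (j + 1) ≤ hq U j + 1 := by
  obtain ⟨C⟩ := exists_cut (isHomogeneous_X K (0 : Fin 2)) (X_ne_zero _)
  rw [C.hq_succ hU (isHomogeneous_X K _) (X_ne_zero _)]
  have h1 : hq (C.image U) (j + 1) ≤ 1 := by
    have := hq_add (C.image U) (j + 1)
    rw [finrank_forms_one] at this
    omega
  have := hq_anti (le_colon U (X 0)) j
  omega

theorem hq_le_degree [Infinite K] {U : Ideal (Poly K 2)} (hU : Homog U) {e : ℕ} {p : Poly K 2}
    (hp : p ∈ U) (hd : p.IsHomogeneous e) (h0 : p ≠ 0) :
    ∀ j, hq U j ≤ e := by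
  intro j
  induction j with
  | zero =>
    by_cases he : e = 0
    · subst he
      have : part U 0 = Forms K 2 0 := Submodule.eq_of_le_of_finrank_le (part_le_forms U 0) (by
        rw [finrank_forms_zero]
        have hle : Submodule.span K {p} ≤ part U 0 :=
          (Submodule.span_singleton_le_iff_mem _ _).mpr ⟨hp, hd⟩
        have := Submodule.finrank_mono hle
        rwa [finrank_span_singleton h0] at this)
      unfold hq; rw [this]; omega
    · have := hq_two_le (U := U) 0; omega
  | succ j ih =>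
    by_cases h : j + 1 < e
    · have := hq_two_le (U := U) (j + 1); omega
    · refine (hq_succ_le hU (p := (X 0 : Poly K 2) ^ (j + 1 - e) * p) (U.mul_mem_left _ hp) ?_
        (mul_ne_zero (pow_ne_zero _ (X_ne_zero _)) h0)).trans ih
      have := (isHomogeneous_X_pow (R := K) (0 : Fin 2) (j + 1 - e)).mul hd
      rwa [Nat.sub_add_cancel (by omega)] at this

theorem colon_part_eq {I : Ideal (Poly K (n + 1))} (hI : Homog I) {l : Poly K (n + 1)}
    (C : Cut K n l) (hl : l.IsHomogeneous 1) (hl0 : l ≠ 0) {j : ℕ}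
    (h0 : hq (C.image I) (j + 1) = 0) (hle : hq I j ≤ hq I (j + 1)) :
    part (colon I l) j = part I j := by
  have := C.hq_succ hI hl hl0 j
  exact (part_eq_of_hq_eq (le_colon I l) (by omega)).symm

/-- Without common zeros a binary quotient strictly decreases. -/
theorem hq_succ_lt [IsAlgClosed K] {U : Ideal (Poly K 2)} (hU : Homog U) {j : ℕ}
    (hA : Avoid U (j + 1)) (hpos : 0 < hq U j) : hq U (j + 1) < hq U j := by
  by_contra hge
  push Not at hge
  obtain ⟨p, hp, hd, hp0⟩ := hA (fun _ => 1) (fun h => one_ne_zero (congrFun h 0))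
  have hle := hq_succ_le hU hp hd (fun h => hp0 (by rw [h, map_zero]))
  have key : ∀ g : Forms K 2 1, (g : Poly K 2) ≠ 0 → Function.Injective (mulQ U g j) := by
    intro g hg0
    obtain ⟨C⟩ := exists_cut g.2 hg0
    have hc := colon_part_eq hU C g.2 hg0 (hq_eq_zero_one (C.avoid hA)) hge
    refine LinearMap.ker_eq_bot.mp (LinearMap.ker_eq_bot'.mpr fun x hx => ?_)
    induction x using Submodule.Quotient.induction_on with
    | _ q =>
      rw [mulQ_mk, Submodule.Quotient.mk_eq_zero] at hx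
      rw [Submodule.Quotient.mk_eq_zero]
      have h1 : (q : Poly K 2) ∈ part (colon U g) j := ⟨hx.1, q.2⟩
      rw [hc] at h1
      exact h1
  let g0 : Forms K 2 1 := ⟨X 0, isHomogeneous_X K _⟩
  let g1 : Forms K 2 1 := ⟨X 1, isHomogeneous_X K _⟩
  have hd' : finrank K (QPiece U j) = finrank K (QPiece U (j + 1)) := by
    rw [finrank_qPiece, finrank_qPiece]; omega
  obtain ⟨s, t, hst, hnot⟩ := pencil (mulQ U g0 j) (mulQ U g1 j) hd'
    (by rw [finrank_qPiece]; exact hpos)
  apply hnot
  have e : s • mulQ U g0 j + t • mulQ U g1 j = mulQ U (s • g0 + t • g1) j :=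
    LinearMap.ext fun x => by simp [mulQ_add, mulQ_smul]
  rw [e]
  refine key _ fun h => ?_
  have h1 := congrArg (eval ![(1 : K), 0]) h
  have h2 := congrArg (eval ![(0 : K), 1]) h
  simp [g0, g1, smul_eval] at h1 h2
  rcases hst with h' | h'
  · exact h' h1
  · exact h' h2

theorem hq_drop [IsAlgClosed K] {U : Ideal (Poly K 2)} (hU : Homog U) {r : ℕ}
    (hA : Avoid U r) : ∀ i j, r ≤ j + 1 → hq U (j + i) + i ≤ max (hq U j) i := by
  intro i
  induction i with
  | zero => intro j _; simp
  | succ i ih =>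
    intro j hj
    by_cases h0 : hq U (j + i) = 0
    · have : hq U (j + i + 1) = 0 := by
        obtain ⟨p, hp, hd, hp0⟩ := hA.up (show r ≤ j + i + 1 by omega) (fun _ => 1)
          (fun h => one_ne_zero (congrFun h 0))
        have := hq_succ_le hU hp hd (fun h => hp0 (by rw [h, map_zero]))
        omega
      rw [show j + (i + 1) = j + i + 1 by omega, this]; omega
    · have := hq_succ_lt hU (hA.up (show r ≤ j + i + 1 by omega)) (Nat.pos_of_ne_zero h0)
      have := ih j hj
      rw [show j + (i + 1) = j + i + 1 by omega]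
      omega

/-- Degree of a binary complete intersection. -/
theorem avoid_image_pair [IsAlgClosed K] {l : Poly K 3} (C : Cut K 2 l) {A B : GForm K 3}
    (h : RegL (Ideal.span {l}) [A, B]) {I : Ideal (Poly K 3)} (hA : A.g ∈ I) (hB : B.g ∈ I)
    {j : ℕ} (ha : A.k ≤ j) (hb : B.k ≤ j) : Avoid (C.image I) j := by
  classical
  have h' : RegL (⊥ ⊔ Ideal.span {l}) [A, B] := by rwa [bot_sup_eq]
  obtain ⟨hr, -⟩ := C.regL_image h'
  rw [C.image_bot] at hr
  refine avoid_of_regL ([A, B].map C.gform) (fun a ha' => ?_) (N := A.k + B.k) ?_ (fun a ha' => ?_)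
  · simp only [List.map_cons, List.map_nil, List.mem_cons, List.not_mem_nil, or_false] at ha'
    rcases ha' with rfl | rfl
    · exact C.mem_image.mpr ⟨_, hA, rfl⟩
    · exact C.mem_image.mpr ⟨_, hB, rfl⟩
  · rw [hq_regL hr [((0 : Fin 2), A.k), ((1 : Fin 2), B.k)] rfl (by simp)]
    rw [Finset.card_eq_zero, Finset.filter_eq_empty_iff]
    intro e he hlt
    rw [mem_degSet, Finsupp.degree_eq_sum, Fin.sum_univ_two] at he
    have h1 := hlt (0, A.k) (by simp)
    have h2 := hlt (1, B.k) (by simp)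
    simp only at h1 h2
    omega
  · simp only [List.map_cons, List.map_nil, List.mem_cons, List.not_mem_nil, or_false] at ha'
    rcases ha' with rfl | rfl <;> simpa [Cut.gform]

theorem cut_pair_ne_zero {l : Poly K (n + 1)} (hl : l.IsHomogeneous 1) (C : Cut K n l)
    {A B : GForm K (n + 1)} (h : RegL ⊥ [A, B]) : C.φ A.g ≠ 0 ∨ C.φ B.g ≠ 0 := by
  by_contra hc
  push Not at hc
  obtain ⟨α, hα⟩ := Ideal.mem_span_singleton'.mp (C.ker_iff.mp hc.1)
  obtain ⟨β, hβ⟩ := Ideal.mem_span_singleton'.mp (C.ker_iff.mp hc.2)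
  obtain ⟨hA, hB, -⟩ := h
  rw [bot_sup_eq] at hB
  have hA0 : A.g ≠ 0 := ne_zero_of_nzd (by simp) hA
  have h1 : α ∈ Ideal.span {A.g} := by
    refine hB _ (Ideal.mem_span_singleton.mpr ⟨β, ?_⟩)
    rw [← hα, ← hβ]; ring
  obtain ⟨γ, hγ⟩ := Ideal.mem_span_singleton'.mp h1
  have h2 : γ * l = 1 := by
    apply mul_right_cancel₀ hA0
    rw [one_mul]
    calc γ * l * A.g = γ * A.g * l := by ring
      _ = A.g := by rw [hγ, hα]
  have h3 := congrArg (eval (0 : Fin (n + 1) → K)) h2
  rw [map_mul, map_one] at h3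
  have : eval (0 : Fin (n + 1) → K) l = 0 := by
    rw [eval_zero, constantCoeff_eq]
    exact hl.coeff_eq_zero (by simp)
  rw [this, mul_zero] at h3
  exact zero_ne_one h3

/-- One step: either multiplication is nondegenerate, or there is a binary slice. -/
theorem step [IsAlgClosed K] {J : Ideal (Poly K 3)} (hJ : Homog J) {e : ℕ}
    (hA : Avoid J (e + 2)) :
    (hq J (e + 2) = 0 ∨ hq J (e + 2) + 2 ≤ hq J (e + 1)) ∨
      ∃ (J' : Ideal (Poly K 3)) (u u' : ℕ), J ≤ J' ∧ Homog J' ∧
        hq J (e + 1) = u + hq J' e ∧ hq J (e + 2) = u' + hq J' (e + 1) ∧ u' < u ∧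
        ∀ A B : GForm K 3, RegL ⊥ [A, B] → A.g ∈ J → B.g ∈ J → A.k ≤ B.k → ∀ r,
          Avoid J r → B.k ≤ r → r ≤ e + 2 → u + (e + 2) ≤ B.k + r := by
  by_cases hdeg : ∀ g : Forms K 3 1, (g : Poly K 3) ≠ 0 →
      hq (J ⊔ Ideal.span {(g : Poly K 3)}) (e + 2) = 0
  · left
    by_cases hm : hq J (e + 2) = 0
    · exact Or.inl hm
    right
    let L : (Fin 3 → K) →ₗ[K] Forms K 3 1 :=
      Fintype.linearCombination K fun i => (⟨X i, isHomogeneous_X K i⟩ : Forms K 3 1)
    let β : (Fin 3 → K) →ₗ[K] Module.Dual K (QPiece J (e + 2)) →ₗ[K]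
        Module.Dual K (QPiece J (e + 1)) :=
      LinearMap.mk₂ K (fun c ξ => ξ ∘ₗ mulQ J (L c) (e + 1))
        (fun c c' ξ => LinearMap.ext fun x => by simp [mulQ_add])
        (fun t c ξ => LinearMap.ext fun x => by simp [mulQ_smul])
        (fun c ξ ξ' => LinearMap.ext fun x => by simp)
        (fun t c ξ => LinearMap.ext fun x => by simp)
    have hinj : ∀ c ξ, β c ξ = 0 → c = 0 ∨ ξ = 0 := by
      intro c ξ h
      by_cases hc : c = 0
      · exact Or.inl hc
      right
      have hne : (L c : Poly K 3) ≠ 0 := by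
        intro h0
        apply hc
        funext k
        have := congrArg (eval (Pi.single k (1 : K))) h0
        simpa [L, Fintype.linearCombination_apply, smul_eval, Pi.single_apply] using this
      refine LinearMap.ext fun y => ?_
      obtain ⟨x, rfl⟩ := mulQ_surjective hJ (hdeg (L c) hne) y
      exact LinearMap.congr_fun h x
    have := hopf (r := 3) (by norm_num) β hinj
      (by rw [Subspace.dual_finrank_eq, finrank_qPiece]; omega)
    rw [Subspace.dual_finrank_eq, Subspace.dual_finrank_eq, finrank_qPiece, finrank_qPiece] at this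
    omega
  · right
    push Not at hdeg
    obtain ⟨g, hg0, hpos⟩ := hdeg
    obtain ⟨C⟩ := exists_cut g.2 hg0
    have hU : Homog (C.image J) := C.homog_image hJ
    rw [← C.hq_image hJ g.2] at hpos
    refine ⟨colon J g, hq (C.image J) (e + 1), hq (C.image J) (e + 2), le_colon J _,
      hJ.colon g.2, C.hq_succ hJ g.2 hg0 e, C.hq_succ hJ g.2 hg0 (e + 1), ?_, ?_⟩
    · refine hq_succ_lt hU (C.avoid hA) ?_
      obtain ⟨p, hp, hd, hp0⟩ := C.avoid hA (fun _ => 1) (fun h => one_ne_zero (congrFun h 0))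
      have h2 : hq (C.image J) (e + 2) ≤ hq (C.image J) (e + 1) :=
        hq_succ_le hU hp hd (fun h => hp0 (by rw [h, map_zero]))
      omega
    · intro A B hAB hAJ hBJ hle r hr hBr hre
      have hu0 : 0 < hq (C.image J) (e + 1) := by
        obtain ⟨p, hp, hd, hp0⟩ := C.avoid hA (fun _ => 1) (fun h => one_ne_zero (congrFun h 0))
        have h2 : hq (C.image J) (e + 2) ≤ hq (C.image J) (e + 1) :=
          hq_succ_le hU hp hd (fun h => hp0 (by rw [h, map_zero]))
        omega
      have hu : hq (C.image J) (r - 1) ≤ B.k := by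
        rcases cut_pair_ne_zero g.2 C hAB with h | h
        · exact (hq_le_degree hU (C.mem_image.mpr ⟨_, hAJ, rfl⟩) (C.φ_hom _ _ A.hom) h _).trans hle
        · exact hq_le_degree hU (C.mem_image.mpr ⟨_, hBJ, rfl⟩) (C.φ_hom _ _ B.hom) h _
      have hlast := hq_drop hU (C.avoid hr) (e + 2 - r) (r - 1) (by omega)
      have hr1 : r - 1 + (e + 2 - r) = e + 1 := by have := B.pos; omega
      rw [hr1] at hlast
      omega

end

end Vale.Agent.P200
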