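import Vale.Agent.P200.Extension
import Vale.Agent.P200.Annihilate

/-!
# A form of low degree from a window of constant codimension

The extension is torsion free of rank at most `D`; the characteristic polynomial of the second
operator has total degree at most the rank, because it divides a power of a balanced polynomial.
-/

namespace Vale.Agent.P200

open Module LinearMap Polynomial

noncomputable section

namespace Const

variable {K P V0 V1 V2 : Type} [Field K] [CommRing P] [Algebra K P] [AddCommGroup V0] [Module K V0]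
  [FiniteDimensional K V0] [AddCommGroup V1] [Module K V1] [FiniteDimensional K V1]
  [AddCommGroup V2] [Module K V2] [FiniteDimensional K V2] {D : ℕ}
  (W : Const K P V0 V1 V2 D)

/-- The first operator on the bottom level, free part forgotten. -/
def a0 : V0 →ₗ[K] V0 := LinearMap.fst K V0 (Fin D → K[X]) ∘ₗ W.j1 ∘ₗ W.X0

/-- The second operator on the bottom level, free part forgotten. -/
def b0 : V0 →ₗ[K] V0 := LinearMap.fst K V0 (Fin D → K[X]) ∘ₗ W.j1 ∘ₗ W.Y0

omit [FiniteDimensional K V0] [FiniteDimensional K V1] [FiniteDimensional K V2] in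
theorem aeval_fst (q : K[X]) (m : V0 × (Fin D → K[X])) :
    (aeval W.Xop q m).1 = aeval W.a0 q m.1 := by
  induction q using Polynomial.induction_on generalizing m with
  | C a => simp [Module.algebraMap_end_apply]
  | add q q' hq hq' => simp [hq, hq']
  | monomial k a ih =>
    rw [pow_succ, ← mul_assoc, map_mul (aeval W.Xop), map_mul (aeval W.a0), aeval_X, aeval_X,
      Module.End.mul_apply, Module.End.mul_apply, ih]
    congr 1
    rw [Xop_apply]
    simp [a0]

omit [FiniteDimensional K V0] [FiniteDimensional K V1] [FiniteDimensional K V2] in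
theorem snd_eq_zero_of_killed {c : K[X]} (hc : c.Monic) {m : V0 × (Fin D → K[X])}
    (hm : c • W.o m = 0) : m.2 = 0 := by
  funext i
  by_contra hi
  have e0 : m = (m.1, 0) + (0, m.2) := by simp
  rw [e0, map_add, smul_add, smul_free, smul_o, ← map_add, ← map_zero W.o] at hm
  have h3 := congrArg (fun m' : V0 × (Fin D → K[X]) =>
    (m'.2 i).coeff (c.natDegree + (m.2 i).natDegree)) (W.o.injective hm)
  have h4 : aeval W.Xop c (m.1, 0) ∈ Fil c.natDegree := by
    rw [aeval_eq_sum_range, LinearMap.sum_apply]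
    refine Submodule.sum_mem _ fun k hk => ?_
    rw [LinearMap.smul_apply]
    rw [Finset.mem_range] at hk
    exact Submodule.smul_mem _ _ (Fil_mono (by omega) (W.π_xpow k (fil_base m.1)).1)
  simp only [Prod.snd_add, Pi.add_apply, coeff_add, Prod.snd_zero, Pi.zero_apply, coeff_zero,
    Pi.smul_apply, smul_eq_mul, coeff_mul_degree_add_degree, hc.leadingCoeff, one_mul] at h3
  rw [h4 i _ (by omega), zero_add] at h3
  exact leadingCoeff_ne_zero.mpr hi h3

omit [FiniteDimensional K V1] [FiniteDimensional K V2] in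
/-- Classes killed by a monic polynomial give common eigenvectors, hence none exist. -/
theorem eq_zero_of_killed [IsAlgClosed K]
    (noEigen : ∀ (v : V0) (σ τ : K), (∀ g, W.ε0 v (W.x * g) = σ * W.ε0 v (W.l * g)) →
      (∀ g, W.ε0 v (W.y * g) = τ * W.ε0 v (W.l * g)) → v = 0)
    {c : K[X]} (hc : c.Monic) {n : W.M} (hn : c • n = 0) : n = 0 := by
  obtain ⟨⟨v, p⟩, rfl⟩ := W.o.surjective n
  obtain rfl : p = 0 := W.snd_eq_zero_of_killed hc hn
  let U : Submodule K V0 :=
    { carrier := {w | c • W.o (w, 0) = 0}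
      zero_mem' := by
        show c • W.o ((0, 0) : V0 × (Fin D → K[X])) = 0
        rw [Prod.mk_zero_zero, map_zero, smul_zero]
      add_mem' := fun {w w'} h h' => by
        show c • W.o ((w + w', 0) : V0 × (Fin D → K[X])) = 0
        rw [show ((w + w', 0) : V0 × (Fin D → K[X])) = (w, 0) + (w', 0) by simp, map_add,
          smul_add, h, h', add_zero]
      smul_mem' := fun a w h => by
        show c • W.o ((a • w, 0) : V0 × (Fin D → K[X])) = 0
        rw [show ((a • w, 0) : V0 × (Fin D → K[X])) = a • (w, 0) by simp, map_smul, ← W.C_smul,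
          smul_comm, h, smul_zero] }
  have hAx : ∀ w ∈ U, W.Xop (w, 0) = (W.a0 w, 0) ∧ W.a0 w ∈ U := by
    intro w hw
    have h3 : c • W.o (W.Xop (w, 0)) = 0 := by
      rw [← X_smul_o, smul_comm, show c • W.o (w, 0) = 0 from hw, smul_zero]
    have h4 : W.Xop (w, 0) = (W.a0 w, 0) := by
      refine Prod.ext ?_ (W.snd_eq_zero_of_killed hc h3)
      rw [Xop_apply]; simp [a0]
    exact ⟨h4, (h4 ▸ h3 : c • W.o (W.a0 w, 0) = 0)⟩
  have hBx : ∀ w ∈ U, W.Ym (W.o (w, 0)) = W.o (W.b0 w, 0) ∧ W.b0 w ∈ U := by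
    intro w hw
    have h4 : W.Ym (W.o (w, 0)) = W.o (W.j1 (W.Y0 w)) := by rw [Ym_o, Yk_apply]; simp
    have h5 : c • W.o (W.j1 (W.Y0 w)) = 0 := by
      rw [← h4, ← map_smul, show c • W.o (w, 0) = 0 from hw, map_zero]
    have h6 : W.j1 (W.Y0 w) = (W.b0 w, 0) := Prod.ext rfl (W.snd_eq_zero_of_killed hc h5)
    exact ⟨h6 ▸ h4, (h6 ▸ h5 : c • W.o (W.b0 w, 0) = 0)⟩
  by_contra hv
  have hvU : v ∈ U := hn
  have hUpos : 0 < finrank K U := Nat.pos_of_ne_zero fun h0 => by
    rw [Submodule.finrank_eq_zero.mp h0, Submodule.mem_bot] at hvU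
    exact hv (by rw [hvU]; exact map_zero W.o)
  let A : U →ₗ[K] U := W.a0.restrict fun w hw => (hAx w hw).2
  let B : U →ₗ[K] U := W.b0.restrict fun w hw => (hBx w hw).2
  have hcom : A ∘ₗ B - B ∘ₗ A = 0 := by
    refine LinearMap.ext fun w => Subtype.ext ?_
    simp only [LinearMap.sub_apply, comp_apply, LinearMap.zero_apply, Submodule.coe_sub,
      Submodule.coe_zero, sub_eq_zero]
    show W.a0 (W.b0 w) = W.b0 (W.a0 w)
    have e1 : W.Ym ((Polynomial.X : K[X]) • W.o ((w : V0), 0)) =
        (Polynomial.X : K[X]) • W.Ym (W.o ((w : V0), 0)) := map_smul W.Ym _ _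
    rw [X_smul_o, (hAx w w.2).1, (hBx w w.2).1, (hBx _ (hAx w w.2).2).1, X_smul_o,
      (hAx _ (hBx w w.2).2).1] at e1
    exact (congrArg Prod.fst (W.o.injective e1)).symm
  obtain ⟨w, hw0, σ, τ, hA, hB⟩ := exists_common_eigenvector _ U le_rfl hUpos A B
    (by rw [hcom, LinearMap.range_zero, finrank_bot]; omega)
  apply hw0
  refine Subtype.ext (noEigen (w : V0) σ τ (fun g => ?_) (fun g => ?_))
  · have e := W.π_x (fil_base (w : V0)) g
    rw [π_base, (hAx w w.2).1,
      show W.a0 (w : V0) = σ • (w : V0) from congrArg Subtype.val hA] at e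
    rw [← e, show ((σ • (w : V0)), (0 : Fin D → K[X])) = σ • ((w : V0), 0) by simp, π_smul,
      W.π_l 1 (fil_base _), π_base, pow_one]
  · have e := (W.π_y (fil_base (w : V0))).2 g
    rw [π_base, (hBx w w.2).1, LinearEquiv.symm_apply_apply,
      show W.b0 (w : V0) = τ • (w : V0) from congrArg Subtype.val hB] at e
    rw [← e, show ((τ • (w : V0)), (0 : Fin D → K[X])) = τ • ((w : V0), 0) by simp, π_smul,
      W.π_l 1 (fil_base _), π_base, pow_one]

/-- A basis of the extension with at most `D` members. -/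
theorem exists_basis [IsAlgClosed K]
    (noEigen : ∀ (v : V0) (σ τ : K), (∀ g, W.ε0 v (W.x * g) = σ * W.ε0 v (W.l * g)) →
      (∀ g, W.ε0 v (W.y * g) = τ * W.ε0 v (W.l * g)) → v = 0) :
    ∃ r, r ≤ D ∧ Nonempty (Basis (Fin r) K[X] W.M) := by
  set c := W.a0.charpoly with hc
  have hc1 : ∀ n : W.M, (W.o.symm (c • n)).1 = 0 := fun n => by
    obtain ⟨m, rfl⟩ := W.o.surjective n
    rw [smul_o, LinearEquiv.symm_apply_apply, aeval_fst, hc, W.a0.aeval_self_charpoly]
    rfl
  let f : W.M →ₗ[K[X]] (Fin D → K[X]) :=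
    { toFun := fun n => (W.o.symm (c • n)).2
      map_add' := fun n n' => by simp [smul_add]
      map_smul' := fun q n => by
        have e : c • n = W.o (0, (W.o.symm (c • n)).2) := W.o.symm.injective (by
          rw [LinearEquiv.symm_apply_apply]; exact Prod.ext (hc1 n) rfl)
        simp only [RingHom.id_apply]
        rw [smul_comm]
        conv_lhs => rw [e, smul_free, LinearEquiv.symm_apply_apply] }
  have hf : Function.Injective f := by
    refine ker_eq_bot.mp (ker_eq_bot'.mpr fun n hn =>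
      W.eq_zero_of_killed noEigen W.a0.charpoly_monic (W.o.symm.injective ?_))
    rw [map_zero]
    exact Prod.ext (hc1 n) hn
  obtain ⟨r, bN⟩ := Submodule.basisOfPid (Pi.basisFun K[X] (Fin D)) (range f)
  refine ⟨r, ?_, ⟨bN.map (LinearEquiv.ofInjective f hf).symm⟩⟩
  have := (bN.linearIndependent.map' (range f).subtype
    (Submodule.ker_subtype _)).fintype_card_le_finrank
  simpa using this

omit [FiniteDimensional K V0] [FiniteDimensional K V2] in
/-- A balanced monic polynomial killing the second operator. -/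
theorem exists_balanced :
    ∃ q : K[X][X], q.Monic ∧ (flat q).totalDegree ≤ q.natDegree ∧ aeval W.Ym q = 0 := by
  classical
  let h := finrank K V1
  let bV := Module.finBasis K V1
  let w0 : V1 → V1 := fun u => (W.e2.symm (W.Y1 u)).1
  let w1 : V1 → V1 := fun u => W.ι (W.e2.symm (W.Y1 u)).2
  let Q : Matrix (Fin h) (Fin h) K[X] := Matrix.of fun i k =>
    C (bV.repr (w0 (bV k)) i) + Polynomial.X * C (bV.repr (w1 (bV k)) i)
  let G : (Fin h → K[X]) →ₗ[K[X]] W.M :=
    Fintype.linearCombination K[X] fun k => W.o (W.j1 (bV k))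
  have hG : ∀ u : V1, W.o (W.j1 u) = ∑ i, C (bV.repr u i) • W.o (W.j1 (bV i)) := fun u => by
    conv_lhs => rw [← bV.sum_repr u]
    simp only [map_sum, map_smul, C_smul]
  have hGQ : W.Ym ∘ₗ G = G ∘ₗ Q.toLin' := by
    refine (Pi.basisFun K[X] (Fin h)).ext fun k => ?_
    rw [Pi.basisFun_apply, comp_apply, comp_apply, Matrix.toLin'_apply, Matrix.mulVec_single_one]
    simp only [G, Fintype.linearCombination_apply_single, one_smul, Ym_o, Yk_j1]
    rw [Fintype.linearCombination_apply]
    obtain ⟨u, hu⟩ : ∃ u, W.e2.symm (W.Y1 (bV k)) = u := ⟨_, rfl⟩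
    have e : W.j2 (W.Y1 (bV k)) = W.j1 (w0 (bV k)) + W.Xop (W.j1 (w1 (bV k))) := by
      have : W.Y1 (bV k) = W.e2 u := by rw [← hu, LinearEquiv.apply_symm_apply]
      simp only [w0, w1, hu]
      rw [this, j2_e2]
    rw [e, map_add, hG (w0 (bV k)), ← X_smul_o, hG (w1 (bV k)), Finset.smul_sum,
      ← Finset.sum_add_distrib]
    refine Finset.sum_congr rfl fun i _ => ?_
    simp [Q, Matrix.col_apply, add_smul, mul_smul]
    exact smul_comm _ _ _
  have hGs : Function.Surjective G := by
    rw [← range_eq_top, ← top_le_iff]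
    rintro n -
    obtain ⟨⟨v, p⟩, rfl⟩ := W.o.surjective n
    have hmem : ∀ u, W.o (W.j1 u) ∈ range G := fun u => by
      rw [hG]
      exact Submodule.sum_mem _ fun i _ => Submodule.smul_mem _ _
        ⟨Pi.single i 1, by simp [G, Fintype.linearCombination_apply_single]⟩
    have hp : ((0 : V0), p) = ∑ i, ((0 : V0), p i • (cv (Pi.single i 1) : Fin D → K[X])) := by
      refine Prod.ext (by simp [Prod.fst_sum]) ?_
      funext i
      simp [Prod.snd_sum, cv_apply, Finset.sum_apply, Pi.single_apply, apply_ite]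
    have e : ((v, p) : V0 × (Fin D → K[X])) = W.j1 (W.Z0 v) + (0, p) := by rw [j1_Z0]; simp
    rw [e, map_add, hp, map_sum]
    refine add_mem (hmem _) (Submodule.sum_mem _ fun i _ => ?_)
    rw [← W.smul_free, ← W.j1_ι]
    exact Submodule.smul_mem _ _ (hmem _)
  have hpow : ∀ q : K[X][X], (aeval W.Ym q) ∘ₗ G = G ∘ₗ (aeval Q q).toLin' := by
    intro q
    induction q using Polynomial.induction_on with
    | C a =>
      refine LinearMap.ext fun u => ?_
      simp only [comp_apply, aeval_C, Module.algebraMap_end_apply, Matrix.toLin'_apply]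
      rw [← map_smul]
      congr 1
      funext i
      simp [Matrix.algebraMap_eq_diagonal, Matrix.mulVec_diagonal]
    | add q q' hq hq' => rw [map_add, map_add, LinearMap.add_comp, hq, hq', map_add, LinearMap.comp_add]
    | monomial k a ih =>
      rw [pow_succ, ← mul_assoc, map_mul (aeval W.Ym), map_mul (aeval Q), aeval_X, aeval_X,
        Matrix.toLin'_mul,
        ← LinearMap.comp_assoc, ← ih, Module.End.mul_eq_comp, LinearMap.comp_assoc,
        LinearMap.comp_assoc, hGQ]
  refine ⟨Q.charpoly, Q.charpoly_monic, ?_, ?_⟩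
  · rw [Matrix.charpoly_natDegree_eq_dim, Fintype.card_fin]
    refine totalDegree_flat_charpoly Q fun i k => ?_
    simp only [Q, Matrix.of_apply]
    compute_degree
  · have := hpow Q.charpoly
    rw [Matrix.aeval_self_charpoly, map_zero, LinearMap.comp_zero] at this
    refine LinearMap.ext fun n => ?_
    obtain ⟨u, rfl⟩ := hGs n
    exact LinearMap.congr_fun this u

/-- A form of degree at most `D` annihilates the bottom level. -/
theorem exists_form [IsAlgClosed K]
    (noEigen : ∀ (v : V0) (σ τ : K), (∀ g, W.ε0 v (W.x * g) = σ * W.ε0 v (W.l * g)) →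
      (∀ g, W.ε0 v (W.y * g) = τ * W.ε0 v (W.l * g)) → v = 0) :
    ∃ (r : ℕ) (co : ℕ → ℕ → K), r ≤ D ∧ co 0 r = 1 ∧ ∀ v g,
      ∑ j ∈ Finset.range (r + 1), ∑ i ∈ Finset.range (r - j + 1),
        co i j * W.ε0 v (W.x ^ i * W.y ^ j * W.l ^ (r - i - j) * g) = 0 := by
  classical
  obtain ⟨r, hrD, ⟨bM⟩⟩ := W.exists_basis noEigen
  obtain ⟨q, hqm, hqb, hkill⟩ := W.exists_balanced
  set T : Matrix (Fin r) (Fin r) K[X] := LinearMap.toMatrixAlgEquiv bM W.Ym with hT
  have hTk : aeval T q = 0 := by rw [hT, aeval_algHom_apply, hkill, map_zero]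
  have hP0 : aeval W.Ym T.charpoly = 0 := by
    apply (LinearMap.toMatrixAlgEquiv bM).injective
    rw [← aeval_algHom_apply, map_zero, ← hT, Matrix.aeval_self_charpoly]
  have hnd : T.charpoly.natDegree = r := by
    rw [Matrix.charpoly_natDegree_eq_dim, Fintype.card_fin]
  have hbal : ∀ i j, r < i + j → (T.charpoly.coeff j).coeff i = 0 := fun i j hij =>
    coeff_eq_zero_of_dvd T.charpoly_monic hqm (charpoly_dvd_pow T _ hTk) hqb (hnd.symm ▸ hij)
  refine ⟨r, fun i j => (T.charpoly.coeff j).coeff i, hrD, ?_, fun v g => ?_⟩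
  · have := T.charpoly_monic.coeff_natDegree
    rw [hnd] at this
    show (T.charpoly.coeff r).coeff 0 = 1
    rw [this]; simp
  have hYpow : ∀ j : ℕ, W.o.symm ((W.Ym ^ j) (W.o (v, 0))) ∈ Fil j ∧
      ∀ g, W.π j (W.o.symm ((W.Ym ^ j) (W.o (v, 0)))) g = W.ε0 v (W.y ^ j * g) := by
    intro j
    induction j with
    | zero => exact ⟨by simpa using fil_base v, fun g => by simp [π_base]⟩
    | succ j ih =>
      obtain ⟨i1, i2⟩ := ih
      rw [pow_succ', Module.End.mul_apply]
      have := W.π_y i1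
      rw [LinearEquiv.apply_symm_apply] at this
      refine ⟨this.1, fun g => ?_⟩
      rw [this.2, i2, pow_succ, mul_assoc]
  have hz : W.π r (W.o.symm (aeval W.Ym T.charpoly (W.o (v, 0)))) g = 0 := by
    rw [hP0]; simp [π]
  rw [aeval_eq_sum_range, hnd, LinearMap.sum_apply, map_sum, π_sum] at hz
  rw [← hz]
  refine Finset.sum_congr rfl fun j hj => ?_
  rw [Finset.mem_range] at hj
  have hexp : T.charpoly.coeff j = ∑ i ∈ Finset.range (r - j + 1),
      C ((T.charpoly.coeff j).coeff i) * Polynomial.X ^ i := by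
    ext k
    simp only [finsetSum_coeff, coeff_C_mul_X_pow]
    rw [Finset.sum_ite_eq]
    split_ifs with h
    · rfl
    · rw [Finset.mem_range] at h
      exact hbal k j (by omega)
  rw [LinearMap.smul_apply]
  conv_rhs => rw [hexp]
  rw [Finset.sum_smul, map_sum, π_sum]
  refine Finset.sum_congr rfl fun i hi => ?_
  rw [Finset.mem_range] at hi
  obtain ⟨i1, i2⟩ := hYpow j
  rw [mul_smul, C_smul]
  obtain ⟨m, hm⟩ : ∃ m, W.o.symm ((W.Ym ^ j) (W.o (v, 0))) = m := ⟨_, rfl⟩
  rw [hm] at i1 i2
  rw [← W.o.apply_symm_apply ((W.Ym ^ j) (W.o (v, 0))), hm, smul_o, map_pow, aeval_X, map_smul,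
    LinearEquiv.symm_apply_apply, π_smul]
  obtain ⟨k1, k2⟩ := W.π_xpow i i1
  have e := W.π_l (r - i - j) k1 g
  rw [show j + i + (r - i - j) = r by omega, k2, i2] at e
  rw [e]
  congr 2
  ring

end Const

end

end Vale.Agent.P200
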