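import Vale.Agent.P200.Hopf

/-!
# Windows of commuting pencils

Three maps `X, Y, Z` between three consecutive spaces, pairwise commuting, with `Z` injective and
with all members of the pencil `X, Y` surjective modulo `Z`, the codimension of `Z` dropping by
exactly one, can be continued one step. When the codimension reaches zero a commutator of rank
at most one gives a common eigenvector.
-/

namespace Vale.Agent.P200

open Module LinearMap

variable {K : Type} [Field K]

/-- Endomorphisms whose commutator has rank at most one have a common eigenvector. -/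
theorem exists_common_eigenvector [IsAlgClosed K] :
    ∀ (N : ℕ) (V : Type) [AddCommGroup V] [Module K V] [FiniteDimensional K V],
      finrank K V ≤ N → 0 < finrank K V → ∀ A B : V →ₗ[K] V,
      finrank K (range (A ∘ₗ B - B ∘ₗ A)) ≤ 1 →
      ∃ v : V, v ≠ 0 ∧ ∃ s t : K, A v = s • v ∧ B v = t • v := by
  intro N
  induction N with
  | zero => intro V _ _ _ h h'; omega
  | succ N ih =>
    intro V _ _ _ hV hpos A B hC
    have : Nontrivial V := Module.nontrivial_of_finrank_pos hpos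
    obtain ⟨s, hs⟩ := Module.End.exists_eigenvalue A
    obtain ⟨v, hv⟩ := hs.exists_hasEigenvector
    set A' : V →ₗ[K] V := A - s • LinearMap.id with hA'
    have hv' : A' v = 0 := by simp [hA', hv.apply_eq_smul]
    have hcomm : ∀ x, A' (B x) - B (A' x) = (A ∘ₗ B - B ∘ₗ A) x := by
      intro x; simp [hA']
    -- a proper invariant subspace
    have key : (∀ x, A' x = 0) ∨ ∃ W : Submodule K V, W ≠ ⊥ ∧ W ≠ ⊤ ∧
        (∀ x ∈ W, A x ∈ W) ∧ (∀ x ∈ W, B x ∈ W) := by
      by_cases h0 : ∀ x, A' x = 0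
      · exact Or.inl h0
      right
      push Not at h0
      obtain ⟨x0, hx0⟩ := h0
      have hAW : ∀ x, A x = A' x + s • x := fun x => by simp [hA']
      by_cases hk : ∀ x, A' x = 0 → (A ∘ₗ B - B ∘ₗ A) x = 0
      · refine ⟨ker A', ?_, fun h => hx0 ?_, fun x hx => ?_, fun x hx => ?_⟩
        · exact fun h => hv.2 ((Submodule.mem_bot K).mp (h ▸ hv'))
        · exact mem_ker.mp (h ▸ Submodule.mem_top)
        · rw [mem_ker] at hx ⊢
          rw [hAW, hx, zero_add, map_smul, hx, smul_zero]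
        · rw [mem_ker] at hx ⊢
          have := hcomm x
          rw [hk x hx, hx, map_zero, sub_zero] at this
          exact this
      · push Not at hk
        obtain ⟨u, hu, hCu⟩ := hk
        have hCle : range (A ∘ₗ B - B ∘ₗ A) ≤ range A' := by
          have h1 : Submodule.span K {(A ∘ₗ B - B ∘ₗ A) u} = range (A ∘ₗ B - B ∘ₗ A) := by
            refine Submodule.eq_of_le_of_finrank_le
              ((Submodule.span_singleton_le_iff_mem _ _).mpr (mem_range_self _ u)) ?_
            rw [finrank_span_singleton hCu]; exact hC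
          rw [← h1, Submodule.span_singleton_le_iff_mem]
          exact ⟨B u, by have := hcomm u; rwa [hu, map_zero, sub_zero] at this⟩
        refine ⟨range A', fun h => hx0 ?_, fun h => hv.2 ?_, fun x hx => ?_, ?_⟩
        · exact (Submodule.mem_bot K).mp (h ▸ mem_range_self _ _)
        · exact (LinearMap.injective_iff_surjective.mpr (range_eq_top.mp h)) (by simpa using hv')
        · rw [hAW]
          exact Submodule.add_mem _ (mem_range_self _ _) (Submodule.smul_mem _ _ hx)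
        · rintro _ ⟨w, rfl⟩
          have e : B (A' w) = A' (B w) - (A ∘ₗ B - B ∘ₗ A) w := by rw [← hcomm w]; abel
          rw [e]
          exact Submodule.sub_mem _ (mem_range_self _ _) (hCle (mem_range_self _ _))
    rcases key with h0 | ⟨W, hW0, hWt, hAW, hBW⟩
    · obtain ⟨t, ht⟩ := Module.End.exists_eigenvalue B
      obtain ⟨w, hw⟩ := ht.exists_hasEigenvector
      refine ⟨w, hw.2, s, t, ?_, hw.apply_eq_smul⟩
      have := h0 w
      simpa [hA', sub_eq_zero] using this
    · have hWpos : 0 < finrank K W := Nat.pos_of_ne_zero fun h => hW0 (Submodule.finrank_eq_zero.mp h)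
      have hWlt : finrank K W < finrank K V := Submodule.finrank_lt hWt
      have hsub : (range (A.restrict hAW ∘ₗ B.restrict hBW - B.restrict hBW ∘ₗ A.restrict hAW)).map
          W.subtype ≤ range (A ∘ₗ B - B ∘ₗ A) := by
        rintro _ ⟨_, ⟨w, rfl⟩, rfl⟩
        exact ⟨(w : V), rfl⟩
      have h2 := Submodule.finrank_mono hsub
      rw [(Submodule.equivMapOfInjective _ W.injective_subtype _).finrank_eq.symm] at h2
      obtain ⟨w, hw, s', t', h3, h4⟩ :=
        ih W (by omega) hWpos (A.restrict hAW) (B.restrict hBW) (h2.trans hC)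
      exact ⟨w, fun h => hw (Subtype.ext h), s', t', congrArg Subtype.val h3,
        congrArg Subtype.val h4⟩

/-- A window of three commuting maps. -/
structure Window (K : Type) [Field K] (V0 V1 V2 : Type) [AddCommGroup V0] [Module K V0]
    [AddCommGroup V1] [Module K V1] [AddCommGroup V2] [Module K V2] where
  /-- first map, lower level -/
  X0 : V0 →ₗ[K] V1
  /-- second map, lower level -/
  Y0 : V0 →ₗ[K] V1
  /-- injective map, lower level -/
  Z0 : V0 →ₗ[K] V1
  /-- first map, upper level -/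
  X1 : V1 →ₗ[K] V2
  /-- second map, upper level -/
  Y1 : V1 →ₗ[K] V2
  /-- injective map, upper level -/
  Z1 : V1 →ₗ[K] V2
  xy : ∀ v, X1 (Y0 v) = Y1 (X0 v)
  xz : ∀ v, X1 (Z0 v) = Z1 (X0 v)
  yz : ∀ v, Y1 (Z0 v) = Z1 (Y0 v)
  z0 : Function.Injective Z0
  z1 : Function.Injective Z1
  gen : range X0 ⊔ range Y0 ⊔ range Z0 = ⊤
  surj : ∀ (s t : K), (s ≠ 0 ∨ t ≠ 0) → range (s • X1 + t • Y1) ⊔ range Z1 = ⊤

section

variable {V0 V1 V2 : Type} [AddCommGroup V0] [Module K V0] [FiniteDimensional K V0]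
  [AddCommGroup V1] [Module K V1] [FiniteDimensional K V1]
  [AddCommGroup V2] [Module K V2] [FiniteDimensional K V2]

/-- A common eigencovector of a window. -/
def HasEigen (W : Window K V0 V1 V2) : Prop :=
  ∃ (α β : K) (ψ1 : Dual K V1) (ψ2 : Dual K V2), ψ1 ≠ 0 ∧ (∀ v, ψ2 (W.Z1 v) = ψ1 v) ∧
    (∀ v, ψ2 (W.X1 v) = α * ψ1 v) ∧ (∀ v, ψ2 (W.Y1 v) = β * ψ1 v) ∧
    ∃ v, ψ1 (W.Z0 v) ≠ 0

omit [FiniteDimensional K V0] [FiniteDimensional K V1] [FiniteDimensional K V2] in
/-- Nonvanishing of an eigencovector one level below. -/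
theorem exists_eigen_ne_zero (W : Window K V0 V1 V2) {α β : K} {ψ1 : Dual K V1}
    {ψ2 : Dual K V2} (h : ψ1 ≠ 0) (hz : ∀ v, ψ2 (W.Z1 v) = ψ1 v)
    (hx : ∀ v, ψ2 (W.X1 v) = α * ψ1 v) (hy : ∀ v, ψ2 (W.Y1 v) = β * ψ1 v) :
    ∃ v, ψ1 (W.Z0 v) ≠ 0 := by
  by_contra hc
  push Not at hc
  apply h
  have h1 : range W.X0 ⊔ range W.Y0 ⊔ range W.Z0 ≤ ker ψ1 := by
    refine sup_le (sup_le ?_ ?_) ?_
    · rintro _ ⟨v, rfl⟩
      rw [mem_ker, ← hz, ← W.xz, hx, hc, mul_zero]
    · rintro _ ⟨v, rfl⟩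
      rw [mem_ker, ← hz, ← W.yz, hy, hc, mul_zero]
    · rintro _ ⟨v, rfl⟩
      exact hc v
  rw [W.gen] at h1
  exact LinearMap.ext fun v => h1 (Submodule.mem_top (x := v))

omit [FiniteDimensional K V0] in
/-- Simultaneous membership in the image of `Z` one level up forces membership one level below. -/
theorem Window.joint [IsAlgClosed K] (W : Window K V0 V1 V2) {q : ℕ}
    (h1 : finrank K V1 = finrank K V0 + (q + 2)) (h2 : finrank K V2 = finrank K V1 + (q + 1))
    {u : V1} (hx : W.X1 u ∈ range W.Z1) (hy : W.Y1 u ∈ range W.Z1) : u ∈ range W.Z0 := by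
  set U : Submodule K V1 := (range W.Z1).comap W.X1 ⊓ (range W.Z1).comap W.Y1
  have hle : range W.Z0 ≤ U := by
    rintro _ ⟨v, rfl⟩
    exact ⟨⟨W.X0 v, (W.xz v).symm⟩, ⟨W.Y0 v, (W.yz v).symm⟩⟩
  suffices hU : finrank K U ≤ finrank K (range W.Z0) by
    have := Submodule.eq_of_le_of_finrank_le hle hU
    rw [this]
    exact ⟨hx, hy⟩
  by_contra hgt
  push Not at hgt
  rw [finrank_range_of_inj W.z0] at hgt
  let fx : V1 ⧸ U →ₗ[K] V2 ⧸ range W.Z1 := U.mapQ (range W.Z1) W.X1 fun v hv => hv.1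
  let fy : V1 ⧸ U →ₗ[K] V2 ⧸ range W.Z1 := U.mapQ (range W.Z1) W.Y1 fun v hv => hv.2
  have hs : ∀ s t : K, (s ≠ 0 ∨ t ≠ 0) → Function.Surjective (s • fx + t • fy) := by
    intro s t hst y
    induction y using Submodule.Quotient.induction_on with
    | _ y =>
      obtain ⟨_, ⟨v, rfl⟩, _, ⟨w, rfl⟩, rfl⟩ :=
        Submodule.mem_sup.mp (W.surj s t hst ▸ Submodule.mem_top (x := y))
      refine ⟨Submodule.Quotient.mk v, ?_⟩
      simp only [LinearMap.add_apply, LinearMap.smul_apply, fx, fy, Submodule.mapQ_apply,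
        ← Submodule.Quotient.mk_smul, ← Submodule.Quotient.mk_add]
      rw [Submodule.Quotient.eq]
      exact ⟨-w, by simp⟩
  have e1 := Submodule.finrank_quotient_add_finrank U
  have e2 := Submodule.finrank_quotient_add_finrank (range W.Z1)
  rw [finrank_range_of_inj W.z1] at e2
  have e3 := LinearMap.finrank_range_le ((1 : K) • fx + (0 : K) • fy)
  rw [range_eq_top.mpr (hs 1 0 (Or.inl one_ne_zero)), finrank_top] at e3
  have e4 : finrank K (V1 ⧸ U) = finrank K (V2 ⧸ range W.Z1) := by omega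
  obtain ⟨s, t, hst, hnot⟩ := pencil fx fy e4 (by omega)
  exact hnot ((injective_iff_surjective_of_finrank_eq_finrank e4).mpr (hs s t hst))

omit [FiniteDimensional K V0] in
/-- The codimension drops to zero after finitely many steps and then gives an eigencovector. -/
theorem Window.hasEigen_zero [IsAlgClosed K] (W : Window K V0 V1 V2)
    (h1 : finrank K V1 = finrank K V0 + 1) (h2 : finrank K V2 = finrank K V1) : HasEigen W := by
  let e : V1 ≃ₗ[K] V2 := LinearEquiv.ofBijective W.Z1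
    ⟨W.z1, (injective_iff_surjective_of_finrank_eq_finrank h2.symm).mp W.z1⟩
  have he : ∀ v, e v = W.Z1 v := fun v => rfl
  set A : V1 →ₗ[K] V1 := e.symm.toLinearMap ∘ₗ W.X1
  set B : V1 →ₗ[K] V1 := e.symm.toLinearMap ∘ₗ W.Y1
  have hker : range W.Z0 ≤ ker (A ∘ₗ B - B ∘ₗ A) := by
    rintro _ ⟨v, rfl⟩
    have a1 : A (W.Z0 v) = W.X0 v :=
      e.injective ((e.apply_symm_apply (W.X1 (W.Z0 v))).trans ((W.xz v).trans (he _).symm))
    have b1 : B (W.Z0 v) = W.Y0 v :=
      e.injective ((e.apply_symm_apply (W.Y1 (W.Z0 v))).trans ((W.yz v).trans (he _).symm))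
    rw [mem_ker]
    change A (B (W.Z0 v)) - B (A (W.Z0 v)) = 0
    rw [a1, b1]
    simp [A, B, W.xy]
  have hr : finrank K (range (A ∘ₗ B - B ∘ₗ A)) ≤ 1 := by
    have := Submodule.finrank_mono hker
    rw [finrank_range_of_inj W.z0] at this
    have := finrank_range_add_finrank_ker (A ∘ₗ B - B ∘ₗ A)
    omega
  have hT : finrank K (range (A.dualMap ∘ₗ B.dualMap - B.dualMap ∘ₗ A.dualMap)) ≤ 1 := by
    have : A.dualMap ∘ₗ B.dualMap - B.dualMap ∘ₗ A.dualMap = (B ∘ₗ A - A ∘ₗ B).dualMap := by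
      ext φ v; simp
    rw [this, finrank_range_dualMap_eq_finrank_range, ← neg_sub, range_neg]
    exact hr
  obtain ⟨ψ, hψ, α, β, hα, hβ⟩ := exists_common_eigenvector _ (Dual K V1) le_rfl
    (by rw [Subspace.dual_finrank_eq]; omega) A.dualMap B.dualMap hT
  refine ⟨α, β, ψ, ψ ∘ₗ e.symm.toLinearMap, hψ, fun v => ?_, fun v => ?_, fun v => ?_, ?_⟩
  · simp [← he]
  · exact LinearMap.congr_fun hα v
  · exact LinearMap.congr_fun hβ v
  · exact exists_eigen_ne_zero W (ψ2 := ψ ∘ₗ e.symm.toLinearMap) hψ (fun v => by simp [← he])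
      (fun v => LinearMap.congr_fun hα v) (fun v => LinearMap.congr_fun hβ v)

end

/-- Koszul relations of the maps into the next level. -/
def kosz {V1 V2 : Type} [AddCommGroup V1] [Module K V1] [AddCommGroup V2] [Module K V2]
    (X Y Z : V1 →ₗ[K] V2) : V1 × V1 × V1 →ₗ[K] V2 × V2 × V2 :=
  LinearMap.prod (Y ∘ₗ LinearMap.fst K V1 (V1 × V1) + Z ∘ₗ LinearMap.fst K V1 V1 ∘ₗ LinearMap.snd K V1 (V1 × V1))
    (LinearMap.prod
      (-(X ∘ₗ LinearMap.fst K V1 (V1 × V1)) + Z ∘ₗ LinearMap.snd K V1 V1 ∘ₗ LinearMap.snd K V1 (V1 × V1))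
      (-(X ∘ₗ LinearMap.fst K V1 V1 ∘ₗ LinearMap.snd K V1 (V1 × V1)) -
        Y ∘ₗ LinearMap.snd K V1 V1 ∘ₗ LinearMap.snd K V1 (V1 × V1)))

theorem kosz_apply {V1 V2 : Type} [AddCommGroup V1] [Module K V1] [AddCommGroup V2] [Module K V2]
    (X Y Z : V1 →ₗ[K] V2) (u v w : V1) :
    kosz X Y Z (u, v, w) = (Y u + Z v, -X u + Z w, -X v - Y w) := rfl

/-- A window whose codimension drops by one has a common eigencovector. -/
theorem hasEigen_of_window [IsAlgClosed K] :
    ∀ (q : ℕ) (V0 V1 V2 : Type) [AddCommGroup V0] [Module K V0] [FiniteDimensional K V0]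
      [AddCommGroup V1] [Module K V1] [FiniteDimensional K V1]
      [AddCommGroup V2] [Module K V2] [FiniteDimensional K V2] (W : Window K V0 V1 V2),
      finrank K V1 = finrank K V0 + (q + 1) → finrank K V2 = finrank K V1 + q → HasEigen W := by
  intro q
  induction q with
  | zero => intro V0 V1 V2 _ _ _ _ _ _ _ _ _ W h1 h2; exact W.hasEigen_zero h1 h2
  | succ q ih =>
    intro V0 V1 V2 _ _ _ _ _ _ _ _ _ W h1 h2
    set R := range (kosz W.X1 W.Y1 W.Z1) with hR
    let p : V2 × V2 × V2 →ₗ[K] (V2 × V2 × V2) ⧸ R := R.mkQ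
    let X2 : V2 →ₗ[K] (V2 × V2 × V2) ⧸ R := p ∘ₗ LinearMap.inl K V2 (V2 × V2)
    let Y2 : V2 →ₗ[K] (V2 × V2 × V2) ⧸ R :=
      p ∘ₗ LinearMap.inr K V2 (V2 × V2) ∘ₗ LinearMap.inl K V2 V2
    let Z2 : V2 →ₗ[K] (V2 × V2 × V2) ⧸ R :=
      p ∘ₗ LinearMap.inr K V2 (V2 × V2) ∘ₗ LinearMap.inr K V2 V2
    have hX2 : ∀ v, X2 v = Submodule.Quotient.mk (v, 0, 0) := fun v => rfl
    have hY2 : ∀ v, Y2 v = Submodule.Quotient.mk (0, v, 0) := fun v => rfl
    have hZ2 : ∀ v, Z2 v = Submodule.Quotient.mk (0, 0, v) := fun v => rfl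
    have hxy : ∀ v, X2 (W.Y1 v) = Y2 (W.X1 v) := fun v => by
      rw [hX2, hY2, Submodule.Quotient.eq]
      exact ⟨(v, 0, 0), by simp [kosz_apply]⟩
    have hxz : ∀ v, X2 (W.Z1 v) = Z2 (W.X1 v) := fun v => by
      rw [hX2, hZ2, Submodule.Quotient.eq]
      exact ⟨(0, v, 0), by simp [kosz_apply]⟩
    have hyz : ∀ v, Y2 (W.Z1 v) = Z2 (W.Y1 v) := fun v => by
      rw [hY2, hZ2, Submodule.Quotient.eq]
      exact ⟨(0, 0, v), by simp [kosz_apply]⟩
    have hker : ∀ u v w, W.Y1 u + W.Z1 v = 0 → -W.X1 u + W.Z1 w = 0 →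
        ∃ v0, u = W.Z0 v0 ∧ v = -W.Y0 v0 ∧ w = W.X0 v0 := by
      intro u v w e1 e2
      obtain ⟨v0, rfl⟩ := W.joint h1 h2 (u := u)
        ⟨w, by rw [neg_add_eq_zero] at e2; exact e2.symm⟩
        ⟨-v, by rw [map_neg]; exact (eq_neg_of_add_eq_zero_left e1).symm⟩
      refine ⟨v0, rfl, W.z1 ?_, W.z1 ?_⟩
      · rw [map_neg, ← W.yz]; exact eq_neg_of_add_eq_zero_right e1
      · rw [← W.xz]; rw [neg_add_eq_zero] at e2; exact e2.symm
    have hz2 : Function.Injective Z2 := by
      refine LinearMap.ker_eq_bot.mp (LinearMap.ker_eq_bot'.mpr fun v hv => ?_)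
      rw [hZ2, Submodule.Quotient.mk_eq_zero] at hv
      obtain ⟨⟨u, v', w⟩, he⟩ := hv
      rw [kosz_apply] at he
      simp only [Prod.mk.injEq] at he
      obtain ⟨v0, rfl, rfl, rfl⟩ := hker u v' w he.1 he.2.1
      rw [← he.2.2, map_neg, neg_neg, W.xy, sub_self]
    have hgen : range W.X1 ⊔ range W.Y1 ⊔ range W.Z1 = ⊤ := by
      refine top_le_iff.mp ((W.surj 1 0 (Or.inl one_ne_zero)).ge.trans (sup_le_sup_right ?_ _))
      rw [one_smul, zero_smul, add_zero]
      exact le_sup_left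
    have hsurj : ∀ (s t : K), (s ≠ 0 ∨ t ≠ 0) → range (s • X2 + t • Y2) ⊔ range Z2 = ⊤ := by
      intro s t hst
      refine top_le_iff.mp fun y _ => ?_
      induction y using Submodule.Quotient.induction_on with
      | _ y =>
        obtain ⟨a, b, c⟩ := y
        obtain ⟨_, ⟨u, rfl⟩, _, ⟨z, rfl⟩, hu⟩ :=
          Submodule.mem_sup.mp (W.surj s t hst ▸ Submodule.mem_top (x := s • b - t • a))
        simp only [LinearMap.add_apply, LinearMap.smul_apply] at hu
        rcases (em (s = 0)).symm with hs | hs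
        · refine Submodule.mem_sup.mpr ⟨_, ⟨s⁻¹ • (a + W.Y1 u), rfl⟩, _,
            ⟨c + W.Y1 (s⁻¹ • z), rfl⟩, ?_⟩
          simp only [LinearMap.add_apply, LinearMap.smul_apply, hX2, hY2, hZ2,
            ← Submodule.Quotient.mk_smul, ← Submodule.Quotient.mk_add]
          rw [Submodule.Quotient.eq]
          refine ⟨(u, 0, -(s⁻¹ • z)), ?_⟩
          have hb : b = t • s⁻¹ • a + W.X1 u + t • s⁻¹ • W.Y1 u + s⁻¹ • W.Z1 z := by
            have := congrArg (fun x => s⁻¹ • x) hu
            simp only [smul_add, smul_sub, smul_smul, inv_mul_cancel₀ hs, one_smul] at this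
            simp only [smul_smul]
            rw [mul_comm t s⁻¹]
            rw [eq_sub_iff_add_eq] at this
            rw [← this]
            abel
          subst hb
          simp only [kosz_apply, map_zero, add_zero, map_neg, map_smul, smul_add, smul_smul,
            mul_inv_cancel₀ hs, one_smul, Prod.smul_mk, smul_zero, Prod.mk_add_mk, Prod.mk_sub_mk,
            Prod.mk.injEq]
          exact ⟨by abel, by abel, by abel⟩
        · subst hs
          have ht : t ≠ 0 := hst.resolve_left fun h => h rfl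
          refine Submodule.mem_sup.mpr ⟨_, ⟨t⁻¹ • (b - W.X1 u), rfl⟩, _,
            ⟨c - W.X1 (t⁻¹ • z), rfl⟩, ?_⟩
          simp only [LinearMap.add_apply, LinearMap.smul_apply, hX2, hY2, hZ2,
            ← Submodule.Quotient.mk_smul, ← Submodule.Quotient.mk_add]
          rw [Submodule.Quotient.eq]
          refine ⟨(u, t⁻¹ • z, 0), ?_⟩
          have ha : a = -(W.Y1 u + t⁻¹ • W.Z1 z) := by
            have := congrArg (fun x => t⁻¹ • x) hu
            simp only [zero_smul, zero_add, zero_sub, smul_add, smul_neg, smul_smul,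
              inv_mul_cancel₀ ht, one_smul] at this
            rw [this, neg_neg]
          subst ha
          simp only [kosz_apply, map_zero, map_smul, smul_smul, zero_smul,
            mul_inv_cancel₀ ht, one_smul, Prod.smul_mk, smul_zero, Prod.ext_iff, Prod.fst_add,
            Prod.snd_add, Prod.fst_sub, Prod.snd_sub, Prod.fst_zero, Prod.snd_zero]
          exact ⟨by abel, by abel, by abel⟩
    have e := finrank_range_add_finrank_ker (kosz W.X1 W.Y1 W.Z1)
    have ek : ker (kosz W.X1 W.Y1 W.Z1) = range (LinearMap.prod W.Z0 (LinearMap.prod (-W.Y0) W.X0)) := by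
      ext ⟨u, v, w⟩
      rw [mem_ker, kosz_apply]
      constructor
      · intro h
        simp only [Prod.mk_eq_zero] at h
        obtain ⟨v0, rfl, rfl, rfl⟩ := hker u v w h.1 h.2.1
        exact ⟨v0, rfl⟩
      · rintro ⟨v0, hv0⟩
        simp only [LinearMap.prod_apply, Function.prod, LinearMap.neg_apply, Prod.mk.injEq] at hv0
        obtain ⟨rfl, rfl, rfl⟩ := hv0
        simp [W.yz, W.xz, W.xy]
    rw [ek, finrank_range_of_inj (fun v w h => W.z0 (congrArg Prod.fst h)), Module.finrank_prod,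
      Module.finrank_prod, ← hR] at e
    have e2 := Submodule.finrank_quotient_add_finrank R
    rw [Module.finrank_prod, Module.finrank_prod] at e2
    let W' : Window K V1 V2 ((V2 × V2 × V2) ⧸ R) :=
      ⟨W.X1, W.Y1, W.Z1, X2, Y2, Z2, hxy, hxz, hyz, W.z1, hz2, hgen, hsurj⟩
    obtain ⟨α, β, ψ2, ψ3, hψ, hz, hx, hy, v, hv⟩ := ih V1 V2 _ W' (by omega) (by omega)
    have hψ1 : ψ2 ∘ₗ W.Z1 ≠ 0 := fun h => hv (LinearMap.congr_fun h v)
    refine ⟨α, β, ψ2 ∘ₗ W.Z1, ψ2, hψ1, fun _ => rfl, fun w => ?_, fun w => ?_, ?_⟩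
    · change ψ2 (W.X1 w) = α * ψ2 (W.Z1 w)
      rw [← hx, ← hz]; exact congrArg ψ3 (hxz w).symm
    · change ψ2 (W.Y1 w) = β * ψ2 (W.Z1 w)
      rw [← hy, ← hz]; exact congrArg ψ3 (hyz w).symm
    · refine exists_eigen_ne_zero W (α := α) (β := β) (ψ2 := ψ2) hψ1 (fun _ => rfl) ?_ ?_
      · intro w
        change ψ2 (W.X1 w) = α * ψ2 (W.Z1 w)
        rw [← hx, ← hz]; exact congrArg ψ3 (hxz w).symm
      · intro w
        change ψ2 (W.Y1 w) = β * ψ2 (W.Z1 w)
        rw [← hy, ← hz]; exact congrArg ψ3 (hyz w).symm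

end Vale.Agent.P200
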