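import Vale.Agent.P200.Pos

/-!
# Replacing the first form by a form of lower degree

If a form of degree `r` lies in the ideal, then it starts a regular sequence of degrees `r, b, c`
inside the ideal, which bounds the Hilbert function by a smaller box.
-/

namespace Vale.Agent.P200

open MvPolynomial Module Finset

noncomputable section

variable {K : Type} [Field K]

/-- An element of one degree avoiding all associated primes. -/
theorem exists_nzd_mem [Infinite K] {n : ℕ} {I J : Ideal (Poly K n)} {j : ℕ}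
    (h : ∀ p ∈ associatedPrimes (Poly K n) (Poly K n ⧸ I), ∃ g ∈ part J j, g ∉ p) :
    ∃ g ∈ part J j, NZD I g := by
  classical
  let P : Set (Ideal (Poly K n)) := associatedPrimes (Poly K n) (Poly K n ⧸ I)
  have hPf : P.Finite := associatedPrimes.finite _ _
  let sub : Ideal (Poly K n) → Subspace K (part J j) := fun p =>
    (p.restrictScalars K).comap (part J j).subtype
  let s : Finset (Subspace K (part J j)) := hPf.toFinset.image sub
  have hs : ⊤ ∉ s := by
    intro hh
    obtain ⟨p, hp, hpt⟩ := mem_image.mp hh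
    rw [Set.Finite.mem_toFinset] at hp
    obtain ⟨g, hg, hgp⟩ := h p hp
    exact hgp (show (⟨g, hg⟩ : part J j) ∈ sub p from hpt ▸ Submodule.mem_top)
  obtain ⟨x, hx⟩ :=
    (Set.ne_univ_iff_exists_notMem _).mp (Subspace.biUnion_ne_univ_of_top_notMem hs)
  simp only [Set.mem_iUnion, not_exists] at hx
  refine ⟨x, x.2, fun p hp => ?_⟩
  by_contra hpI
  have hz : (x : Poly K n) ∈ {r : Poly K n | ∃ y : Poly K n ⧸ I, y ≠ 0 ∧ r • y = 0} :=
    ⟨Ideal.Quotient.mk _ p, by simpa [Ideal.Quotient.eq_zero_iff_mem] using hpI,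
      (by change Ideal.Quotient.mk I ((x : Poly K n) * p) = 0;
          exact Ideal.Quotient.eq_zero_iff_mem.mpr hp)⟩
  rw [← biUnion_associatedPrimes_eq_zero_divisors] at hz
  obtain ⟨q, hq, hxq⟩ := Set.mem_iUnion₂.mp hz
  exact hx (sub q) (mem_image_of_mem _ (hPf.mem_toFinset.mpr hq)) hxq

/-- Associated primes as annihilators. -/
theorem exists_colon_of_assoc {n : ℕ} {I p : Ideal (Poly K n)}
    (hp : p ∈ associatedPrimes (Poly K n) (Poly K n ⧸ I)) :
    p.IsPrime ∧ ∃ f, f ∉ I ∧ ∀ r, r ∈ p → r * f ∈ I := by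
  obtain ⟨hprime, x, hx⟩ := isAssociatedPrime_iff.mp hp
  obtain ⟨f, rfl⟩ := Ideal.Quotient.mk_surjective x
  have hmem : ∀ r : Poly K n, r ∈ p ↔ r * f ∈ I := by
    intro r
    rw [hx, Submodule.mem_colon_singleton, Submodule.mem_bot]
    change Ideal.Quotient.mk I (r * f) = 0 ↔ _
    exact Ideal.Quotient.eq_zero_iff_mem
  refine ⟨hprime, f, fun hf => hprime.ne_top ((Ideal.eq_top_iff_one p).mpr ?_),
    fun r => (hmem r).mp⟩
  exact (hmem 1).mpr (by simpa using hf)

/-- A form all of whose multiples in one degree lie in a prime lies in it. -/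
theorem mem_of_multiples {n : ℕ} [NeZero n] {J p : Ideal (Poly K n)} (hp : p.IsPrime)
    {F : GForm K n} (hF : F.g ∈ J) {j : ℕ} (hj : F.k ≤ j)
    (h : ∀ g ∈ part J j, g ∈ p) : F.g ∈ p := by
  by_contra hnot
  have hX : ∀ i, (X i : Poly K n) ∈ p := fun i => by
    have hm : (X i : Poly K n) ^ (j - F.k) * F.g ∈ part J j :=
      ⟨J.mul_mem_left _ hF, by
        have := (isHomogeneous_X_pow (R := K) i (j - F.k)).mul F.hom
        rwa [Nat.sub_add_cancel hj] at this⟩
    exact hp.mem_of_pow_mem _ ((hp.mem_or_mem (h _ hm)).resolve_right hnot)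
  apply hnot
  have hspan : F.g ∈ Ideal.span (Set.range (X : Fin n → Poly K n)) := by
    rw [← Set.image_univ, mem_ideal_span_X_image]
    intro m hm
    have hne : m ≠ 0 := by
      intro h0
      have := F.hom.degree_eq_sum_deg_support hm
      simp [h0] at this
      have := F.pos
      omega
    obtain ⟨i, hi⟩ := Finsupp.ne_iff.mp hne
    exact ⟨i, trivial, hi⟩
  exact (Ideal.span_le.mpr (Set.range_subset_iff.mpr hX)) hspan

/-- A form of degree `r` in the ideal bounds the Hilbert function by the box `r × b × c`. -/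
theorem hq_le_pos [Infinite K] {J : Ideal (Poly K 3)} {A B C Φ : GForm K 3}
    (h : RegL ⊥ [A, B, C]) (hA : A.g ∈ J) (hB : B.g ∈ J) (hC : C.g ∈ J) (hΦ : Φ.g ∈ J)
    (hΦ0 : Φ.g ≠ 0) (hab : A.k ≤ B.k) (hbc : B.k ≤ C.k) (d : ℕ) :
    hq J d ≤ pos B.k C.k d Φ.k := by
  classical
  have hzA : NZD (⊥ ⊔ Ideal.span {A.g}) B.g := h.2.1
  have hA0 : A.g ≠ 0 := ne_zero_of_nzd (by simp) h.1
  have hB0 : B.g ≠ 0 := by
    intro h0
    have h1 : (1 : Poly K 3) ∈ ⊥ ⊔ Ideal.span {A.g} := hzA 1 (by rw [h0, zero_mul]; exact zero_mem _)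
    rw [bot_sup_eq, Ideal.mem_span_singleton'] at h1
    obtain ⟨q, hq⟩ := h1
    have := congrArg (eval (0 : Fin 3 → K)) hq
    rw [map_mul, map_one, eval_zero, constantCoeff_eq,
      A.hom.coeff_eq_zero (by simp; have := A.pos; omega), mul_zero] at this
    exact zero_ne_one this
  have hbot : NZD (⊥ : Ideal (Poly K 3)) Φ.g := fun p hp => by
    simp only [Ideal.mem_bot, mul_eq_zero] at hp ⊢
    exact hp.resolve_left hΦ0
  -- the second form
  obtain ⟨g, hg, hgz⟩ := exists_nzd_mem (I := ⊥ ⊔ Ideal.span {Φ.g}) (J := J) (j := B.k) (by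
    intro p hp
    obtain ⟨hprime, f, hf, hmem⟩ := exists_colon_of_assoc hp
    by_contra hc
    push Not at hc
    have hAp := mem_of_multiples hprime hA hab hc
    have hBp := mem_of_multiples hprime hB le_rfl hc
    rw [bot_sup_eq] at hf hmem
    obtain ⟨α, hα⟩ := Ideal.mem_span_singleton'.mp (hmem _ hAp)
    obtain ⟨β, hβ⟩ := Ideal.mem_span_singleton'.mp (hmem _ hBp)
    have h1 : B.g * α = β * A.g := mul_right_cancel₀ hΦ0 (by
      rw [mul_assoc, hα, mul_right_comm β A.g Φ.g, hβ]; ring)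
    obtain ⟨γ, hγ⟩ : ∃ γ, γ * A.g = α := Ideal.mem_span_singleton'.mp (by
      have := hzA α (by
        rw [bot_sup_eq, h1]
        exact Ideal.mul_mem_left _ _ (Ideal.mem_span_singleton_self _))
      rwa [bot_sup_eq] at this)
    exact hf (Ideal.mem_span_singleton'.mpr ⟨γ, mul_left_cancel₀ hA0 (by
      rw [← hα, ← hγ]; ring)⟩))
  let B' : GForm K 3 := ⟨g, B.k, hg.2, B.pos⟩
  have hreg2 : RegL ⊥ [Φ, B'] := ⟨hbot, hgz, trivial⟩
  -- the third form
  obtain ⟨g3, hg3, hg3z⟩ := exists_nzd_mem (I := idl ⊥ [Φ, B']) (J := J) (j := C.k) (by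
    intro p hp
    obtain ⟨hprime, f, hf, hmem⟩ := exists_colon_of_assoc hp
    by_contra hc
    push Not at hc
    have hle : idl ⊥ [A, B, C] ≤ p := idl_le bot_le (by
      simp only [List.mem_cons, List.not_mem_nil, or_false]
      rintro F (rfl | rfl | rfl)
      · exact mem_of_multiples hprime hA (hab.trans hbc) hc
      · exact mem_of_multiples hprime hB hbc hc
      · exact mem_of_multiples hprime hC le_rfl hc)
    have hX : ∀ i, (X i : Poly K 3) ∈ p := fun i => by
      refine hprime.mem_of_pow_mem (A.k + B.k + C.k) (hle ?_)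
      refine hq_eq_zero_iff.mp ?_ _ (isHomogeneous_X_pow i _)
      rw [hq_box h, boxSet_empty (by omega), card_empty]
    refine hf (mem_of_components fun e => ?_)
    have hI : Homog (idl ⊥ [Φ, B']) := Homog.bot.idl _
    refine noSoc_regL 2 3 [Φ, B'] rfl (by norm_num) hreg2 e (by omega) _
      (homogeneousComponent_isHomogeneous e f) fun i => ?_
    rw [← component_mul (isHomogeneous_X K i)]
    exact hI _ (hmem _ (hX i)) _)
  let C' : GForm K 3 := ⟨g3, C.k, hg3.2, C.pos⟩
  have hreg3 : RegL ⊥ [Φ, B', C'] := (regL_append ⊥ [Φ, B'] [C']).mpr ⟨hreg2, hg3z, trivial⟩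
  exact (hq_le_box hreg3 hΦ hg.1 hg3.1 d).trans_eq (card_pos _ _ _ _)

end

end Vale.Agent.P200
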