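import Vale.Agent.P200.Point
import Vale.Agent.P200.Ladder
import Vale.Agent.P200.Curve
import Vale.Agent.P200.Replace

/-!
# The borderline cases of the growth bound

The drop of the Hilbert function rises by exactly one (two windows with an eigencovector, hence a
point), or not at all (a form of low degree).
-/

namespace Vale.Agent.P200

open MvPolynomial Module

noncomputable section

variable {K : Type} [Field K] [IsAlgClosed K] {J : Ideal (Poly K 3)} {l : Forms K 3 1}

omit [IsAlgClosed K] in
theorem mulQ_combination (F : Frame l) {e : ℕ} (L : Forms K 3 1) :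
    ∃ s t r : K, ∀ u : QPiece J e, mulQ J L e u =
      s • mulQ J F.x e u + t • mulQ J F.y e u + r • mulQ J l e u := by
  obtain ⟨s, t, r, rfl⟩ := F.spans L
  exact ⟨s, t, r, fun u => by rw [mulQ_add, mulQ_add, mulQ_smul, mulQ_smul, mulQ_smul]⟩

/-- The successors of the frame generate the next piece. -/
theorem Frame.range_top (F : Frame l) (e : ℕ) :
    LinearMap.range (mulQ J F.x e) ⊔ LinearMap.range (mulQ J F.y e) ⊔
      LinearMap.range (mulQ J l e) = ⊤ := by
  refine top_le_iff.mp fun y _ => ?_
  induction y using Submodule.Quotient.induction_on with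
  | _ p =>
    obtain ⟨q, hq⟩ := forms_eq_sum p.2
    have : (Submodule.Quotient.mk p : QPiece J (e + 1)) =
        ∑ i, mulQ J ⟨X i, isHomogeneous_X K i⟩ e (Submodule.Quotient.mk (q i)) := by
      change Submodule.mkQ _ p = ∑ i, Submodule.mkQ _
        (⟨(X i : Poly K 3) * q i, map_forms_le (isHomogeneous_X K i) e ⟨q i, (q i).2, rfl⟩⟩ :
          Forms K 3 (e + 1))
      rw [← map_sum]
      congr 1
      ext : 1
      rw [Submodule.coe_sum]
      exact hq
    rw [this]
    refine Submodule.sum_mem _ fun i _ => ?_
    obtain ⟨s, t, r, h⟩ := mulQ_combination (J := J) F (e := e) ⟨X i, isHomogeneous_X K i⟩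
    rw [h]
    exact add_mem (add_mem
      (Submodule.mem_sup_left (Submodule.mem_sup_left (Submodule.smul_mem _ _ ⟨_, rfl⟩)))
      (Submodule.mem_sup_left (Submodule.mem_sup_right (Submodule.smul_mem _ _ ⟨_, rfl⟩))))
      (Submodule.mem_sup_right (Submodule.smul_mem _ _ ⟨_, rfl⟩))

/-- Injective multiplication with a binary slice dropping by one is impossible. -/
theorem false_of_injective (hJ : Homog J) (F : Frame l) {e q : ℕ} (hA : Avoid J (e + 2))
    (h0 : Function.Injective (mulQ J l e)) (h1 : Function.Injective (mulQ J l (e + 1)))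
    (d1 : hq J (e + 1) = hq J e + (q + 1)) (d2 : hq J (e + 2) = hq J (e + 1) + q) : False := by
  have hl0 : (l : Poly K 3) ≠ 0 := fun h => by
    have := (F.indep 0 0 1 (by simp [Subtype.ext_iff, h])).2.2
    exact one_ne_zero this
  let W : Window K (QPiece J e) (QPiece J (e + 1)) (QPiece J (e + 2)) :=
    { X0 := mulQ J F.x e
      Y0 := mulQ J F.y e
      Z0 := mulQ J l e
      X1 := mulQ J F.x (e + 1)
      Y1 := mulQ J F.y (e + 1)
      Z1 := mulQ J l (e + 1)
      xy := fun v => mulQ_comm J F.x F.y e v
      xz := fun v => mulQ_comm J F.x l e v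
      yz := fun v => mulQ_comm J F.y l e v
      z0 := h0
      z1 := h1
      gen := F.range_top e
      surj := fun s t hst => by
        obtain ⟨G, hG⟩ := F.exists_member hst
        obtain ⟨C⟩ := exists_cut l.2 hl0
        set L : Forms K 3 1 := s • F.x + t • F.y with hL
        have hne : C.φ (L : Poly K 3) ≠ 0 := by
          intro h
          obtain ⟨w, hw⟩ := Ideal.mem_span_singleton'.mp (C.ker_iff.mp h)
          have h2 := component_self L.2
          rw [← hw, mul_comm w (l : Poly K 3)] at h2
          have h4 := component_mul l.2 w 0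
          rw [zero_add, h2, homogeneousComponent_zero,
            mul_comm (l : Poly K 3) (MvPolynomial.C (coeff 0 w)), ← smul_eq_C_mul,
            mul_comm (l : Poly K 3) w, hw] at h4
          have h3 : L = coeff 0 w • l := Subtype.ext h4
          have := G.indep 1 0 (-coeff 0 w) (by rw [hG, h3]; module)
          exact one_ne_zero this.1
        have hLh : (C.φ (L : Poly K 3)).IsHomogeneous 1 := C.φ_hom _ _ L.2
        obtain ⟨C2⟩ := exists_cut hLh hne
        have hU : Homog (C.image J) := C.homog_image hJ
        have hz : hq (C.image J ⊔ Ideal.span {C.φ (L : Poly K 3)}) (e + 2) = 0 := by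
          rw [← C2.hq_image hU hLh]
          exact hq_eq_zero_one (C2.avoid (C.avoid hA))
        refine top_le_iff.mp fun y _ => ?_
        induction y using Submodule.Quotient.induction_on with
        | _ p =>
          have hp : C.φ (p : Poly K 3) ∈ C.image J ⊔ Ideal.span {C.φ (L : Poly K 3)} :=
            hq_eq_zero_iff.mp hz _ (C.φ_hom _ _ p.2)
          rw [← Set.image_singleton, ← C.image_span, ← C.image_sup, C.mem_image] at hp
          obtain ⟨w, hw, hwp⟩ := hp
          have hp2 : (p : Poly K 3) ∈ part ((J ⊔ Ideal.span {(L : Poly K 3)}) ⊔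
              Ideal.span {(l : Poly K 3)}) (e + 2) := by
            refine ⟨?_, p.2⟩
            have : (p : Poly K 3) - w ∈ Ideal.span {(l : Poly K 3)} :=
              C.ker_iff.mp (by rw [map_sub, hwp, sub_self])
            have := Submodule.add_mem_sup hw this
            rwa [add_sub_cancel] at this
          rw [part_sup_span (hJ.sup (Homog.span_singleton L.2)) l.2,
            part_sup_span hJ L.2] at hp2
          obtain ⟨_, h2, _, ⟨g, hg, rfl⟩, hsum⟩ := Submodule.mem_sup.mp hp2
          obtain ⟨j, hj, _, ⟨g', hg', rfl⟩, rfl⟩ := Submodule.mem_sup.mp h2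
          refine Submodule.mem_sup.mpr ⟨_, ⟨Submodule.Quotient.mk ⟨g', hg'⟩, rfl⟩, _,
            ⟨Submodule.Quotient.mk ⟨g, hg⟩, rfl⟩, ?_⟩
          rw [LinearMap.add_apply, LinearMap.smul_apply, LinearMap.smul_apply, ← mulQ_smul,
            ← mulQ_smul, ← mulQ_add, ← hL, mulQ_mk, mulQ_mk, ← Submodule.Quotient.mk_add,
            Submodule.Quotient.eq]
          refine ⟨?_, ?_⟩
          swap
          · simp only [Submodule.subtype_apply]
            exact SetLike.coe_mem _
          rw [Submodule.subtype_apply, Submodule.coe_sub, Submodule.coe_add]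
          simp only [mulL_apply] at hsum
          rw [← hsum, show ((L : Poly K 3) * g' + (l : Poly K 3) * g) -
            (j + (L : Poly K 3) * g' + (l : Poly K 3) * g) = -j by ring]
          exact neg_mem hj.1 }
  obtain ⟨α, β, ψ1, ψ2, hψ, hz, hx, hy, -⟩ := hasEigen_of_window q _ _ _ W
    (by rw [finrank_qPiece, finrank_qPiece]; exact d1) (by rw [finrank_qPiece, finrank_qPiece]; exact d2)
  have h2 : ψ2 = 0 := eq_zero_of_point hA F ψ2 (fun u => (hx u).trans (by rw [← hz]))
    (fun u => (hy u).trans (by rw [← hz]))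
  exact hψ (LinearMap.ext fun u => by rw [← hz, h2]; rfl)

/-- Surjective multiplication with a kernel rising by one is impossible. -/
theorem false_of_surjective (F : Frame l) {e q : ℕ}
    (h0 : Function.Surjective (mulQ J l e)) (h1 : Function.Surjective (mulQ J l (e + 1)))
    (hs : SocFree J (e + 1))
    (hpoint : ∀ (G : Frame l) (u : QPiece J e), mulQ J G.x e u = 0 → mulQ J l e u = 0 → u = 0)
    (heig : ∀ (α β : K) (u : QPiece J e), mulQ J F.x e u = α • mulQ J l e u →
      mulQ J F.y e u = β • mulQ J l e u → u = 0)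
    (d1 : hq J (e + 1) = hq J (e + 2) + (q + 1)) (d2 : hq J e = hq J (e + 1) + q) : False := by
  let W : Window K (Dual K (QPiece J (e + 2))) (Dual K (QPiece J (e + 1))) (Dual K (QPiece J e)) :=
    { X0 := (mulQ J F.x (e + 1)).dualMap
      Y0 := (mulQ J F.y (e + 1)).dualMap
      Z0 := (mulQ J l (e + 1)).dualMap
      X1 := (mulQ J F.x e).dualMap
      Y1 := (mulQ J F.y e).dualMap
      Z1 := (mulQ J l e).dualMap
      xy := fun v => LinearMap.ext fun u => congrArg v (mulQ_comm J F.y F.x e u)
      xz := fun v => LinearMap.ext fun u => congrArg v (mulQ_comm J l F.x e u)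
      yz := fun v => LinearMap.ext fun u => congrArg v (mulQ_comm J l F.y e u)
      z0 := LinearMap.dualMap_injective_of_surjective h1
      z1 := LinearMap.dualMap_injective_of_surjective h0
      gen := by
        rw [← Subspace.dualCoannihilator_dualAnnihilator_eq
          (W := LinearMap.range (mulQ J F.x (e + 1)).dualMap ⊔
            LinearMap.range (mulQ J F.y (e + 1)).dualMap ⊔
            LinearMap.range (mulQ J l (e + 1)).dualMap)]
        rw [Submodule.dualAnnihilator_eq_top_iff, Submodule.eq_bot_iff]
        intro u hu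
        rw [Submodule.mem_dualCoannihilator] at hu
        refine hs u fun L => ?_
        obtain ⟨s, t, r, h⟩ := mulQ_combination (J := J) F (e := e + 1) L
        have hxu : mulQ J F.x (e + 1) u = 0 := (Module.forall_dual_apply_eq_zero_iff K _).mp fun v =>
          hu _ (Submodule.mem_sup_left (Submodule.mem_sup_left ⟨v, rfl⟩))
        have hyu : mulQ J F.y (e + 1) u = 0 := (Module.forall_dual_apply_eq_zero_iff K _).mp fun v =>
          hu _ (Submodule.mem_sup_left (Submodule.mem_sup_right ⟨v, rfl⟩))
        have hlu : mulQ J l (e + 1) u = 0 := (Module.forall_dual_apply_eq_zero_iff K _).mp fun v =>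
          hu _ (Submodule.mem_sup_right ⟨v, rfl⟩)
        rw [h, hxu, hyu, hlu, smul_zero, smul_zero, smul_zero, add_zero, add_zero]
      surj := fun s t hst => by
        obtain ⟨G, hG⟩ := F.exists_member hst
        rw [← Subspace.dualCoannihilator_dualAnnihilator_eq
          (W := LinearMap.range (s • (mulQ J F.x e).dualMap + t • (mulQ J F.y e).dualMap) ⊔
            LinearMap.range (mulQ J l e).dualMap)]
        rw [Submodule.dualAnnihilator_eq_top_iff, Submodule.eq_bot_iff]
        intro u hu
        rw [Submodule.mem_dualCoannihilator] at hu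
        refine hpoint G u ?_ ((Module.forall_dual_apply_eq_zero_iff K _).mp fun v =>
          hu _ (Submodule.mem_sup_right ⟨v, rfl⟩))
        refine (Module.forall_dual_apply_eq_zero_iff K _).mp fun v => ?_
        have h2 := hu _ (Submodule.mem_sup_left ⟨v, rfl⟩)
        rw [hG, mulQ_add, mulQ_smul, mulQ_smul, map_add, map_smul, map_smul]
        exact h2 }
  obtain ⟨α, β, ψ1, ψ2, hψ, hz, hx, hy, -⟩ := hasEigen_of_window q _ _ _ W
    (by rw [Subspace.dual_finrank_eq, Subspace.dual_finrank_eq, finrank_qPiece, finrank_qPiece]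
        exact d1)
    (by rw [Subspace.dual_finrank_eq, Subspace.dual_finrank_eq, finrank_qPiece, finrank_qPiece]
        exact d2)
  obtain ⟨u, rfl⟩ := (Module.evalEquiv K (QPiece J e)).surjective ψ2
  have hu : u = 0 := heig α β u
    (sub_eq_zero.mp ((Module.forall_dual_apply_eq_zero_iff K _).mp fun v => by
      have h2 := (hx v).trans (congrArg (α * ·) (hz v).symm)
      simp only [W, Module.evalEquiv_apply, Module.Dual.eval_apply, LinearMap.dualMap_apply] at h2
      rw [map_sub, map_smul, h2, smul_eq_mul, sub_self]))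
    (sub_eq_zero.mp ((Module.forall_dual_apply_eq_zero_iff K _).mp fun v => by
      have h2 := (hy v).trans (congrArg (β * ·) (hz v).symm)
      simp only [W, Module.evalEquiv_apply, Module.Dual.eval_apply, LinearMap.dualMap_apply] at h2
      rw [map_sub, map_smul, h2, smul_eq_mul, sub_self]))
  subst hu
  exact hψ (LinearMap.ext fun v => by rw [← hz v, map_zero]; rfl)

/-- Evaluation of the component in one degree. -/
def toPiece (J : Ideal (Poly K 3)) (j : ℕ) : Poly K 3 →ₗ[K] QPiece J j :=
  Submodule.mkQ _ ∘ₗ (homogeneousComponent j).codRestrict (Forms K 3 j)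
    (homogeneousComponent_isHomogeneous j)

omit [IsAlgClosed K] in
theorem toPiece_mul (L : Forms K 3 1) (j : ℕ) (g : Poly K 3) :
    toPiece J (j + 1) ((L : Poly K 3) * g) = mulQ J L j (toPiece J j g) := by
  simp only [toPiece, LinearMap.comp_apply, Submodule.mkQ_apply, mulQ_mk]
  congr 1
  ext : 1
  exact component_mul L.2 g j

omit [IsAlgClosed K] in
theorem toPiece_self {j : ℕ} (p : Forms K 3 j) :
    toPiece J j (p : Poly K 3) = Submodule.Quotient.mk p := by
  simp only [toPiece, LinearMap.comp_apply, Submodule.mkQ_apply]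
  congr 1
  ext : 1
  exact component_self p.2

/-- Equal kernels along a surjection put a form of at most that degree in the ideal. -/
theorem exists_low_form (F : Frame l) {e D : ℕ} (hA : Avoid J (e + 2))
    (h0 : Function.Surjective (mulQ J l e)) (h1 : Function.Surjective (mulQ J l (e + 1)))
    (hs : SocFree J (e + 1))
    (hx : ∀ u, mulQ J l e u = 0 → mulQ J F.x e u = 0 → u = 0)
    (d1 : hq J (e + 1) = hq J (e + 2) + D) (d2 : hq J e = hq J (e + 1) + D) (hD : D ≤ e + 1) :
    ∃ (r : ℕ) (Φ : Forms K 3 r), r ≤ D ∧ (Φ : Poly K 3) ≠ 0 ∧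
      ∀ g : Forms K 3 (e + 1 - r), (Φ : Poly K 3) * g ∈ J := by
  classical
  obtain ⟨Cc, hCc⟩ := Submodule.exists_isCompl (LinearMap.range (mulQ J l (e + 1)).dualMap)
  have hinj0 := LinearMap.dualMap_injective_of_surjective h1
  have hinj1 := LinearMap.dualMap_injective_of_surjective h0
  have dd : ∀ j, finrank K (Dual K (QPiece J j)) = hq J j := fun j => by
    rw [Subspace.dual_finrank_eq, finrank_qPiece]
  have hCd : finrank K Cc = D := by
    have := Submodule.finrank_add_eq_of_isCompl hCc
    rw [LinearMap.finrank_range_of_inj hinj0, dd, dd] at this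
    have d1' : hq J (e + 1) = hq J (e + 1 + 1) + D := d1
    omega
  have : Module.Free K Cc := Module.Free.of_divisionRing K Cc
  let ι : (Fin D → K) →ₗ[K] Dual K (QPiece J (e + 1)) :=
    Cc.subtype ∘ₗ (Module.finBasisOfFinrankEq K Cc hCd).equivFun.symm.toLinearMap
  have hι : Function.Injective ι := Cc.injective_subtype.comp (LinearEquiv.injective _)
  have hzero : ∀ c, ι c ∈ LinearMap.range (mulQ J l (e + 1)).dualMap → c = 0 := fun c hc => by
    have hm : ι c ∈ LinearMap.range (mulQ J l (e + 1)).dualMap ⊓ Cc :=
      ⟨hc, ((Module.finBasisOfFinrankEq K Cc hCd).equivFun.symm c).2⟩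
    rw [hCc.inf_eq_bot, Submodule.mem_bot] at hm
    exact hι (by rw [hm, map_zero])
  -- the first form is bijective on kernels
  have hker : ∀ u, mulQ J l (e + 1) u = 0 → ∃ w, mulQ J l e w = 0 ∧ mulQ J F.x e w = u := by
    let fK : LinearMap.ker (mulQ J l e) →ₗ[K] LinearMap.ker (mulQ J l (e + 1)) :=
      (mulQ J F.x e).restrict fun u hu => by
        rw [LinearMap.mem_ker] at hu ⊢
        rw [mulQ_comm J l F.x e u, hu, map_zero]
    have hinj : Function.Injective fK := LinearMap.ker_eq_bot.mp (LinearMap.ker_eq_bot'.mpr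
      fun u hu => Subtype.ext (hx u u.2 (congrArg Subtype.val hu)))
    have a1 := LinearMap.finrank_range_add_finrank_ker (mulQ J l e)
    have a2 := LinearMap.finrank_range_add_finrank_ker (mulQ J l (e + 1))
    rw [LinearMap.range_eq_top.mpr h0, finrank_top, finrank_qPiece, finrank_qPiece] at a1
    rw [LinearMap.range_eq_top.mpr h1, finrank_top, finrank_qPiece, finrank_qPiece] at a2
    change hq J (e + 2) + _ = _ at a2
    intro u hu
    obtain ⟨w, hw⟩ := (LinearMap.injective_iff_surjective_of_finrank_eq_finrank (by omega)).mp hinj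
      ⟨u, hu⟩
    exact ⟨w, w.2, congrArg Subtype.val hw⟩
  have hiso : ∀ v, (mulQ J F.x e).dualMap v ∈ LinearMap.range (mulQ J l e).dualMap →
      v ∈ LinearMap.range (mulQ J l (e + 1)).dualMap := by
    rintro v ⟨w, hw⟩
    rw [LinearMap.range_dualMap_eq_dualAnnihilator_ker, Submodule.mem_dualAnnihilator]
    intro u hu
    obtain ⟨w', hw1, hw2⟩ := hker u hu
    rw [← hw2, ← LinearMap.dualMap_apply, ← hw, LinearMap.dualMap_apply, hw1, map_zero]
  let ε : (j : ℕ) → Dual K (QPiece J j) →ₗ[K] Dual K (Poly K 3) := fun j => (toPiece J j).dualMap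
  have hε : ∀ (L : Forms K 3 1) (j : ℕ) (v : Dual K (QPiece J (j + 1))) (g : Poly K 3),
      ε j ((mulQ J L j).dualMap v) g = ε (j + 1) v ((L : Poly K 3) * g) := fun L j v g => by
    simp only [ε, LinearMap.dualMap_apply, toPiece_mul]
  let W : Const K (Poly K 3) (Dual K (QPiece J (e + 2))) (Dual K (QPiece J (e + 1)))
      (Dual K (QPiece J e)) D :=
    { x := F.x
      y := F.y
      l := l
      X0 := (mulQ J F.x (e + 1)).dualMap
      Y0 := (mulQ J F.y (e + 1)).dualMap
      Z0 := (mulQ J l (e + 1)).dualMap
      X1 := (mulQ J F.x e).dualMap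
      Y1 := (mulQ J F.y e).dualMap
      Z1 := (mulQ J l e).dualMap
      ι := ι
      ε0 := ε (e + 2)
      ε1 := ε (e + 1)
      ε2 := ε e
      xy := fun v => LinearMap.ext fun u => congrArg v (mulQ_comm J F.y F.x e u)
      xz := fun v => LinearMap.ext fun u => congrArg v (mulQ_comm J l F.x e u)
      yz := fun v => LinearMap.ext fun u => congrArg v (mulQ_comm J l F.y e u)
      b1 := by
        have hinj : Function.Injective ((mulQ J l (e + 1)).dualMap.coprod ι) := by
          refine LinearMap.ker_eq_bot.mp (LinearMap.ker_eq_bot'.mpr fun w hw => ?_)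
          rw [LinearMap.coprod_apply] at hw
          have hc := hzero w.2 ⟨-w.1, by
            rw [map_neg]; exact (eq_neg_of_add_eq_zero_right hw).symm⟩
          rw [hc, map_zero, add_zero] at hw
          exact Prod.ext (hinj0 (by rw [hw]; exact (map_zero _).symm)) hc
        refine ⟨hinj, (LinearMap.injective_iff_surjective_of_finrank_eq_finrank ?_).mp hinj⟩
        rw [Module.finrank_prod, Module.finrank_pi, Fintype.card_fin, dd, dd]
        omega
      b2 := by
        have hinj : Function.Injective ((mulQ J l e).dualMap.coprod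
            ((mulQ J F.x e).dualMap ∘ₗ ι)) := by
          refine LinearMap.ker_eq_bot.mp (LinearMap.ker_eq_bot'.mpr fun w hw => ?_)
          rw [LinearMap.coprod_apply, LinearMap.comp_apply] at hw
          have hc := hzero w.2 (hiso _ ⟨-w.1, by
            rw [map_neg]; exact (eq_neg_of_add_eq_zero_right hw).symm⟩)
          rw [hc, map_zero, map_zero, add_zero] at hw
          exact Prod.ext (hinj1 (by rw [hw]; exact (map_zero _).symm)) hc
        refine ⟨hinj, (LinearMap.injective_iff_surjective_of_finrank_eq_finrank ?_).mp hinj⟩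
        rw [Module.finrank_prod, Module.finrank_pi, Fintype.card_fin, dd, dd]
        omega
      ex0 := hε F.x (e + 1)
      ey0 := hε F.y (e + 1)
      ez0 := hε l (e + 1)
      ex1 := hε F.x e
      ey1 := hε F.y e
      ez1 := hε l e }
  obtain ⟨r, co, hr, hco, hsum⟩ := W.exists_form (fun v σ τ e1 e2 => by
    refine eq_zero_of_point hA F v (σ := σ) (τ := τ) (fun u => ?_) (fun u => ?_) <;>
      induction u using Submodule.Quotient.induction_on with
      | _ p => ?_
    · have h2 := e1 (p : Poly K 3)
      simp only [W, ε, LinearMap.dualMap_apply, toPiece_mul, toPiece_self] at h2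
      exact h2
    · have h2 := e2 (p : Poly K 3)
      simp only [W, ε, LinearMap.dualMap_apply, toPiece_mul, toPiece_self] at h2
      exact h2)
  let Φ : Poly K 3 := ∑ j ∈ Finset.range (r + 1), ∑ i ∈ Finset.range (r - j + 1),
    co i j • ((F.x : Poly K 3) ^ i * (F.y : Poly K 3) ^ j * (l : Poly K 3) ^ (r - i - j))
  have hΦ : Φ ∈ Forms K 3 r := by
    refine Submodule.sum_mem _ fun j hj => Submodule.sum_mem _ fun i hi =>
      Submodule.smul_mem _ _ ?_
    rw [Finset.mem_range] at hi hj
    have := ((F.x.2.pow i).mul (F.y.2.pow j)).mul (l.2.pow (r - i - j))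
    rwa [one_mul, one_mul, one_mul, show i + j + (r - i - j) = r by omega] at this
  refine ⟨r, ⟨Φ, hΦ⟩, hr, fun h0 => ?_, fun g => ?_⟩
  · obtain ⟨v, hv⟩ := F.exists_point 0 1 0
    have hvx : eval v (F.x : Poly K 3) = 0 := by simpa using hv 1 0 0
    have hvy : eval v (F.y : Poly K 3) = 1 := by simpa using hv 0 1 0
    have hvl : eval v (l : Poly K 3) = 0 := by simpa using hv 0 0 1
    have h2 := congrArg (eval v) h0
    simp only [Φ, map_sum, smul_eval, map_mul, map_pow, hvx, hvy, hvl, one_pow, map_zero] at h2
    rw [Finset.sum_eq_single r, Finset.sum_eq_single 0] at h2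
    · simp [hco] at h2
    · intro i hi hne
      simp [zero_pow hne]
    · simp
    · intro j hj hne
      rw [Finset.mem_range] at hj
      refine Finset.sum_eq_zero fun i hi => ?_
      rcases Nat.eq_zero_or_pos i with rfl | hi0
      · rw [zero_pow (show r - 0 - j ≠ 0 by omega)]; ring
      · rw [zero_pow (by omega : i ≠ 0)]; ring
    · simp
  · have hmul : ∀ g' : Poly K 3, g'.IsHomogeneous (e + 2 - r) → Φ * g' ∈ J := by
      intro g' hg'
      have hh : (Φ * g').IsHomogeneous (e + 2) := by
        have h3 : (Φ * g').IsHomogeneous (r + (e + 2 - r)) := IsHomogeneous.mul hΦ hg'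
        rwa [show r + (e + 2 - r) = e + 2 by omega] at h3
      refine (mk_eq_zero_iff (J := J) (p := ⟨Φ * g', hh⟩)).mp
        ((Module.forall_dual_apply_eq_zero_iff K _).mp fun v => ?_)
      have h2 := hsum v g'
      simp only [W, ε, LinearMap.dualMap_apply] at h2
      rw [← toPiece_self (⟨Φ * g', hh⟩ : Forms K 3 (e + 2))]
      simp only [Φ, Finset.sum_mul, map_sum, smul_mul_assoc, map_smul, smul_eq_mul]
      exact h2
    have hh : (Φ * g).IsHomogeneous (e + 1) := by
      have h3 : (Φ * (g : Poly K 3)).IsHomogeneous (r + (e + 1 - r)) := IsHomogeneous.mul hΦ g.2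
      rwa [show r + (e + 1 - r) = e + 1 by omega] at h3
    refine (mk_eq_zero_iff (J := J) (p := ⟨Φ * g, hh⟩)).mp (hs _ fun L => ?_)
    rw [mulQ_mk, mk_eq_zero_iff]
    change (L : Poly K 3) * (Φ * g) ∈ J
    rw [mul_left_comm]
    refine hmul _ ?_
    have h3 : ((L : Poly K 3) * g).IsHomogeneous (1 + (e + 1 - r)) := IsHomogeneous.mul L.2 g.2
    rwa [show 1 + (e + 1 - r) = e + 2 - r by omega] at h3

end

end Vale.Agent.P200
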