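import Vale.Agent.P200.Comb

/-!
# Lexicographic ranks in a box

Pairs `(α, β)` stand for `(α, β, d - α - β)`, ordered by `α`, then `β`.
-/

namespace Vale.Agent.P200

open Finset

/-- Degree `d` exponents of the box `a × b × c`. -/
def boxSet (a b c d : ℕ) : Finset (ℕ × ℕ) :=
  (range a ×ˢ range b).filter fun p => p.1 + p.2 ≤ d ∧ d < p.1 + p.2 + c

theorem mem_boxSet {a b c d : ℕ} {p : ℕ × ℕ} :
    p ∈ boxSet a b c d ↔ p.1 < a ∧ p.2 < b ∧ p.1 + p.2 ≤ d ∧ d < p.1 + p.2 + c := by
  simp [boxSet, and_assoc]

theorem boxSet_empty {a b c d : ℕ} (h : a + b + c < d + 3) : boxSet a b c d = ∅ := by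
  rw [eq_empty_iff_forall_notMem]
  intro p hp
  rw [mem_boxSet] at hp
  omega

/-- Lexicographic comparison. -/
def pairLT (q p : ℕ × ℕ) : Prop := q.1 < p.1 ∨ (q.1 = p.1 ∧ q.2 < p.2)

instance : DecidableRel pairLT := fun q p =>
  inferInstanceAs (Decidable (q.1 < p.1 ∨ (q.1 = p.1 ∧ q.2 < p.2)))

theorem pairLT_trans {p q r : ℕ × ℕ} (h : pairLT p q) (h' : pairLT q r) : pairLT p r := by
  simp only [pairLT] at *; omega

theorem pairLT_tri (p q : ℕ × ℕ) : pairLT p q ∨ p = q ∨ pairLT q p := by
  simp only [pairLT, Prod.ext_iff]; omega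

theorem pairLT_irrefl (p : ℕ × ℕ) : ¬ pairLT p p := by simp [pairLT]

/-- Number of smaller members of the box piece. -/
def brank (a b c d : ℕ) (p : ℕ × ℕ) : ℕ := ((boxSet a b c d).filter (pairLT · p)).card

theorem brank_mono {a b c d : ℕ} {p q : ℕ × ℕ} (h : pairLT q p ∨ q = p) :
    brank a b c d q ≤ brank a b c d p := by
  refine card_le_card fun r hr => ?_
  rw [mem_filter] at hr ⊢
  rcases h with h | h
  · exact ⟨hr.1, pairLT_trans hr.2 h⟩
  · exact ⟨hr.1, h ▸ hr.2⟩

theorem brank_strict {a b c d : ℕ} {p q : ℕ × ℕ} (hq : q ∈ boxSet a b c d) (h : pairLT q p) :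
    brank a b c d q < brank a b c d p := by
  refine card_lt_card (ssubset_iff_of_subset (fun r hr => ?_) |>.mpr ⟨q, ?_, ?_⟩)
  · rw [mem_filter] at hr ⊢
    exact ⟨hr.1, pairLT_trans hr.2 h⟩
  · exact mem_filter.mpr ⟨hq, h⟩
  · simp [pairLT_irrefl]

theorem brank_lt {a b c d : ℕ} {p : ℕ × ℕ} (hp : p ∈ boxSet a b c d) :
    brank a b c d p < (boxSet a b c d).card :=
  card_lt_card (ssubset_iff_of_subset (filter_subset _ _) |>.mpr
    ⟨p, hp, by simp [pairLT_irrefl]⟩)

theorem card_brank_lt {a b c d h : ℕ} (hh : h ≤ (boxSet a b c d).card) :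
    ((boxSet a b c d).filter fun p => brank a b c d p < h).card = h := by
  have hinj : Set.InjOn (brank a b c d) (boxSet a b c d : Set (ℕ × ℕ)) := by
    intro p hp q hq e
    rcases pairLT_tri p q with h' | h' | h'
    · exact absurd e (brank_strict hp h').ne
    · exact h'
    · exact absurd e (brank_strict hq h').ne'
  have himg : (boxSet a b c d).image (brank a b c d) = range (boxSet a b c d).card := by
    refine eq_of_subset_of_card_le ?_ ?_
    · intro x hx
      obtain ⟨p, hp, rfl⟩ := mem_image.mp hx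
      exact mem_range.mpr (brank_lt hp)
    · rw [card_range, card_image_of_injOn hinj]
  have e : ((boxSet a b c d).filter fun p => brank a b c d p < h).image (brank a b c d) =
      range h := by
    rw [← filter_image (p := fun x => x < h), himg]
    ext x
    simp only [mem_filter, Finset.mem_range]
    omega
  have h1 := congrArg Finset.card e
  rw [card_image_of_injOn (hinj.mono (filter_subset _ _)), card_range] at h1
  exact h1

/-- `q` is obtained from `p` by removing one variable. -/
def Div (q p : ℕ × ℕ) : Prop :=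
  q = p ∨ (q.1 + 1 = p.1 ∧ q.2 = p.2) ∨ (q.1 = p.1 ∧ q.2 + 1 = p.2)

/-- One step of the upper-set property of the lex segment complements. -/
def Cond (a b c d h m : ℕ) : Prop :=
  ∀ p ∈ boxSet a b c (d + 1), ∀ q ∈ boxSet a b c d, Div q p → h ≤ brank a b c d q →
    m ≤ brank a b c (d + 1) p

/-- The greatest divisor. -/
def md (d : ℕ) (p : ℕ × ℕ) : ℕ × ℕ :=
  if p.1 + p.2 ≤ d then p else if 0 < p.2 then (p.1, p.2 - 1) else (p.1 - 1, p.2)

/-- All divisors have small rank. -/
def good (a b c d h : ℕ) : Finset (ℕ × ℕ) :=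
  (boxSet a b c (d + 1)).filter fun p => brank a b c d (md d p) < h

theorem cond_of_le_good {a b c d h m : ℕ} (hm : m ≤ (good a b c d h).card) : Cond a b c d h m := by
  intro p hp q hq hdiv hrank
  have hq' := (mem_boxSet.mp hq).2.2.1
  have hp' := (mem_boxSet.mp hp).2.2.1
  have h1 : h ≤ brank a b c d (md d p) := by
    refine hrank.trans (brank_mono ?_)
    rcases hdiv with rfl | ⟨e1, e2⟩ | ⟨e1, e2⟩ <;> simp only [md, pairLT, Prod.ext_iff] <;>
      split_ifs <;> omega
  refine hm.trans (card_le_card fun r hr => ?_)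
  simp only [good, mem_filter] at hr
  refine mem_filter.mpr ⟨hr.1, ?_⟩
  have hr' := (mem_boxSet.mp hr.1).2.2.1
  by_contra hc
  have h2 : brank a b c d (md d p) ≤ brank a b c d (md d r) := by
    refine brank_mono ?_
    simp only [pairLT] at hc
    simp only [md, pairLT, Prod.ext_iff]
    split_ifs <;> omega
  omega

theorem card_full (a b d : ℕ) : (boxSet a b (d + 1) d).card = lineSum b d a := by
  rw [card_eq_sum_card_fiberwise (f := Prod.fst) (t := range a)
    fun p hp => mem_range.mpr (mem_boxSet.mp hp).1]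
  refine sum_congr rfl fun i hi => ?_
  rw [mem_range] at hi
  rw [← card_range (min b (d + 1 - i)), ← card_image_of_injOn (f := fun t : ℕ => (i, t))
    (s := range (min b (d + 1 - i))) (fun t _ t' _ e => congrArg Prod.snd e)]
  congr 1
  ext ⟨α, β⟩
  simp only [mem_filter, mem_boxSet, mem_image, Finset.mem_range, Prod.mk.injEq]
  constructor
  · rintro ⟨h, rfl⟩
    exact ⟨β, by omega, rfl, rfl⟩
  · rintro ⟨t, ht, rfl, rfl⟩
    omega

/-- The maximal growth is at least the gains less the losses. -/
theorem le_good {a b c d h : ℕ} (hc : 0 < c) (hh : h ≤ (boxSet a b c d).card) :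
    h + (gainSet a b d h).card ≤ (good a b c d h).card +
      ((boxSet a b c d).filter fun q => q.1 + q.2 + c = d + 1 ∧ brank a b c d q < h).card := by
  set G := gainSet a b d h
  set F := (boxSet a b c d).filter fun q => brank a b c d q < h
  have hF : F.card = h := card_brank_lt hh
  have hgi : (G.image fun α => (α, d + 1 - α)) ⊆ good a b c d h := by
    intro p hp
    obtain ⟨α, hα, rfl⟩ := mem_image.mp hp
    simp only [G, gainSet, mem_filter, Finset.mem_range] at hα
    refine mem_filter.mpr ⟨mem_boxSet.mpr ⟨hα.1, by simp only; omega, by simp only; omega,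
      by simp only; omega⟩, lt_of_lt_of_le ?_ hα.2.2.2⟩
    have hmem : ∀ r, pairLT r (md d (α, d + 1 - α)) ∨ r = md d (α, d + 1 - α) → r.1 ≤ α := by
      intro r hr
      simp only [md, pairLT, Prod.ext_iff] at hr
      split_ifs at hr <;> omega
    calc brank a b c d (md d (α, d + 1 - α))
        < ((boxSet (α + 1) b (d + 1) d)).card := by
          refine card_lt_card (ssubset_iff_of_subset (fun r hr => ?_) |>.mpr
            ⟨md d (α, d + 1 - α), ?_, ?_⟩)
          · rw [mem_filter] at hr
            have := hmem r (Or.inl hr.2)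
            have := mem_boxSet.mp hr.1
            exact mem_boxSet.mpr ⟨by omega, by omega, by omega, by omega⟩
          · rw [mem_boxSet]
            simp only [md]
            split_ifs <;> simp only <;> omega
          · simp [pairLT_irrefl]
      _ = lineSum b d (α + 1) := card_full _ _ _
  have hlift : (F.filter fun q => ¬ q.1 + q.2 + c = d + 1) ⊆ good a b c d h := by
    intro q hq
    simp only [F, mem_filter] at hq
    obtain ⟨⟨hbox, hr⟩, hne⟩ := hq
    rw [mem_boxSet] at hbox
    refine mem_filter.mpr ⟨mem_boxSet.mpr ⟨hbox.1, hbox.2.1, by omega, by omega⟩, ?_⟩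
    rw [show md d q = q by simp [md, hbox.2.2.1]]
    exact hr
  have hdis : Disjoint (G.image fun α => (α, d + 1 - α))
      (F.filter fun q => ¬ q.1 + q.2 + c = d + 1) := by
    rw [disjoint_left]
    intro p hp hq
    obtain ⟨α, hα, rfl⟩ := mem_image.mp hp
    simp only [G, gainSet, mem_filter] at hα
    simp only [F, mem_filter, mem_boxSet] at hq
    omega
  have h1 := card_le_card (union_subset hgi hlift)
  rw [card_union_of_disjoint hdis,
    card_image_of_injOn (fun x _ y _ e => congrArg Prod.fst e)] at h1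
  have h2 := card_filter_add_card_filter_not (s := F) (p := fun q => q.1 + q.2 + c = d + 1)
  have h3 : (F.filter fun q => q.1 + q.2 + c = d + 1) =
      (boxSet a b c d).filter fun q => q.1 + q.2 + c = d + 1 ∧ brank a b c d q < h := by
    ext q
    simp only [F, mem_filter]
    tauto
  rw [h3, hF] at h2
  omega

theorem brank_one_zero {a b c d : ℕ} (ha : 0 < a) (hb : b ≤ d + 1) (hd : d ≤ c) :
    b - 1 ≤ brank a b c d (1, 0) := by
  have : (Ico 1 b).image (fun t => ((0 : ℕ), t)) ⊆ (boxSet a b c d).filter (pairLT · (1, 0)) := by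
    intro p hp
    obtain ⟨t, ht, rfl⟩ := mem_image.mp hp
    rw [mem_Ico] at ht
    refine mem_filter.mpr ⟨mem_boxSet.mpr ?_, ?_⟩
    · simp only; omega
    · simp [pairLT]
  have h1 := card_le_card this
  rw [card_image_of_injOn (fun x _ y _ e => congrArg Prod.snd e), Nat.card_Ico] at h1
  exact h1

/-- Reflection of the box. -/
def refl (a b : ℕ) (p : ℕ × ℕ) : ℕ × ℕ := (a - 1 - p.1, b - 1 - p.2)

theorem refl_mem {a b c d e : ℕ} (h : d + e + 3 = a + b + c) {p : ℕ × ℕ}
    (hp : p ∈ boxSet a b c d) : refl a b p ∈ boxSet a b c e ∧ refl a b (refl a b p) = p := by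
  simp only [mem_boxSet, refl, Prod.ext_iff] at hp ⊢
  omega

theorem card_refl {a b c d e : ℕ} (h : d + e + 3 = a + b + c) :
    (boxSet a b c d).card = (boxSet a b c e).card :=
  card_bij' (fun p _ => refl a b p) (fun p _ => refl a b p)
    (fun _ hp => (refl_mem h hp).1) (fun _ hp => (refl_mem (by omega) hp).1)
    (fun _ hp => (refl_mem h hp).2) (fun p hp => (refl_mem (c := c) (e := d) (by omega) hp).2)

theorem brank_refl {a b c d e : ℕ} (h : d + e + 3 = a + b + c) {p : ℕ × ℕ}
    (hp : p ∈ boxSet a b c d) :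
    brank a b c d p + brank a b c e (refl a b p) + 1 = (boxSet a b c d).card := by
  have h1 : brank a b c e (refl a b p) = ((boxSet a b c d).filter (pairLT p ·)).card := by
    refine card_bij' (fun r _ => refl a b r) (fun r _ => refl a b r) ?_ ?_
      (fun r hr => (refl_mem (c := c) (e := d) (by omega) (mem_filter.mp hr).1).2)
      (fun r hr => (refl_mem h (mem_filter.mp hr).1).2)
    · intro r hr
      rw [mem_filter] at hr ⊢
      refine ⟨(refl_mem (by omega) hr.1).1, ?_⟩
      have := mem_boxSet.mp hp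
      have := mem_boxSet.mp hr.1
      have h2 := hr.2
      simp only [pairLT, refl] at h2 ⊢
      omega
    · intro r hr
      rw [mem_filter] at hr ⊢
      refine ⟨(refl_mem h hr.1).1, ?_⟩
      have := mem_boxSet.mp hp
      have := mem_boxSet.mp hr.1
      have h2 := hr.2
      simp only [pairLT, refl] at h2 ⊢
      omega
  rw [h1, brank]
  have hdis : Disjoint ((boxSet a b c d).filter (pairLT · p))
      ((boxSet a b c d).filter (pairLT p ·)) := by
    rw [disjoint_left]
    intro r hr hr'
    rw [mem_filter] at hr hr'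
    exact pairLT_irrefl r (pairLT_trans hr.2 hr'.2)
  rw [← card_union_of_disjoint hdis]
  have : (boxSet a b c d).filter (pairLT · p) ∪ (boxSet a b c d).filter (pairLT p ·) =
      (boxSet a b c d).erase p := by
    ext r
    simp only [mem_union, mem_filter, mem_erase]
    constructor
    · rintro (⟨h1, h2⟩ | ⟨h1, h2⟩) <;> exact ⟨fun e => pairLT_irrefl p (e ▸ h2), h1⟩
    · rintro ⟨hne, h1⟩
      rcases pairLT_tri r p with h2 | h2 | h2
      · exact Or.inl ⟨h1, h2⟩
      · exact absurd h2 hne
      · exact Or.inr ⟨h1, h2⟩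
  rw [this, card_erase_of_mem hp]
  have := card_pos.mpr ⟨p, hp⟩
  omega

/-- Linked data satisfy the condition in complementary degrees. -/
theorem cond_of_link {a b c d e h m : ℕ} (hde : d + e + 4 = a + b + c)
    (hh : h ≤ (boxSet a b c d).card) (hm : m ≤ (boxSet a b c (d + 1)).card)
    (h' : Cond a b c e ((boxSet a b c (d + 1)).card - m) ((boxSet a b c d).card - h)) :
    Cond a b c d h m := by
  intro p hp q hq hdiv hrank
  by_contra hlt
  have ep := refl_mem (e := e) (by omega) hp
  have eq' := refl_mem (e := e + 1) (by omega) hq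
  have r1 := brank_refl (e := e) (by omega) hp
  have r2 := brank_refl (e := e + 1) (by omega) hq
  have := h' _ eq'.1 _ ep.1 (by
    have := mem_boxSet.mp hp
    have := mem_boxSet.mp hq
    simp only [Div, refl, Prod.ext_iff] at hdiv ⊢
    omega) (by omega)
  omega

theorem cond_top {a b c d h m : ℕ} (h' : a + b + c ≤ d + 3) : Cond a b c d h m := fun p hp => by
  rw [boxSet_empty (by omega)] at hp
  exact absurd hp (notMem_empty p)

end Vale.Agent.P200
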