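import Vale.Agent.P200.Borderline

/-!
# The growth bound for three forms

Induction on the degree; in the top degree, induction first on the drop and then on the value.
-/

namespace Vale.Agent.P200

open MvPolynomial Module

noncomputable section

variable {K : Type} [Field K] [IsAlgClosed K] {A B C : GForm K 3}

theorem Ok.mono {a b c d h m m' : ℕ} (h0 : Ok a b c d h m') (hle : m ≤ m') : Ok a b c d h m := by
  unfold Ok at *
  omega

/-- The bound in the degree two below the third form. -/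
theorem ok_base {J : Ideal (Poly K 3)} (hJ : Homog J) (hreg : RegL ⊥ [A, B, C]) (hA : A.g ∈ J)
    (hB : B.g ∈ J) (ha : 2 ≤ A.k) (hab : A.k ≤ B.k) {d : ℕ} (hd : d + 2 ≤ C.k) :
    Ok A.k B.k C.k d (hq J d) (hq J (d + 1)) :=
  ok_of_gainSet hd
    (two_forms hJ ((regL_append ⊥ [A, B] [C]).mp hreg).1 hA hB hab (by omega) d)

/-- Smaller drops, or equal drops and smaller values, satisfy the bound. -/
def Below (A B C : GForm K 3) (N h m : ℕ) : Prop :=
  ∀ J : Ideal (Poly K 3), Homog J → A.g ∈ J → B.g ∈ J → C.g ∈ J →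
    (hq J N + m < h + hq J (N + 1) ∨ (hq J N + m = h + hq J (N + 1) ∧ hq J N < h)) →
    Ok A.k B.k C.k N (hq J N) (hq J (N + 1))

omit [IsAlgClosed K] in
theorem socFree_top {J : Ideal (Poly K 3)} (hJ : Homog J) (hA : A.g ∈ J) (hB : B.g ∈ J)
    (hC : C.g ∈ J) {N : ℕ} (hab : A.k ≤ B.k) (hbc : B.k ≤ C.k) (hk : C.k ≤ N + 1)
    (hk' : N + 3 ≤ A.k + B.k) (hbad : ¬ Ok A.k B.k C.k N (hq J N) (hq J (N + 1)))
    (IH : Below A B C N (hq J N) (hq J (N + 1))) : SocFree J N := by
  intro u hu
  by_contra hu0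
  obtain ⟨J', hle, hJ', h1, h2⟩ := exists_enlarge hJ (Submodule.span K {u}) ⊥ (by
    intro L v hv
    obtain ⟨t, rfl⟩ := Submodule.mem_span_singleton.mp hv
    rw [map_smul, hu L, smul_zero]; exact zero_mem _)
  rw [finrank_span_singleton hu0] at h1
  rw [finrank_bot, add_zero] at h2
  have ok := IH J' hJ' (hle hA) (hle hB) (hle hC) (Or.inl (by omega))
  rw [show hq J' N = hq J N - 1 by omega] at ok
  refine not_ok_sub (u := 1) (u' := 0) hab hbc hk hk' hbad (by omega) le_rfl (by omega) ?_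
    (by rw [Nat.sub_zero]; exact ok.mono h2)
  omega

/-- The induction step. -/
theorem ok_step (hreg : RegL ⊥ [A, B, C]) (ha : 2 ≤ A.k) (hab : A.k ≤ B.k) (hbc : B.k ≤ C.k)
    {e : ℕ} (hk : C.k ≤ e + 2) (hk' : e + 4 ≤ A.k + B.k)
    (hlow : ∀ J : Ideal (Poly K 3), Homog J → A.g ∈ J → B.g ∈ J → C.g ∈ J →
      Ok A.k B.k C.k e (hq J e) (hq J (e + 1)))
    {J : Ideal (Poly K 3)} (hJ0 : Homog J) (hA0 : A.g ∈ J) (hB0 : B.g ∈ J) (hC0 : C.g ∈ J)
    (IH : Below A B C (e + 1) (hq J (e + 1)) (hq J (e + 2))) :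
    Ok A.k B.k C.k (e + 1) (hq J (e + 1)) (hq J (e + 2)) := by
  by_contra hbad
  obtain ⟨J', hle, hJ, hse, hhigh⟩ := exists_socFree hJ0 e
  rw [← hhigh (e + 1) (by omega), ← hhigh (e + 2) (by omega)] at IH hbad
  have hA := hle hA0
  have hB := hle hB0
  have hC := hle hC0
  clear hhigh hle hJ0 hA0 hB0 hC0
  have hk1 : C.k ≤ e + 1 + 1 := hk
  have hk1' : e + 1 + 3 ≤ A.k + B.k := hk'
  have hs1 : SocFree J' (e + 1) := socFree_top hJ hA hB hC hab hbc hk1 hk1' hbad IH
  have hAv : Avoid J' (e + 2) := avoid_three hreg hA hB hC (by omega) (by omega) hk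
  -- a general third form
  have hpair : RegL ⊥ [A, B] := ((regL_append ⊥ [A, B] [C]).mp hreg).1
  obtain ⟨l0, hl1, hl0, hlz⟩ := exists_nzd_linear (ι := Unit) (fun _ => idl ⊥ [A, B])
    (fun _ => Homog.bot.idl _)
    (fun _ e => noSoc_regL 2 3 [A, B] rfl (by norm_num) hpair e (by omega)) (by norm_num)
  obtain ⟨Cl⟩ := exists_cut hl1 hl0
  set l : Forms K 3 1 := ⟨l0, hl1⟩ with hl
  let v : GForm K 3 := ⟨l0, 1, hl1, by norm_num⟩
  have hregl : RegL ⊥ [v, A, B] :=
    (regL_perm (List.perm_append_comm (l₁ := [A, B]) (l₂ := [v])) Homog.bot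
      ((regL_append _ _ _).mpr ⟨hpair, hlz (), trivial⟩)).1
  obtain ⟨hr, -⟩ := Cl.regL_image (L := [A, B]) (I := ⊥) hregl.2
  rw [Cl.image_bot] at hr
  set g1 := hq (Cl.image J') (e + 2) with hg1
  set g0 := hq (Cl.image J') (e + 1) with hg0
  have hgbound : g1 + (e + 3) ≤ A.k + B.k := by
    have h1 : g1 ≤ hq (idl ⊥ ([A, B].map Cl.gform)) (e + 2) := by
      refine hq_anti (idl_le bot_le fun F hF => ?_) _
      simp only [List.map_cons, List.map_nil, List.mem_cons, List.not_mem_nil, or_false] at hF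
      rcases hF with rfl | rfl
      · exact Cl.mem_image.mpr ⟨_, hA, rfl⟩
      · exact Cl.mem_image.mpr ⟨_, hB, rfl⟩
    rw [hq_regL hr [((0 : Fin 2), A.k), ((1 : Fin 2), B.k)] rfl (by simp)] at h1
    have h2 := h1.trans (Finset.card_le_card_of_injOn (fun x => x 0)
      (t := Finset.Ico (e + 3 - B.k) A.k) (fun x hx => ?_) ?_)
    · rw [Nat.card_Ico] at h2; omega
    · rw [Finset.mem_coe, Finset.mem_filter, mem_degSet, Finsupp.degree_eq_sum, Fin.sum_univ_two] at hx
      have h1 := hx.2 (0, A.k) (by simp)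
      have h2 := hx.2 (1, B.k) (by simp)
      simp only [Finset.mem_coe, Finset.mem_Ico] at h1 h2 ⊢
      omega
    · intro x hx y hy heq
      simp only [Finset.coe_filter, Set.mem_ofPred_eq, mem_degSet, Finsupp.degree_eq_sum,
        Fin.sum_univ_two] at hx hy
      simp only at heq
      ext j
      fin_cases j
      · exact heq
      · have := hx.1; have := hy.1
        simp only [Fin.mk_one, Fin.isValue]
        omega
  have dim1 : hq J' (e + 2) + finrank K (LinearMap.ker (mulQ J' l (e + 1))) = hq J' (e + 1) + g1 := by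
    rw [hg1, Cl.hq_image hJ hl1]
    exact mulQ_dims hJ l hl0 (e + 1)
  have dim0 : hq J' (e + 1) + finrank K (LinearMap.ker (mulQ J' l e)) = hq J' e + g0 := by
    rw [hg0, Cl.hq_image hJ hl1]
    exact mulQ_dims hJ l hl0 e
  set κ1 := finrank K (LinearMap.ker (mulQ J' l (e + 1))) with hκ1
  set κ0 := finrank K (LinearMap.ker (mulQ J' l e)) with hκ0
  obtain ⟨F0⟩ := exists_frame (l := l) hl0
  -- some member of the pencil is injective on the kernel
  have hpencil : ∃ s t : K, (s ≠ 0 ∨ t ≠ 0) ∧ ∀ u, mulQ J' l (e + 1) u = 0 →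
      s • mulQ J' F0.x (e + 1) u + t • mulQ J' F0.y (e + 1) u = 0 → u = 0 := by
    by_contra hno
    push Not at hno
    let Kl := LinearMap.ker (mulQ J' l (e + 1))
    obtain ⟨U, hU1, hU2⟩ := exists_small_image ((mulQ J' F0.x (e + 1)).domRestrict Kl)
      ((mulQ J' F0.y (e + 1)).domRestrict Kl) (fun s t hst => by
        obtain ⟨u, h1, h2, h3⟩ := hno s t hst
        exact ⟨⟨u, h1⟩, fun h => h3 (congrArg Subtype.val h), h2⟩)
    obtain ⟨J'', hle, hJ'', h1, h2⟩ := exists_enlarge hJ (U.map Kl.subtype)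
      (U.map ((mulQ J' F0.x (e + 1)).domRestrict Kl)) (by
        rintro L _ ⟨u, hu, rfl⟩
        obtain ⟨s, t, r, h⟩ := mulQ_combination (J := J') F0 (e := e + 1) L
        rw [Submodule.subtype_apply, h, LinearMap.mem_ker.mp u.2, smul_zero, add_zero]
        exact add_mem (Submodule.smul_mem _ _ ⟨u, hu, rfl⟩)
          (Submodule.smul_mem _ _ (hU1 ⟨u, hu, rfl⟩)))
    rw [(Submodule.equivMapOfInjective _ Kl.injective_subtype U).finrank_eq.symm] at h1
    have hUle : finrank K U ≤ κ1 := Submodule.finrank_le U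
    have hWle := Submodule.finrank_le (U.map ((mulQ J' F0.x (e + 1)).domRestrict Kl))
    rw [finrank_qPiece] at hWle
    change finrank K (U.map ((mulQ J' F0.x (e + 1)).domRestrict Kl)) ≤ hq J' (e + 2) at hWle
    change hq J' (e + 2) ≤ hq J'' (e + 2) + _ at h2
    have ok : Ok A.k B.k C.k (e + 1) (hq J'' (e + 1)) (hq J'' (e + 2)) :=
      IH J'' hJ'' (hle hA) (hle hB) (hle hC) (Or.inl (by
        change hq J'' (e + 1) + hq J' (e + 2) < hq J' (e + 1) + hq J'' (e + 2)
        omega))
    rw [show hq J'' (e + 1) = hq J' (e + 1) - finrank K U by omega] at ok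
    refine not_ok_sub (u := finrank K U) hab hbc hk1 hk1' hbad (by omega)
      (Nat.succ_le_of_lt hU2) hWle (Or.inl (by omega)) (ok.mono (by omega))
  obtain ⟨s0, t0, hst0, hinj1⟩ := hpencil
  obtain ⟨F, hF⟩ := F0.exists_member hst0
  have hx1 : ∀ u, mulQ J' l (e + 1) u = 0 → mulQ J' F.x (e + 1) u = 0 → u = 0 := fun u h1 h2 =>
    hinj1 u h1 (by rw [← mulQ_smul, ← mulQ_smul, ← mulQ_add, ← hF]; exact h2)
  have hx0 : ∀ u, mulQ J' l e u = 0 → mulQ J' F.x e u = 0 → u = 0 := fun u h1 h2 => hse u fun L =>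
    hx1 _ (by rw [mulQ_comm, h1, map_zero]) (by rw [mulQ_comm, h2, map_zero])
  have hκ : κ0 ≤ κ1 := by
    let fK : LinearMap.ker (mulQ J' l e) →ₗ[K] LinearMap.ker (mulQ J' l (e + 1)) :=
      (mulQ J' F.x e).restrict fun u hu => by
        rw [LinearMap.mem_ker] at hu ⊢
        rw [mulQ_comm J' l F.x e u, hu, map_zero]
    refine LinearMap.finrank_le_finrank_of_injective (f := fK) ?_
    exact LinearMap.ker_eq_bot.mp (LinearMap.ker_eq_bot'.mpr
      fun u hu => Subtype.ext (hx0 u u.2 (congrArg Subtype.val hu)))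
  have hAC : Avoid (Cl.image J') (e + 2) := Cl.avoid hAv
  have hg : g1 ≤ g0 ∧ (0 < g0 → g1 < g0) := by
    refine ⟨?_, hq_succ_lt (Cl.homog_image hJ) hAC⟩
    rcases Nat.eq_zero_or_pos g0 with h0 | h0
    · exact (hq_succ_eq_zero h0).le.trans (Nat.zero_le _)
    · exact (hq_succ_lt (Cl.homog_image hJ) hAC h0).le
  have hLle := lossSet_card_le B.k C.k (e + 1) (hq J' (e + 1))
  by_cases hD : hq J' e + hq J' (e + 2) = 2 * hq J' (e + 1)
  · -- the drop is constant
    have hg00 : g0 = 0 := Nat.eq_zero_of_not_pos fun h => by have := hg.2 h; omega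
    have hg10 : g1 = 0 := by omega
    have hs0 : Function.Surjective (mulQ J' l e) := mulQ_surjective hJ (by
      rw [← Cl.hq_image hJ hl1]; exact hg00)
    have hs1' : Function.Surjective (mulQ J' l (e + 1)) := mulQ_surjective hJ (by
      rw [← Cl.hq_image hJ hl1]; exact hg10)
    have hpos : pos B.k C.k (e + 1) κ1 < hq J' (e + 1) := by
      have := pos_lt_of_not_ok hbad (by change hq J' (e + 2) ≤ _; omega)
      rwa [show hq J' (e + 1) - hq J' (e + 1 + 1) = κ1 by
        change hq J' (e + 1) - hq J' (e + 2) = κ1; omega] at this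
    have hκle : κ1 ≤ e + 1 := by
      unfold Ok at hbad
      change ¬ (hq J' (e + 2) + _ ≤ _) at hbad
      omega
    obtain ⟨r, Φ, hrD, hΦ0, hmem⟩ := exists_low_form F hAv hs0 hs1' hs1
      (fun u h1 h2 => hx0 u h1 h2) (D := κ1) (by omega) (by omega) hκle
    let J2 := J' ⊔ Ideal.span {(Φ : Poly K 3)}
    have hq2 : hq J2 (e + 1) = hq J' (e + 1) := by
      refine hq_eq_of_part_eq ?_
      show part (J' ⊔ Ideal.span {(Φ : Poly K 3)}) (e + 1) = _
      obtain ⟨j, hj⟩ : ∃ j, e + 1 = j + r := ⟨e + 1 - r, by omega⟩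
      rw [hj, part_sup_span hJ Φ.2]
      refine sup_eq_left.mpr ?_
      rintro _ ⟨g, hg', rfl⟩
      refine ⟨?_, map_forms_le Φ.2 j ⟨g, hg', rfl⟩⟩
      have : e + 1 - r = j := by omega
      subst this
      exact hmem ⟨g, hg'⟩
    rcases Nat.eq_zero_or_pos r with rfl | hr0
    · have hone : hq J2 (e + 1) = 0 := by
        rw [hq_eq_zero_iff]
        intro p _
        have hc : (Φ : Poly K 3) = MvPolynomial.C (coeff 0 (Φ : Poly K 3)) := by
          rw [← homogeneousComponent_zero, component_self Φ.2]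
        have hc0 : coeff 0 (Φ : Poly K 3) ≠ 0 := fun h => hΦ0 (by rw [hc, h, map_zero])
        refine Submodule.mem_sup_right (Ideal.mem_span_singleton'.mpr
          ⟨p * MvPolynomial.C (coeff 0 (Φ : Poly K 3))⁻¹, ?_⟩)
        rw [mul_assoc]
        conv_lhs => arg 2; arg 2; rw [hc]
        rw [← map_mul, inv_mul_cancel₀ hc0, map_one, mul_one]
      omega
    let G : GForm K 3 := ⟨Φ, r, Φ.2, hr0⟩
    have := hq_le_pos (J := J2) (Φ := G) hreg (Submodule.mem_sup_left hA)
      (Submodule.mem_sup_left hB) (Submodule.mem_sup_left hC)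
      (Submodule.mem_sup_right (Ideal.mem_span_singleton_self _)) hΦ0 hab hbc (e + 1)
    rw [hq2] at this
    change hq J' (e + 1) ≤ pos B.k C.k (e + 1) r at this
    have := pos_mono B.k C.k (e + 1) hrD
    omega
  -- the drop rises
  have hslope : hq J' e + hq J' (e + 2) + 1 ≤ 2 * hq J' (e + 1) := by omega
  obtain ⟨hh, hexact⟩ := step_of_ok hab hbc hk hk' (hlow J' hJ hA hB hC) hbad hslope
  -- no class is killed by a point
  have hkill : ∀ (u : QPiece J' e) (R : Forms K 3 1),
      (∀ L : Forms K 3 1, ∃ c : K, mulQ J' L e u = c • mulQ J' R e u) → u = 0 := by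
    intro u R hR
    by_contra hu0
    set w := mulQ J' R e u with hw
    have hw0 : w ≠ 0 := fun h => hu0 (hse u fun L => by
      obtain ⟨c, hc⟩ := hR L
      rw [hc, h, smul_zero])
    obtain ⟨J'', hle, hJ'', h1, h2⟩ := exists_enlarge hJ (Submodule.span K {w})
      (Submodule.span K {mulQ J' R (e + 1) w}) (by
        intro L v hv
        obtain ⟨t, rfl⟩ := Submodule.mem_span_singleton.mp hv
        obtain ⟨c, hc⟩ := hR L
        rw [map_smul, hw, mulQ_comm J' L R, hc, map_smul]
        exact Submodule.smul_mem _ _ (Submodule.smul_mem _ _ (Submodule.mem_span_singleton_self _)))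
    rw [finrank_span_singleton hw0] at h1
    have hW : finrank K (Submodule.span K {mulQ J' R (e + 1) w}) ≤ 1 :=
      (finrank_span_le_card ({mulQ J' R (e + 1) w} : Set (QPiece J' (e + 1 + 1)))).trans (by simp)
    change hq J' (e + 2) ≤ hq J'' (e + 2) + _ at h2
    have ok : Ok A.k B.k C.k (e + 1) (hq J'' (e + 1)) (hq J'' (e + 2)) :=
      IH J'' hJ'' (hle hA) (hle hB) (hle hC) (by
        rw [show e + 1 + 1 = e + 2 from rfl]
        by_cases hlt : hq J'' (e + 1) + hq J' (e + 2) < hq J' (e + 1) + hq J'' (e + 2)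
        · exact Or.inl hlt
        · exact Or.inr ⟨by omega, by omega⟩)
    rw [show hq J'' (e + 1) = hq J' (e + 1) - 1 by omega] at ok
    exact not_ok_pred hab hbc hk1 hk1' hbad hh
      (ok.mono (by change hq J' (e + 2) - 1 ≤ hq J'' (e + 2); omega))
  have hpoint : ∀ (G : Frame l) (u : QPiece J' e), mulQ J' G.x e u = 0 → mulQ J' l e u = 0 →
      u = 0 := fun G u h1 h2 => hkill u G.y fun L => by
    obtain ⟨s, t, r, h⟩ := mulQ_combination (J := J') G (e := e) L
    exact ⟨t, by rw [h, h1, h2, smul_zero, smul_zero, zero_add, add_zero]⟩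
  by_cases hg0pos : 0 < g0
  · have hlt := hg.2 hg0pos
    have hk0 : κ0 = 0 := by
      by_contra hne
      let fx : LinearMap.ker (mulQ J' l e) →ₗ[K] LinearMap.ker (mulQ J' l (e + 1)) :=
        (mulQ J' F.x e).restrict fun u hu => by
          rw [LinearMap.mem_ker] at hu ⊢
          rw [mulQ_comm J' l F.x e u, hu, map_zero]
      let fy : LinearMap.ker (mulQ J' l e) →ₗ[K] LinearMap.ker (mulQ J' l (e + 1)) :=
        (mulQ J' F.y e).restrict fun u hu => by
          rw [LinearMap.mem_ker] at hu ⊢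
          rw [mulQ_comm J' l F.y e u, hu, map_zero]
      obtain ⟨s, t, hst, hnot⟩ := pencil fx fy (by omega) (by omega)
      refine hnot (LinearMap.ker_eq_bot.mp (LinearMap.ker_eq_bot'.mpr fun u hu => Subtype.ext ?_))
      obtain ⟨G, hG⟩ := F.exists_member hst
      refine hpoint G u ?_ u.2
      rw [hG, mulQ_add, mulQ_smul, mulQ_smul]
      exact congrArg Subtype.val hu
    refine false_of_injective hJ F (q := g1) hAv ?_ ?_ (by omega) (by omega)
    · exact LinearMap.ker_eq_bot.mp (Submodule.finrank_eq_zero.mp hk0)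
    · exact LinearMap.ker_eq_bot.mp (Submodule.finrank_eq_zero.mp (by omega))
  · have hg00 : g0 = 0 := by omega
    have hg10 : g1 = 0 := by omega
    refine false_of_surjective F (q := κ0)
      (mulQ_surjective hJ (by rw [← Cl.hq_image hJ hl1]; exact hg00))
      (mulQ_surjective hJ (by rw [← Cl.hq_image hJ hl1]; exact hg10)) hs1 hpoint
      (fun α β u h1 h2 => hkill u l fun L => ?_) (by omega) (by omega)
    obtain ⟨s, t, r, h⟩ := mulQ_combination (J := J') F (e := e) L
    exact ⟨s * α + t * β + r, by rw [h, h1, h2, smul_smul, smul_smul, ← add_smul, ← add_smul]⟩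

/-- The growth bound from two degrees below the third form up to the middle range. -/
theorem ok_three (hreg : RegL ⊥ [A, B, C]) (ha : 2 ≤ A.k) (hab : A.k ≤ B.k) (hbc : B.k ≤ C.k) :
    ∀ d, C.k ≤ d + 2 → d + 3 ≤ A.k + B.k → ∀ J : Ideal (Poly K 3), Homog J → A.g ∈ J →
      B.g ∈ J → C.g ∈ J → Ok A.k B.k C.k d (hq J d) (hq J (d + 1)) := by
  intro d
  induction d with
  | zero =>
    intro hk _ J hJ hA hB _
    exact ok_base hJ hreg hA hB ha hab (by omega)
  | succ e ihd =>
    intro hk hk'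
    by_cases hlow : e + 3 ≤ C.k
    · intro J hJ hA hB _
      exact ok_base hJ hreg hA hB ha hab (by omega)
    have hl := ihd (by omega) (by omega)
    set H := (boxSet A.k B.k C.k (e + 1)).card with hH
    set M := (boxSet A.k B.k C.k (e + 2)).card with hM
    have key : ∀ n, ∀ J : Ideal (Poly K 3), Homog J → A.g ∈ J → B.g ∈ J → C.g ∈ J →
        (hq J (e + 1) + (M - hq J (e + 2))) * (H + 1) + hq J (e + 1) = n →
        Ok A.k B.k C.k (e + 1) (hq J (e + 1)) (hq J (e + 2)) := by
      intro n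
      induction n using Nat.strong_induction_on with
      | _ n ih =>
        intro J hJ hA hB hC hn
        refine ok_step hreg ha hab hbc (by omega) (by omega) hl hJ hA hB hC ?_
        intro J' hJ' hA' hB' hC' hlt
        refine ih _ ?_ J' hJ' hA' hB' hC' rfl
        change (hq J' (e + 1) + hq J (e + 2) < hq J (e + 1) + hq J' (e + 2) ∨
          (hq J' (e + 1) + hq J (e + 2) = hq J (e + 1) + hq J' (e + 2) ∧ _)) at hlt
        have b1 : hq J' (e + 1) ≤ H := hq_le_box hreg hA' hB' hC' _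
        have b2 : hq J' (e + 2) ≤ M := hq_le_box hreg hA' hB' hC' _
        have b3 : hq J (e + 2) ≤ M := hq_le_box hreg hA hB hC _
        rcases hlt with hlt | ⟨heq, hlt⟩
        · have h1 := Nat.mul_le_mul_right (H + 1)
            (show hq J' (e + 1) + (M - hq J' (e + 2)) + 1 ≤ hq J (e + 1) + (M - hq J (e + 2)) by
              omega)
          rw [Nat.succ_mul] at h1
          omega
        · rw [show hq J' (e + 1) + (M - hq J' (e + 2)) = hq J (e + 1) + (M - hq J (e + 2)) by
            omega]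
          omega
    intro J hJ hA hB hC
    exact key _ J hJ hA hB hC rfl

end

end Vale.Agent.P200
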