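import Vale.Agent.P200.Three
import Vale.Agent.P200.Growth

/-!
# Three forms of arbitrary degrees
-/

namespace Vale.Agent.P200

open MvPolynomial Module Finset

noncomputable section

variable {K : Type} [Field K] [IsAlgClosed K]

/-- The upper-set step below the degree of the third form. -/
theorem cond_below {J : Ideal (Poly K 3)} (hJ : Homog J) {A B C : GForm K 3}
    (h : RegL ⊥ [A, B, C]) (hA : A.g ∈ J) (hB : B.g ∈ J) (hC : C.g ∈ J) (ha : 2 ≤ A.k)
    (hab : A.k ≤ B.k) {d : ℕ} (hd : d + 2 ≤ C.k) :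
    Cond A.k B.k C.k d (hq J d) (hq J (d + 1)) := by
  refine cond_of_le_good ?_
  have hlow := le_good (a := A.k) (b := B.k) C.pos (hq_le_box h hA hB hC d)
  have h2 := two_forms hJ ((regL_append ⊥ [A, B] [C]).mp h).1 hA hB hab (by omega) d
  have hz : ((boxSet A.k B.k C.k d).filter
      fun q => q.1 + q.2 + C.k = d + 1 ∧ brank A.k B.k C.k d q < hq J d) = ∅ := by
    rw [filter_eq_empty_iff]
    intro q hq
    omega
  rw [hz, card_empty] at hlow
  omega

/-- The upper-set step holds in every degree, for all triples. -/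
theorem cond_every {J : Ideal (Poly K 3)} (hJ : Homog J) {A B C : GForm K 3}
    (h : RegL ⊥ [A, B, C]) (hA : A.g ∈ J) (hB : B.g ∈ J) (hC : C.g ∈ J) (ha : 2 ≤ A.k)
    (hab : A.k ≤ B.k) (hbc : B.k ≤ C.k) (d : ℕ) :
    Cond A.k B.k C.k d (hq J d) (hq J (d + 1)) := by
  by_cases hd : d + 2 ≤ C.k
  · exact cond_below hJ h hA hB hC ha hab hd
  by_cases htop : A.k + B.k + C.k ≤ d + 3
  · exact cond_top htop
  have hb0 := hq_le_box h hA hB hC d
  by_cases hmid : d + 3 ≤ A.k + B.k
  · exact cond_of_ok hbc (by omega) C.pos hb0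
      (ok_three h ha hab hbc d (by omega) hmid J hJ hA hB hC)
  obtain ⟨J', hJ', hA', hB', hC', hlink⟩ := exists_linked hJ h hA hB hC
  have hb1 := hq_le_box h hA hB hC (d + 1)
  obtain ⟨e, he⟩ : ∃ e, d + e + 4 = A.k + B.k + C.k := ⟨A.k + B.k + C.k - 4 - d, by omega⟩
  obtain ⟨l1, l1'⟩ := hlink e (d + 1) (by omega)
  obtain ⟨l0, l0'⟩ := hlink (e + 1) d (by omega)
  refine cond_of_link he hb0 hb1 ?_
  rw [show (boxSet A.k B.k C.k (d + 1)).card - hq J (d + 1) = hq J' e by omega,
    show (boxSet A.k B.k C.k d).card - hq J d = hq J' (e + 1) by omega]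
  exact cond_below hJ' h hA' hB' hC' ha hab (by omega)

/-- The three-variable statement for all triples. -/
theorem model_three_all {a b c : ℕ} (ha : 2 ≤ a) (hab : a ≤ b) (hbc : b ≤ c) :
    Model K 3 [a, b, c] := by
  intro L hk hreg P _ I hmono hhom hmem
  match L, hk with
  | [A, B, C], hk =>
    simp only [List.map_cons, List.map_nil, List.cons.injEq, and_true] at hk
    obtain ⟨rfl, rfl, rfl⟩ := hk
    refine ⟨fun p => lexSet A.k B.k C.k (hq (I p)),
      fun p q hpq => lexSet_mono fun d => hq_anti (hmono hpq) d, fun p => lexSet_upper fun d =>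
        cond_every (hhom p) hreg (hmem p A (by simp)) (hmem p B (by simp)) (hmem p C (by simp))
          ha hab hbc d, fun p i hi hn => ?_, fun p d => ?_⟩
    · intro hbox
      simp only [List.length_cons, List.length_nil] at hi
      rcases (show i = 0 ∨ i = 1 ∨ i = 2 by omega) with rfl | rfl | rfl <;> simp at hbox
    · exact card_lexSet (hq_le_box hreg (hmem p A (by simp)) (hmem p B (by simp))
        (hmem p C (by simp)) d)

end

end Vale.Agent.P200
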