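import Mathlib

/-!
# Compression in a box with one unbounded side

Pairs `(α, β)` stand for the exponent `(α, β, d - α - β)`.
-/

namespace Vale.Agent.P200

open Finset

/-- `B` in degree `d`, `C` in degree `d + 1`, closed under division. -/
structure ClosedPair (a b d : ℕ) (B C : Finset (ℕ × ℕ)) : Prop where
  boxB : ∀ p ∈ B, p.1 < a ∧ p.2 < b ∧ p.1 + p.2 ≤ d
  boxC : ∀ p ∈ C, p.1 < a ∧ p.2 < b ∧ p.1 + p.2 ≤ d + 1
  divx : ∀ p ∈ C, 0 < p.1 → (p.1 - 1, p.2) ∈ B
  divy : ∀ p ∈ C, 0 < p.2 → (p.1, p.2 - 1) ∈ B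
  divz : ∀ p ∈ C, p.1 + p.2 ≤ d → p ∈ B

theorem seg_eq_of_sum_le {lo : ℕ} {S : Finset ℕ} (hS : ∀ x ∈ S, lo ≤ x)
    (h : ∑ x ∈ S, x ≤ ∑ x ∈ Ico lo (lo + S.card), x) : S = Ico lo (lo + S.card) := by
  set T := Ico lo (lo + S.card)
  have hcard : T.card = S.card := by simp [T]
  by_contra hne
  have hST : (S \ T).Nonempty := by
    rw [nonempty_iff_ne_empty, Ne, sdiff_eq_empty_iff_subset]
    exact fun hsub => hne (eq_of_subset_of_card_le hsub hcard.le)
  have hc : (S \ T).card = (T \ S).card := card_sdiff_comm hcard.symm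
  have h1 : (S \ T).card • (lo + S.card) ≤ ∑ x ∈ S \ T, x := card_nsmul_le_sum _ _ _ fun x hx => by
    rw [mem_sdiff] at hx
    have := hS x hx.1
    simp only [T, mem_Ico] at hx
    omega
  have h2 : ∑ x ∈ T \ S, (x + 1) ≤ (T \ S).card • (lo + S.card) :=
    sum_le_card_nsmul _ _ _ fun x hx => by
      rw [mem_sdiff] at hx
      simp only [T, mem_Ico] at hx
      omega
  rw [sum_add_distrib, sum_const, smul_eq_mul, mul_one] at h2
  have h3 := sum_inter_add_sum_sdiff S T (fun x => x)
  have h4 := sum_inter_add_sum_sdiff T S (fun x => x)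
  rw [inter_comm] at h4
  rw [smul_eq_mul] at h1 h2
  rw [hc] at h1
  have : 0 < (T \ S).card := by rw [← hc]; exact card_pos.mpr hST
  omega

/-- The key one-dimensional shadow inequality. -/
theorem line_shadow {S T : Finset ℕ} {lo s : ℕ} (hS : ∀ x ∈ S, lo ≤ x ∧ x ≤ s)
    (htop : 0 < lo → s ∉ S) (h1 : ∀ x ∈ S, 0 < x → x - 1 ∈ T) (h2 : ∀ x ∈ S, x < s → x ∈ T)
    {x : ℕ} (hx : lo ≤ x) (hx' : x < lo + S.card) :
    (0 < x → x - 1 < lo - 1 + T.card) ∧ (x < s → x < lo - 1 + T.card) := by
  have hne : S.Nonempty := card_pos.mp (by omega)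
  rcases Nat.eq_zero_or_pos lo with hlo | hlo
  · subst hlo
    by_cases hfull : ∀ g, g ≤ s → g ∈ S
    · have : range s ⊆ T := fun g hg => by
        rw [mem_range] at hg
        exact h2 g (hfull g hg.le) hg
      have := card_le_card this
      rw [card_range] at this
      have : S ⊆ range (s + 1) := fun y hy => mem_range.mpr (by have := hS y hy; omega)
      have := card_le_card this
      rw [card_range] at this
      omega
    · push Not at hfull
      obtain ⟨g, hg, hgS⟩ := hfull
      have : S.card ≤ T.card := by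
        refine card_le_card_of_injOn (fun y => if y < g then y else y - 1) (fun y hy => ?_) ?_
        · have hys := (hS y hy).2
          dsimp only
          split_ifs with hlt
          · exact h2 y hy (by omega)
          · exact h1 y hy (by
              have : y ≠ g := fun h => hgS (h ▸ hy)
              omega)
        · intro y hy z hz h
          have hyg : y ≠ g := fun h => hgS (h ▸ hy)
          have hzg : z ≠ g := fun h => hgS (h ▸ hz)
          dsimp only at h
          split_ifs at h <;> omega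
      omega
  · have hmin := S.min'_mem hne
    have hm0 : 0 < S.min' hne := by have := (hS _ hmin).1; omega
    have hnot : S.min' hne - 1 ∉ S := fun h => by have := S.min'_le _ h; omega
    have : insert (S.min' hne - 1) S ⊆ T := by
      intro y hy
      rcases mem_insert.mp hy with rfl | hy
      · exact h1 _ hmin hm0
      · refine h2 y hy ?_
        have := (hS y hy).2
        have : y ≠ s := fun h => htop hlo (h ▸ hy)
        omega
    have := card_le_card this
    rw [card_insert_of_notMem hnot] at this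
    omega

/-- The count of a line. -/
def lineCount (X : Finset (ℕ × ℕ)) (key : ℕ × ℕ → ℕ) (k : ℕ) : ℕ :=
  (X.filter fun p => key p = k).card

/-- Replace every line by an initial segment. -/
def pack (X : Finset (ℕ × ℕ)) (key : ℕ × ℕ → ℕ) (mk : ℕ → ℕ → ℕ × ℕ) (lo : ℕ → ℕ) :
    Finset (ℕ × ℕ) :=
  (X.image key).biUnion fun k => (Ico (lo k) (lo k + lineCount X key k)).image (mk k)

/-- A family of lines with a coordinate along each. -/
structure Lines (X : Finset (ℕ × ℕ)) (key pos : ℕ × ℕ → ℕ) (mk : ℕ → ℕ → ℕ × ℕ) (lo hi : ℕ → ℕ) :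
    Prop where
  mem : ∀ p ∈ X, lo (key p) ≤ pos p ∧ pos p < hi (key p)
  mk_eq : ∀ p ∈ X, mk (key p) (pos p) = p
  key_mk : ∀ k t, t < hi k → key (mk k t) = k ∧ pos (mk k t) = t

variable {X : Finset (ℕ × ℕ)} {key pos : ℕ × ℕ → ℕ} {mk : ℕ → ℕ → ℕ × ℕ} {lo hi : ℕ → ℕ}

/-- The coordinates of one line. -/
def lineSet (X : Finset (ℕ × ℕ)) (key pos : ℕ × ℕ → ℕ) (k : ℕ) : Finset ℕ :=
  (X.filter fun p => key p = k).image pos

theorem Lines.card_lineSet (L : Lines X key pos mk lo hi) (k : ℕ) :
    (lineSet X key pos k).card = lineCount X key k := by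
  refine card_image_of_injOn fun p hp q hq h => ?_
  simp only [coe_filter, Set.mem_setOf_eq] at hp hq
  rw [← L.mk_eq p hp.1, ← L.mk_eq q hq.1, hp.2, hq.2, h]

theorem Lines.lineSet_bound (L : Lines X key pos mk lo hi) {k t : ℕ}
    (ht : t ∈ lineSet X key pos k) : lo k ≤ t ∧ t < hi k ∧ mk k t ∈ X := by
  obtain ⟨p, hp, rfl⟩ := mem_image.mp ht
  rw [mem_filter] at hp
  obtain ⟨hp, rfl⟩ := hp
  exact ⟨(L.mem p hp).1, (L.mem p hp).2, by rw [L.mk_eq p hp]; exact hp⟩

theorem Lines.count_le (L : Lines X key pos mk lo hi) {k : ℕ} (hk : 0 < lineCount X key k) :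
    lo k + lineCount X key k ≤ hi k := by
  have h : lineSet X key pos k ⊆ Ico (lo k) (hi k) := fun t ht =>
    mem_Ico.mpr ⟨(L.lineSet_bound ht).1, (L.lineSet_bound ht).2.1⟩
  have := card_le_card h
  rw [L.card_lineSet, Nat.card_Ico] at this
  omega

theorem Lines.mem_pack (L : Lines X key pos mk lo hi) {p : ℕ × ℕ} :
    p ∈ pack X key mk lo ↔
      ∃ k t, lo k ≤ t ∧ t < lo k + lineCount X key k ∧ mk k t = p := by
  simp only [pack, mem_biUnion, mem_image, mem_Ico]
  constructor
  · rintro ⟨k, -, t, ⟨h1, h2⟩, rfl⟩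
    exact ⟨k, t, h1, h2, rfl⟩
  · rintro ⟨k, t, h1, h2, rfl⟩
    obtain ⟨q, hq⟩ := card_pos.mp (show 0 < lineCount X key k by omega)
    rw [mem_filter] at hq
    exact ⟨k, ⟨q, hq.1, hq.2⟩, t, ⟨h1, h2⟩, rfl⟩

theorem Lines.sum_pack (L : Lines X key pos mk lo hi) (f : ℕ × ℕ → ℕ) :
    ∑ p ∈ pack X key mk lo, f p =
      ∑ k ∈ X.image key, ∑ t ∈ Ico (lo k) (lo k + lineCount X key k), f (mk k t) := by
  have hlt : ∀ k t, t ∈ Ico (lo k) (lo k + lineCount X key k) → t < hi k := by
    intro k t ht
    rw [mem_Ico] at ht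
    have := L.count_le (k := k) (by omega)
    omega
  rw [pack, sum_biUnion]
  · refine sum_congr rfl fun k _ => sum_image fun t ht t' ht' h => ?_
    rw [← (L.key_mk k t (hlt k t ht)).2, h, (L.key_mk k t' (hlt k t' ht')).2]
  · intro k _ k' _ hne
    simp only [Function.onFun, disjoint_left, mem_image]
    rintro _ ⟨t, ht, rfl⟩ ⟨t', ht', he⟩
    apply hne
    rw [← (L.key_mk k t (hlt k t ht)).1, ← he, (L.key_mk k' t' (hlt k' t' ht')).1]

theorem Lines.sum_self (L : Lines X key pos mk lo hi) (f : ℕ × ℕ → ℕ) :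
    ∑ p ∈ X, f p = ∑ k ∈ X.image key, ∑ t ∈ lineSet X key pos k, f (mk k t) := by
  rw [← sum_fiberwise_of_maps_to (s := X) (t := X.image key) (g := key)
    fun p hp => mem_image_of_mem _ hp]
  refine sum_congr rfl fun k _ => ?_
  rw [lineSet, sum_image]
  · refine sum_congr rfl fun p hp => ?_
    rw [mem_filter] at hp
    obtain ⟨hp, rfl⟩ := hp
    rw [L.mk_eq p hp]
  · intro p hp q hq h
    simp only [coe_filter, Set.mem_setOf_eq] at hp hq
    rw [← L.mk_eq p hp.1, ← L.mk_eq q hq.1, hp.2, hq.2, h]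

theorem Lines.card_pack (L : Lines X key pos mk lo hi) : (pack X key mk lo).card = X.card := by
  rw [card_eq_sum_ones, card_eq_sum_ones, L.sum_pack, L.sum_self]
  refine sum_congr rfl fun k _ => ?_
  simp [L.card_lineSet]

theorem seg_sum_le {lo : ℕ} {S : Finset ℕ} (hS : ∀ x ∈ S, lo ≤ x) :
    ∑ x ∈ Ico lo (lo + S.card), x ≤ ∑ x ∈ S, x := by
  by_contra h
  push Not at h
  rw [← seg_eq_of_sum_le hS h.le] at h
  exact lt_irrefl _ h

/-- Packing does not increase a weight `pos + g (key)`. -/
theorem Lines.weight_le (L : Lines X key pos mk lo hi) (w : ℕ × ℕ → ℕ) (g : ℕ → ℕ)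
    (hw : ∀ k t, t < hi k → w (mk k t) = t + g k) :
    ∑ p ∈ pack X key mk lo, w p ≤ ∑ p ∈ X, w p ∧
      (∑ p ∈ X, w p ≤ ∑ p ∈ pack X key mk lo, w p → pack X key mk lo = X) := by
  have e1 : ∀ k, ∑ t ∈ Ico (lo k) (lo k + lineCount X key k), w (mk k t) =
      ∑ t ∈ Ico (lo k) (lo k + (lineSet X key pos k).card), t + lineCount X key k * g k := by
    intro k
    rw [L.card_lineSet, sum_congr rfl fun t ht => hw k t (by
      rw [mem_Ico] at ht
      have := L.count_le (k := k) (by omega)
      omega), sum_add_distrib, sum_const, Nat.card_Ico, smul_eq_mul]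
    simp
  have e2 : ∀ k, ∑ t ∈ lineSet X key pos k, w (mk k t) =
      ∑ t ∈ lineSet X key pos k, t + lineCount X key k * g k := by
    intro k
    rw [sum_congr rfl fun t ht => hw k t (L.lineSet_bound ht).2.1, sum_add_distrib, sum_const,
      L.card_lineSet, smul_eq_mul]
  rw [L.sum_pack, L.sum_self]
  simp only [e1, e2]
  refine ⟨sum_le_sum fun k _ => Nat.add_le_add_right
    (seg_sum_le fun x hx => (L.lineSet_bound hx).1) _, fun hle => ?_⟩
  have heq := (sum_eq_sum_iff_of_le fun k (_ : k ∈ X.image key) => Nat.add_le_add_right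
    (seg_sum_le fun x hx => (L.lineSet_bound (k := k) hx).1) (lineCount X key k * g k)).mp
    (le_antisymm (sum_le_sum fun k _ => Nat.add_le_add_right
      (seg_sum_le fun x hx => (L.lineSet_bound hx).1) _) hle)
  have hseg : ∀ k ∈ X.image key,
      lineSet X key pos k = Ico (lo k) (lo k + lineCount X key k) := by
    intro k hk
    have := heq k hk
    rw [← L.card_lineSet]
    exact seg_eq_of_sum_le (fun x hx => (L.lineSet_bound hx).1) (by omega)
  symm
  refine eq_of_subset_of_card_le (fun p hp => ?_) L.card_pack.le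
  have ht : pos p ∈ lineSet X key pos (key p) := mem_image_of_mem _ (mem_filter.mpr ⟨hp, rfl⟩)
  rw [hseg _ (mem_image_of_mem _ hp), mem_Ico] at ht
  exact L.mem_pack.mpr ⟨key p, pos p, ht.1, ht.2, L.mk_eq p hp⟩

section Box

variable {a b d : ℕ}

theorem linesXY {X : Finset (ℕ × ℕ)} (h : ∀ p ∈ X, p.1 < a ∧ p.2 < b) :
    Lines X (fun p => p.1 + p.2) Prod.fst (fun s t => (t, s - t)) (fun s => s + 1 - b)
      (fun s => min a (s + 1)) where
  mem p hp := by have := h p hp; omega
  mk_eq p _ := by simp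
  key_mk k t ht := by simp only [and_true]; omega

theorem linesYZ {X : Finset (ℕ × ℕ)} (D : ℕ) (h : ∀ p ∈ X, p.2 < b ∧ p.1 + p.2 ≤ D) :
    Lines X Prod.fst Prod.snd (fun k t => (k, t)) (fun _ => 0)
      (fun k => min b (D + 1 - k)) where
  mem p hp := by have := h p hp; omega
  mk_eq _ _ := rfl
  key_mk _ _ _ := ⟨rfl, rfl⟩

/-- Packing along lines of constant `α + β`. -/
def packXY (b : ℕ) (X : Finset (ℕ × ℕ)) : Finset (ℕ × ℕ) :=
  pack X (fun p => p.1 + p.2) (fun s t => (t, s - t)) (fun s => s + 1 - b)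

/-- Packing along lines of constant `α`. -/
def packYZ (X : Finset (ℕ × ℕ)) : Finset (ℕ × ℕ) :=
  pack X Prod.fst (fun k t => (k, t)) (fun _ => 0)

theorem closed_packXY (hab : a ≤ b) {B C : Finset (ℕ × ℕ)} (h : ClosedPair a b d B C) :
    ClosedPair a b d (packXY b B) (packXY b C) := by
  have LB := linesXY (a := a) (b := b) fun p hp => ⟨(h.boxB p hp).1, (h.boxB p hp).2.1⟩
  have LC := linesXY (a := a) (b := b) fun p hp => ⟨(h.boxC p hp).1, (h.boxC p hp).2.1⟩
  have memB : ∀ x s, x ≤ s → s + 1 - b ≤ x →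
      x < s + 1 - b + lineCount B (fun p => p.1 + p.2) s → (x, s - x) ∈ packXY b B :=
    fun x s _ h1 h2 => LB.mem_pack.mpr ⟨s, x, h1, h2, rfl⟩
  have bnd : ∀ {X : Finset (ℕ × ℕ)}, (∀ p ∈ X, p.1 < a ∧ p.2 < b) → ∀ p ∈ packXY b X,
      ∃ s, p.1 + p.2 = s ∧ s + 1 - b ≤ p.1 ∧ p.1 < s + 1 - b + lineCount X (fun q => q.1 + q.2) s ∧
        p.1 < a ∧ p.2 < b ∧ ∃ q ∈ X, q.1 + q.2 = s := by
    intro X hX p hp
    have L := linesXY (a := a) (b := b) hX
    obtain ⟨s, t, h1, h2, rfl⟩ := L.mem_pack.mp hp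
    have := L.count_le (k := s) (by omega)
    obtain ⟨q, hq⟩ := card_pos.mp (show 0 < lineCount X (fun q => q.1 + q.2) s by omega)
    rw [mem_filter] at hq
    refine ⟨s, ?_, h1, h2, ?_, ?_, q, hq.1, hq.2⟩ <;> simp only <;> omega
  have shadow : ∀ p ∈ packXY b C, (0 < p.1 → (p.1 - 1, p.2) ∈ packXY b B) ∧
      (0 < p.2 → (p.1, p.2 - 1) ∈ packXY b B) := by
    intro p hp
    obtain ⟨s, hs, h1, h2, h3, h4, q, hq, hqs⟩ :=
      bnd (fun r hr => ⟨(h.boxC r hr).1, (h.boxC r hr).2.1⟩) p hp
    by_cases hs0 : s = 0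
    · refine ⟨fun h0 => by omega, fun h0 => by omega⟩
    set S := lineSet C (fun p => p.1 + p.2) Prod.fst s with hSdef
    set T := lineSet B (fun p => p.1 + p.2) Prod.fst (s - 1) with hTdef
    have hT : ∀ x y : ℕ, (x, y) ∈ B → x + y = s - 1 → x ∈ T := fun x y hxy he =>
      mem_image.mpr ⟨(x, y), mem_filter.mpr ⟨hxy, he⟩, rfl⟩
    have key := line_shadow (S := S) (T := T) (lo := s + 1 - b) (s := s)
      (fun x hx => by
        have := LC.lineSet_bound hx
        omega)
      (fun hlo hsS => by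
        have := LC.lineSet_bound hsS
        omega)
      (fun x hx hx0 => by
        have hb := LC.lineSet_bound hx
        exact hT _ (s - x) (h.divx _ hb.2.2 hx0) (by omega))
      (fun x hx hxs => by
        have hb := LC.lineSet_bound hx
        exact hT _ (s - x - 1) (h.divy _ hb.2.2 (by omega)) (by omega))
      (x := p.1) h1 (by rw [hSdef, LC.card_lineSet]; exact h2)
    rw [hTdef, LB.card_lineSet] at key
    refine ⟨fun h0 => ?_, fun h0 => ?_⟩
    · have := memB (p.1 - 1) (s - 1) (by omega) (by omega) (by have := key.1 h0; omega)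
      rwa [show s - 1 - (p.1 - 1) = p.2 by omega] at this
    · have := memB p.1 (s - 1) (by omega) (by omega) (by have := key.2 (by omega); omega)
      rwa [show s - 1 - p.1 = p.2 - 1 by omega] at this
  refine ⟨fun p hp => ?_, fun p hp => ?_, fun p hp => (shadow p hp).1,
    fun p hp => (shadow p hp).2, fun p hp hle => ?_⟩
  · obtain ⟨s, hs, -, -, h3, h4, q, hq, hqs⟩ :=
      bnd (fun r hr => ⟨(h.boxB r hr).1, (h.boxB r hr).2.1⟩) p hp
    have := h.boxB q hq
    omega
  · obtain ⟨s, hs, -, -, h3, h4, q, hq, hqs⟩ :=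
      bnd (fun r hr => ⟨(h.boxC r hr).1, (h.boxC r hr).2.1⟩) p hp
    have := h.boxC q hq
    omega
  · obtain ⟨s, hs, h1, h2, -, -, -⟩ :=
      bnd (fun r hr => ⟨(h.boxC r hr).1, (h.boxC r hr).2.1⟩) p hp
    have hsub : lineCount C (fun q => q.1 + q.2) s ≤ lineCount B (fun q => q.1 + q.2) s :=
      card_le_card fun q hq => by
        rw [mem_filter] at hq ⊢
        simp only at hq
        exact ⟨h.divz q hq.1 (by omega), hq.2⟩
    have := memB p.1 s (by omega) h1 (by omega)
    rwa [show s - p.1 = p.2 by omega] at this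

theorem closed_packYZ {B C : Finset (ℕ × ℕ)} (h : ClosedPair a b d B C) :
    ClosedPair a b d (packYZ B) (packYZ C) := by
  have LB := linesYZ (b := b) d fun p hp => ⟨(h.boxB p hp).2.1, (h.boxB p hp).2.2⟩
  have LC := linesYZ (b := b) (d + 1) fun p hp => ⟨(h.boxC p hp).2.1, (h.boxC p hp).2.2⟩
  have memB : ∀ k x, x < lineCount B Prod.fst k → (k, x) ∈ packYZ B :=
    fun k x hx => LB.mem_pack.mpr ⟨k, x, Nat.zero_le _, by simpa using hx, rfl⟩
  have shadow : ∀ p ∈ packYZ C, (0 < p.1 → (p.1 - 1, p.2) ∈ packYZ B) ∧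
      (0 < p.2 → (p.1, p.2 - 1) ∈ packYZ B) ∧ (p.1 + p.2 ≤ d → p ∈ packYZ B) := by
    intro p hp
    obtain ⟨k, x, -, hx, rfl⟩ := LC.mem_pack.mp hp
    simp only [zero_add] at hx
    have key := line_shadow (S := lineSet C Prod.fst Prod.snd k)
      (T := lineSet B Prod.fst Prod.snd k) (lo := 0) (s := d + 1 - k)
      (fun y hy => by
        have := LC.lineSet_bound hy
        omega)
      (fun h0 => absurd h0 (by omega))
      (fun y hy hy0 => by
        have hb := LC.lineSet_bound hy
        exact mem_image.mpr ⟨(k, y - 1), mem_filter.mpr ⟨h.divy _ hb.2.2 hy0, rfl⟩, rfl⟩)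
      (fun y hy hys => by
        have hb := LC.lineSet_bound hy
        exact mem_image.mpr ⟨(k, y), mem_filter.mpr ⟨h.divz _ hb.2.2 (by simp only; omega), rfl⟩, rfl⟩)
      (x := x) (Nat.zero_le _) (by rw [LC.card_lineSet]; omega)
    rw [LB.card_lineSet] at key
    refine ⟨fun hk => ?_, fun hx0 => ?_, fun hle => ?_⟩
    · refine memB (k - 1) x (lt_of_lt_of_le hx ?_)
      refine card_le_card_of_injOn (fun q => (q.1 - 1, q.2)) (fun q hq => ?_) ?_
      · rw [mem_coe, mem_filter] at hq
        rw [mem_coe, mem_filter]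
        simp only at hk ⊢
        exact ⟨h.divx q hq.1 (by omega), by omega⟩
      · intro q hq r hr he
        rw [mem_coe, mem_filter] at hq hr
        simp only [Prod.mk.injEq] at he
        exact Prod.ext (hq.2.trans hr.2.symm) he.2
    · exact memB k (x - 1) (by have := key.1 hx0; simp only at hx0; omega)
    · exact memB k x (by have := key.2 (by simp only at hle; omega); omega)
  refine ⟨fun p hp => ?_, fun p hp => ?_, fun p hp => (shadow p hp).1,
    fun p hp => (shadow p hp).2.1, fun p hp => (shadow p hp).2.2⟩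
  · obtain ⟨k, x, -, hx, rfl⟩ := LB.mem_pack.mp hp
    simp only [zero_add] at hx
    obtain ⟨q, hq⟩ := card_pos.mp (show 0 < lineCount B Prod.fst k by omega)
    rw [mem_filter] at hq
    have := h.boxB q hq.1
    have := LB.count_le (k := k) (by omega)
    simp only
    omega
  · obtain ⟨k, x, -, hx, rfl⟩ := LC.mem_pack.mp hp
    simp only [zero_add] at hx
    obtain ⟨q, hq⟩ := card_pos.mp (show 0 < lineCount C Prod.fst k by omega)
    rw [mem_filter] at hq
    have := h.boxC q hq.1
    have := LC.count_le (k := k) (by omega)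
    simp only
    omega

/-- A pair can be replaced by one packed in both directions. -/
theorem exists_packed (hab : a ≤ b) : ∀ (N : ℕ) (B C : Finset (ℕ × ℕ)), ClosedPair a b d B C →
    ∑ p ∈ B, (2 * p.1 + p.2) + ∑ p ∈ C, (2 * p.1 + p.2) ≤ N →
    ∃ B' C', ClosedPair a b d B' C' ∧ B'.card = B.card ∧ C'.card = C.card ∧
      packXY b B' = B' ∧ packYZ B' = B' ∧ packYZ C' = C' := by
  intro N
  induction N using Nat.strong_induction_on with
  | _ N ih =>
    intro B C h hN
    have LB := linesXY (a := a) (b := b) fun p hp => ⟨(h.boxB p hp).1, (h.boxB p hp).2.1⟩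
    have LC := linesXY (a := a) (b := b) fun p hp => ⟨(h.boxC p hp).1, (h.boxC p hp).2.1⟩
    have MB := linesYZ (b := b) d fun p hp => ⟨(h.boxB p hp).2.1, (h.boxB p hp).2.2⟩
    have MC := linesYZ (b := b) (d + 1) fun p hp => ⟨(h.boxC p hp).2.1, (h.boxC p hp).2.2⟩
    have wxy : ∀ s t, t < min a (s + 1) → 2 * t + (s - t) = t + s := fun s t ht => by omega
    have wB := LB.weight_le (fun p => 2 * p.1 + p.2) id wxy
    have wC := LC.weight_le (fun p => 2 * p.1 + p.2) id wxy
    have vB := MB.weight_le (fun p => 2 * p.1 + p.2) (fun k => 2 * k)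
      fun k t _ => Nat.add_comm _ _
    have vC := MC.weight_le (fun p => 2 * p.1 + p.2) (fun k => 2 * k)
      fun k t _ => Nat.add_comm _ _
    by_cases h1 : ∑ p ∈ packXY b B, (2 * p.1 + p.2) + ∑ p ∈ packXY b C, (2 * p.1 + p.2) < N
    · obtain ⟨B', C', hc, c1, c2, r⟩ := ih _ h1 _ _ (closed_packXY hab h) le_rfl
      exact ⟨B', C', hc, c1.trans LB.card_pack, c2.trans LC.card_pack, r⟩
    by_cases h2 : ∑ p ∈ packYZ B, (2 * p.1 + p.2) + ∑ p ∈ packYZ C, (2 * p.1 + p.2) < N
    · obtain ⟨B', C', hc, c1, c2, r⟩ := ih _ h2 _ _ (closed_packYZ h) le_rfl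
      exact ⟨B', C', hc, c1.trans MB.card_pack, c2.trans MC.card_pack, r⟩
    unfold packXY at h1
    unfold packYZ at h2
    exact ⟨B, C, h, rfl, rfl, wB.2 (by omega), vB.2 (by omega), vC.2 (by omega)⟩

/-- The partial sums of the line lengths. -/
def lineSum (b d k : ℕ) : ℕ := ∑ i ∈ range k, min b (d + 1 - i)

/-- The possible gains. -/
def gainSet (a b d h : ℕ) : Finset ℕ :=
  (range a).filter fun α => d + 2 ≤ α + b ∧ α ≤ d + 1 ∧ lineSum b d (α + 1) ≤ h

/-- Growth of a closed pair. -/
theorem card_le_add_gain (hab : a ≤ b) (hb : 2 ≤ b) {B C : Finset (ℕ × ℕ)}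
    (h : ClosedPair a b d B C) : C.card ≤ B.card + (gainSet a b d B.card).card := by
  obtain ⟨B', C', h', cB, cC, hxy, hyz, hyzC⟩ := exists_packed hab _ B C h le_rfl
  rw [← cB, ← cC]
  have LB := linesXY (a := a) (b := b) fun p hp => ⟨(h'.boxB p hp).1, (h'.boxB p hp).2.1⟩
  have MB := linesYZ (b := b) d fun p hp => ⟨(h'.boxB p hp).2.1, (h'.boxB p hp).2.2⟩
  have MC := linesYZ (b := b) (d + 1) fun p hp => ⟨(h'.boxC p hp).2.1, (h'.boxC p hp).2.2⟩
  let w := lineCount B' Prod.fst
  let v := lineCount C' Prod.fst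
  have memB : ∀ k t, (k, t) ∈ B' ↔ t < w k := by
    intro k t
    conv_lhs => rw [← hyz]
    refine ⟨fun hm => ?_, fun hm => MB.mem_pack.mpr ⟨k, t, Nat.zero_le _, by simpa using hm, rfl⟩⟩
    obtain ⟨k', t', -, hl, he⟩ := MB.mem_pack.mp hm
    simp only [Prod.mk.injEq] at he
    simpa [he.1, he.2] using hl
  have memC : ∀ k t, (k, t) ∈ C' ↔ t < v k := by
    intro k t
    conv_lhs => rw [← hyzC]
    refine ⟨fun hm => ?_, fun hm => MC.mem_pack.mpr ⟨k, t, Nat.zero_le _, by simpa using hm, rfl⟩⟩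
    obtain ⟨k', t', -, hl, he⟩ := MC.mem_pack.mp hm
    simp only [Prod.mk.injEq] at he
    simpa [he.1, he.2] using hl
  have left : ∀ α β, (α + 1, β) ∈ B' → β + 1 < b → (α, β + 1) ∈ B' := by
    intro α β hm hβ
    rw [← hxy] at hm ⊢
    obtain ⟨s, t, h1, h2, he⟩ := LB.mem_pack.mp hm
    simp only [Prod.mk.injEq] at he
    have := LB.count_le (k := s) (by omega)
    refine LB.mem_pack.mpr ⟨s, α, by omega, by omega, ?_⟩
    simp only [Prod.mk.injEq, true_and]
    omega
  have hv : ∀ α, v α ≤ w α + 1 := by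
    intro α
    by_contra hc
    have := (memB α _).mp (h'.divy (α, w α + 1) ((memC _ _).mpr (by omega)) (by simp))
    simp at this
  have hgain : ∀ α, w α < v α → α ∈ gainSet a b d B'.card := by
    intro α hlt
    have hm := (memC α (w α)).mpr hlt
    obtain ⟨hαa, hwb, hsum⟩ := h'.boxC _ hm
    simp only at hαa hwb hsum
    have htop : α + w α = d + 1 := by
      by_contra hne
      have := (memB α (w α)).mp (h'.divz _ hm (by simp only; omega))
      omega
    have hfull : ∀ i, i ≤ α → min b (d + 1 - (α - i)) ≤ w (α - i) := by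
      intro i
      induction i with
      | zero => intro; simp only [Nat.sub_zero]; omega
      | succ i ih =>
        intro hi
        have ih' := ih (by omega)
        set k := α - (i + 1)
        rw [show α - i = k + 1 by omega] at ih'
        by_cases hk : k = d
        · have hm' := (memC α 0).mpr (by omega)
          have := (memB k 0).mp (by
            have := h'.divx _ hm' (by simp only; omega)
            rwa [show α - 1 = k by omega] at this)
          omega
        · by_cases hsmall : d + 1 - (k + 1) < b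
          · have := (memB k _).mp (left k (d + 1 - (k + 1) - 1)
              ((memB _ _).mpr (by omega)) (by omega))
            omega
          · have := (memB k _).mp (left k (b - 2) ((memB _ _).mpr (by omega)) (by omega))
            omega
    refine mem_filter.mpr ⟨mem_range.mpr hαa, by omega, by omega, ?_⟩
    calc lineSum b d (α + 1) ≤ ∑ i ∈ range (α + 1), w i := sum_le_sum fun i hi => by
          rw [mem_range] at hi
          have := hfull (α - i) (by omega)
          rwa [show α - (α - i) = i by omega] at this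
      _ ≤ B'.card := by
          rw [card_eq_sum_card_fiberwise (s := B') (t := range a) (f := Prod.fst)
            fun p hp => mem_range.mpr (h'.boxB p hp).1]
          exact sum_le_sum_of_subset (range_mono (by omega))
  rw [card_eq_sum_card_fiberwise (s := C') (t := range a) (f := Prod.fst)
      fun p hp => mem_range.mpr (h'.boxC p hp).1,
    card_eq_sum_card_fiberwise (s := B') (t := range a) (f := Prod.fst)
      fun p hp => mem_range.mpr (h'.boxB p hp).1]
  have hG : gainSet a b d B'.card ⊆ range a := filter_subset _ _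
  conv_rhs => rw [← card_eq_sum_card_fiberwise (s := B') (t := range a) (f := Prod.fst)
      fun p hp => mem_range.mpr (h'.boxB p hp).1]
  calc ∑ α ∈ range a, v α
      ≤ ∑ α ∈ range a, (w α + if α ∈ gainSet a b d B'.card then 1 else 0) :=
        sum_le_sum fun α _ => by
          have := hv α
          split_ifs with hin
          · omega
          · have : ¬ w α < v α := fun hh => hin (hgain α hh)
            omega
    _ = B'.card + (gainSet a b d B'.card).card := by
        rw [sum_add_distrib, sum_ite_mem, inter_eq_right.mpr hG, sum_const, smul_eq_mul, mul_one,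
          card_eq_sum_card_fiberwise (s := B') (t := range a) (f := Prod.fst)
            fun p hp => mem_range.mpr (h'.boxB p hp).1]
        rfl

end Box

end Vale.Agent.P200
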