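import Vale.Agent.P200.Two
import Vale.Agent.P200.Box

/-!
# Tools for the middle degrees
-/

namespace Vale.Agent.P200

open MvPolynomial Module Finset

noncomputable section

variable {K : Type} [Field K]

theorem lineSum_T0 {b d : ℕ} (h : b ≤ d + 2) (hb : 1 ≤ b) :
    lineSum b d (d + 2 - b + 1) = (d + 2 - b) * b + (b - 1) := by
  rw [lineSum_succ, lineSum_full (by omega)]
  congr 1
  omega

theorem lineSum_T1 {b d : ℕ} (h : b ≤ d + 2) (hb : 1 ≤ b) :
    lineSum b d (d + 2 - b + 2) = (d + 2 - b) * b + (b - 1) + (b - 2) := by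
  rw [lineSum_succ b d (d + 2 - b + 1), lineSum_T0 h hb]
  congr 1
  omega

theorem lineSum_T2 {b d : ℕ} (h : b ≤ d + 2) (hb : 1 ≤ b) :
    lineSum b d (d + 2 - b + 3) = (d + 2 - b) * b + (b - 1) + (b - 2) + (b - 3) := by
  rw [lineSum_succ b d (d + 2 - b + 2), lineSum_T1 h hb]
  congr 1
  omega

theorem lineSum_one (b d : ℕ) : lineSum b d 1 = min b (d + 1) := by simp [lineSum]

/-- Hilbert function of three forms as a count in the box. -/
theorem hq_box {A B C : GForm K 3} (h : RegL ⊥ [A, B, C]) (d : ℕ) :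
    hq (idl ⊥ [A, B, C]) d = (boxSet A.k B.k C.k d).card := by
  classical
  rw [hq_regL h [((0 : Fin 3), A.k), ((1 : Fin 3), B.k), ((2 : Fin 3), C.k)] rfl (by simp)]
  refine card_bij' (fun e _ => (e 0, e 1))
    (fun p _ => Finsupp.equivFunOnFinite.symm ![p.1, p.2, d - p.1 - p.2]) ?_ ?_ ?_ ?_
  · intro e he
    rw [mem_filter, mem_degSet, Finsupp.degree_eq_sum, Fin.sum_univ_three] at he
    have h0 := he.2 (0, A.k) (by simp)
    have h1 := he.2 (1, B.k) (by simp)
    have h2 := he.2 (2, C.k) (by simp)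
    rw [mem_boxSet]
    simp only at h0 h1 h2 ⊢
    omega
  · intro p hp
    rw [mem_boxSet] at hp
    rw [mem_filter, mem_degSet, Finsupp.degree_eq_sum, Fin.sum_univ_three]
    simp
    omega
  · intro e he
    rw [mem_filter, mem_degSet, Finsupp.degree_eq_sum, Fin.sum_univ_three] at he
    ext i
    fin_cases i <;> simp <;> omega
  · intro p hp
    simp

/-- The box in one degree against the unbounded one. -/
theorem card_box_pred {a b d : ℕ} (ha : 2 ≤ a) (hb : 2 ≤ b) :
    (boxSet a b d d).card + 1 = lineSum b d a ∧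
      (boxSet a b d (d + 1)).card + 3 = lineSum b (d + 1) a := by
  constructor
  · rw [← card_full]
    have h0 : boxSet a b (d + 1) d = insert (0, 0) (boxSet a b d d) := by
      ext ⟨α, β⟩
      simp only [Finset.mem_insert, mem_boxSet, Prod.mk.injEq]
      omega
    rw [h0, card_insert_of_notMem (by simp [mem_boxSet])]
  · rw [← card_full]
    have h0 : boxSet a b (d + 1 + 1) (d + 1) =
        ({(0, 0), (1, 0), (0, 1)} : Finset (ℕ × ℕ)) ∪ boxSet a b d (d + 1) := by
      ext ⟨α, β⟩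
      simp only [Finset.mem_union, Finset.mem_insert, Finset.mem_singleton, mem_boxSet,
        Prod.mk.injEq]
      omega
    rw [h0, card_union_of_disjoint]
    · simp; omega
    · simp [mem_boxSet]; omega

section

variable {J : Ideal (Poly K 3)}

theorem mem_three {A B C : GForm K 3} (hA : A.g ∈ J) (hB : B.g ∈ J) (hC : C.g ∈ J) :
    ∀ F ∈ [A, B, C], F.g ∈ J := by
  simp only [List.mem_cons, List.not_mem_nil, or_false]
  rintro F (rfl | rfl | rfl) <;> assumption

theorem hq_le_box {A B C : GForm K 3} (h : RegL ⊥ [A, B, C]) (hA : A.g ∈ J) (hB : B.g ∈ J)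
    (hC : C.g ∈ J) (d : ℕ) : hq J d ≤ (boxSet A.k B.k C.k d).card :=
  hq_box h d ▸ hq_anti (idl_le bot_le (mem_three hA hB hC)) d

theorem avoid_three {A B C : GForm K 3} (h : RegL ⊥ [A, B, C]) (hA : A.g ∈ J) (hB : B.g ∈ J)
    (hC : C.g ∈ J) {r : ℕ} (ha : A.k ≤ r) (hb : B.k ≤ r) (hc : C.k ≤ r) : Avoid J r := by
  refine avoid_of_regL [A, B, C] (mem_three hA hB hC) (N := A.k + B.k + C.k) ?_ ?_
  · rw [hq_box h, boxSet_empty (by omega), card_empty]
  · simp only [List.mem_cons, List.not_mem_nil, or_false]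
    rintro F (rfl | rfl | rfl) <;> assumption

/-- The linked ideal. -/
theorem exists_linked [Infinite K] (hJ : Homog J) {A B C : GForm K 3} (h : RegL ⊥ [A, B, C])
    (hA : A.g ∈ J) (hB : B.g ∈ J) (hC : C.g ∈ J) :
    ∃ J' : Ideal (Poly K 3), Homog J' ∧ A.g ∈ J' ∧ B.g ∈ J' ∧ C.g ∈ J' ∧
      ∀ i j, i + j + 3 = A.k + B.k + C.k →
        hq J' i + hq J j = (boxSet A.k B.k C.k i).card ∧
          (boxSet A.k B.k C.k i).card = (boxSet A.k B.k C.k j).card := by
  set I := idl ⊥ [A, B, C]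
  have hI : Homog I := Homog.bot.idl _
  have hle : I ≤ J := idl_le bot_le (mem_three hA hB hC)
  have hAp := A.pos; have hBp := B.pos; have hCp := C.pos
  refine ⟨link I J, hI.link hJ, le_link _ _ (mem_idl (by simp)), le_link _ _ (mem_idl (by simp)),
    le_link _ _ (mem_idl (by simp)), fun i j hij => ⟨?_, card_refl (by omega)⟩⟩
  rw [card_refl (e := j) (by omega), ← hq_box h]
  refine hq_link (i := i) (j := j) hI hJ hle (s := A.k + B.k + C.k - 3) (fun d hd => ?_) ?_
    (fun d hd => ?_) (by omega)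
  · refine noSoc_regL 3 3 [A, B, C] rfl le_rfl h d fun _ => ?_
    simp [socTop]
    omega
  · rw [hq_box h, card_refl (e := 0) (by omega)]
    have : boxSet A.k B.k C.k 0 = {(0, 0)} := by
      ext ⟨α, β⟩
      simp only [mem_boxSet, Finset.mem_singleton, Prod.mk.injEq]
      omega
    rw [this, card_singleton]
  · rw [hq_box h, boxSet_empty (by omega), card_empty]

/-- The value drops below the first threshold. -/
theorem drop_one [IsAlgClosed K] (hJ : Homog J) {P Q R : GForm K 3} (h : RegL ⊥ [P, Q, R])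
    (hP : P.g ∈ J) (hQ : Q.g ∈ J) (hR : R.g ∈ J) (hpq : P.k ≤ Q.k) (hqr : Q.k ≤ R.k)
    (hq2 : 2 ≤ Q.k) {d : ℕ} (hr : R.k ≤ d + 1) (hpos : 0 < hq J d)
    (hlt : hq J d < (d + 2 - Q.k) * Q.k) : hq J (d + 1) < hq J d := by
  obtain ⟨e, rfl⟩ : ∃ e, d = e + 1 := ⟨d - 1, by omega⟩
  have hA : Avoid J (e + 2) := avoid_three h hP hQ hR (by omega) (by omega) (by omega)
  rcases step hJ hA with h0 | ⟨J', u, u', hle, hJ', e1, e2, hu, -⟩
  · rcases h0 with h0 | h0
    · rw [show e + 1 + 1 = e + 2 from rfl, h0]; exact hpos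
    · rw [show e + 1 + 1 = e + 2 from rfl]; omega
  · have hpair : RegL ⊥ [P, Q] := ((regL_append ⊥ [P, Q] [R]).mp h).1
    have h2 := two_forms hJ' hpair (hle hP) (hle hQ) hpq hq2 e
    have hg : (gainSet P.k Q.k e (hq J' e)).card ≤ 0 := by
      refine gain_card_le ?_
      rw [add_zero, lineSum_T0 (by omega) (by omega)]
      rw [show e + 1 + 2 - Q.k = e + 2 - Q.k + 1 by omega, Nat.succ_mul] at hlt
      omega
    rw [show e + 1 + 1 = e + 2 from rfl]
    omega

/-- Either growth is not maximal, or a form of lower degree can replace `C`. -/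
theorem lower_or_reg [IsAlgClosed K] (hJ : Homog J) {A B C : GForm K 3} (h : RegL ⊥ [A, B, C])
    (hA : A.g ∈ J) (hB : B.g ∈ J) (hC : C.g ∈ J) (hab : A.k ≤ B.k) (hb : 2 ≤ B.k) {j : ℕ}
    (hj : 0 < j) (hCk : C.k = j + 1) :
    hq J (j + 1) < hq J j + (gainSet A.k B.k j (hq J j)).card ∨
      ∃ g : GForm K 3, g.k = j ∧ g.g ∈ J ∧ RegL ⊥ [A, B, g] := by
  classical
  obtain ⟨hpair, hCz, -⟩ := (regL_append ⊥ [A, B] [C]).mp h
  set I := idl ⊥ [A, B]
  set J' : Ideal (Poly K 3) := I ⊔ Ideal.span (part J j : Set (Poly K 3))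
  have hJ' : Homog J' := (Homog.bot.idl _).sup (Homog.span fun g hg => ⟨j, hg.2⟩)
  have hle : J' ≤ J := by
    refine sup_le (idl_le bot_le ?_) (Ideal.span_le.mpr fun g hg => hg.1)
    simp only [List.mem_cons, List.not_mem_nil, or_false]
    rintro F (rfl | rfl) <;> assumption
  by_cases hC' : C.g ∈ J'
  · right
    let P : Set (Ideal (Poly K 3)) := associatedPrimes (Poly K 3) (Poly K 3 ⧸ I)
    have hPf : P.Finite := associatedPrimes.finite _ _
    let sub : Ideal (Poly K 3) → Subspace K (part J j) := fun p =>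
      (p.restrictScalars K).comap (part J j).subtype
    let s : Finset (Subspace K (part J j)) := hPf.toFinset.image sub
    have hs : ⊤ ∉ s := by
      intro hh
      obtain ⟨p, hp, hpt⟩ := mem_image.mp hh
      rw [Set.Finite.mem_toFinset] at hp
      obtain ⟨hprime, x, hx⟩ := isAssociatedPrime_iff.mp hp
      obtain ⟨f, rfl⟩ := Ideal.Quotient.mk_surjective x
      have hmem : ∀ r : Poly K 3, r ∈ p ↔ r * f ∈ I := by
        intro r
        rw [hx, Submodule.mem_colon_singleton, Submodule.mem_bot]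
        change Ideal.Quotient.mk I (r * f) = 0 ↔ _
        exact Ideal.Quotient.eq_zero_iff_mem
      have hp' : J' ≤ p := by
        refine sup_le (fun r hr => (hmem r).mpr (I.mul_mem_right _ hr))
          (Ideal.span_le.mpr fun g hg => ?_)
        have h1 : (⟨g, hg⟩ : part J j) ∈ sub p := hpt ▸ Submodule.mem_top
        exact h1
      have hf : f ∈ I := hCz f ((hmem _).mp (hp' hC'))
      exact hprime.ne_top ((Ideal.eq_top_iff_one p).mpr ((hmem 1).mpr (by simpa using hf)))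
    obtain ⟨x, hx⟩ :=
      (Set.ne_univ_iff_exists_notMem _).mp (Subspace.biUnion_ne_univ_of_top_notMem hs)
    simp only [Set.mem_iUnion, not_exists] at hx
    refine ⟨⟨x, j, x.2.2, hj⟩, rfl, x.2.1, ?_⟩
    refine (regL_append ⊥ [A, B] _).mpr ⟨hpair, fun p hp => ?_, trivial⟩
    by_contra hpI
    have hz : (x : Poly K 3) ∈ {r : Poly K 3 | ∃ y : Poly K 3 ⧸ I, y ≠ 0 ∧ r • y = 0} :=
      ⟨Ideal.Quotient.mk _ p, by simpa [Ideal.Quotient.eq_zero_iff_mem] using hpI,
        (by change Ideal.Quotient.mk I ((x : Poly K 3) * p) = 0;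
            exact Ideal.Quotient.eq_zero_iff_mem.mpr hp)⟩
    rw [← biUnion_associatedPrimes_eq_zero_divisors] at hz
    obtain ⟨q, hq, hxq⟩ := Set.mem_iUnion₂.mp hz
    exact hx (sub q) (mem_image_of_mem _ (hPf.mem_toFinset.mpr hq)) hxq
  · left
    have e1 : hq J' j = hq J j := hq_eq_of_part_eq (le_antisymm (part_mono hle j)
      fun g hg => ⟨Submodule.mem_sup_right (Ideal.subset_span hg), hg.2⟩)
    have e2 := two_forms hJ' hpair (Submodule.mem_sup_left (mem_idl (by simp)))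
      (Submodule.mem_sup_left (mem_idl (by simp))) hab hb j
    rw [e1] at e2
    have hlt : hq J (j + 1) < hq J' (j + 1) := by
      by_contra hc
      push Not at hc
      have hpe := part_eq_of_hq_eq hle hc
      have hm : C.g ∈ part J (j + 1) := ⟨hC, hCk ▸ C.hom⟩
      rw [← hpe] at hm
      exact hC' hm.1
    omega

end

/-- Putting a lower form in its place. -/
theorem exists_sorted {A B g : GForm K 3} (h : RegL ⊥ [A, B, g]) (hab : A.k ≤ B.k)
    (hb : B.k ≤ g.k + 1) :
    ∃ P Q R : GForm K 3, RegL ⊥ [P, Q, R] ∧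
      (∀ J : Ideal (Poly K 3), A.g ∈ J → B.g ∈ J → g.g ∈ J → P.g ∈ J ∧ Q.g ∈ J ∧ R.g ∈ J) ∧
      P.k ≤ Q.k ∧ Q.k ≤ R.k ∧ R.k ≤ g.k + 1 ∧ P.k + Q.k + R.k = A.k + B.k + g.k ∧ Q.k ≤ B.k ∧
      B.k ≤ Q.k + 1 ∧ A.k ≤ P.k + 1 ∧ P.k ≤ A.k ∧ (Q.k = B.k → B.k ≤ g.k ∨ A.k = B.k) ∧
      (Q.k + 1 = B.k → B.k = g.k + 1 ∧ A.k ≤ g.k) := by
  by_cases h1 : B.k ≤ g.k
  · exact ⟨A, B, g, h, fun J h1 h2 h3 => ⟨h1, h2, h3⟩, hab, h1, by omega, rfl, le_rfl, by omega,
      by omega, le_rfl, fun _ => Or.inl h1, fun hh => absurd hh (by omega)⟩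
  by_cases h2 : A.k ≤ g.k
  · exact ⟨A, g, B, (regL_perm ((List.Perm.swap g B []).cons A) Homog.bot h).1,
      fun J h1 h2 h3 => ⟨h1, h3, h2⟩, h2, by omega, by omega, by omega, by omega, by omega,
      by omega, le_rfl, fun hh => absurd hh (by omega), fun _ => ⟨by omega, h2⟩⟩
  · exact ⟨g, A, B, (regL_perm (List.perm_append_comm (l₁ := [A, B]) (l₂ := [g])) Homog.bot h).1,
      fun J h1 h2 h3 => ⟨h3, h1, h2⟩, by omega, hab, by omega, by omega, hab, by omega, by omega,
      by omega, fun _ => Or.inr (by omega), fun hh => absurd hh (by omega)⟩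

end

end Vale.Agent.P200
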