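import Vale.Agent.P200.CoreA

/-!
# The middle degrees
-/

namespace Vale.Agent.P200

open MvPolynomial Module Finset

noncomputable section

variable {K : Type} [Field K] [IsAlgClosed K] {J : Ideal (Poly K 3)}

theorem violation (hJ : Homog J) {A B C : GForm K 3} (h : RegL ⊥ [A, B, C]) (hA : A.g ∈ J)
    (hB : B.g ∈ J) (hC : C.g ∈ J) (ha : 2 ≤ A.k) (hab : A.k ≤ B.k) (hbc : B.k ≤ C.k) {d : ℕ}
    (hd : C.k = d + 1) (hpos : 0 < hq J d)
    (hbad : hq J d + (gainSet A.k B.k d (hq J d)).card ≤ hq J (d + 1)) :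
    (d + 2 - B.k) * B.k ≤ hq J d ∧
      hq J (d + 1) = hq J d + (gainSet A.k B.k d (hq J d)).card ∧ d + 3 ≤ A.k + B.k ∧
      hq J d < lineSum B.k d A.k ∧
      ∃ (g : GForm K 3) (J'' : Ideal (Poly K 3)), g.k = d ∧ RegL ⊥ [A, B, g] ∧ Homog J'' ∧
        A.g ∈ J'' ∧ B.g ∈ J'' ∧ g.g ∈ J'' ∧
        hq J'' (A.k + B.k - 4) + hq J (d + 1) + 3 = lineSum B.k (d + 1) A.k ∧
        hq J'' (A.k + B.k - 4 + 1) + hq J d + 1 = lineSum B.k d A.k := by
  have hn : (d + 2 - B.k) * B.k ≤ hq J d := by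
    by_contra hc
    push Not at hc
    have := drop_one hJ h hA hB hC hab hbc (by omega) (by omega) hpos hc
    omega
  have h2 := two_forms hJ ((regL_append ⊥ [A, B] [C]).mp h).1 hA hB hab (by omega) d
  rcases lower_or_reg hJ h hA hB hC hab (by omega) (j := d) (by omega) hd with
    hlow | ⟨g, hgk, hgJ, hreg⟩
  · omega
  obtain ⟨J'', hJ'', hA'', hB'', hg'', hlink⟩ := exists_linked hJ hreg hA hB hgJ
  have hbox := hq_le_box hreg hA hB hgJ d
  obtain ⟨c0, c1⟩ := card_box_pred (d := d) ha (ha.trans hab)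
  rw [hgk] at hbox hlink
  have hge : d + 3 ≤ A.k + B.k := by
    by_contra hc
    rw [lineSum_full (by omega)] at c0
    have := Nat.mul_le_mul_right B.k (show A.k ≤ d + 2 - B.k by omega)
    omega
  refine ⟨hn, by omega, hge, by omega, g, J'', hgk, hreg, hJ'', hA'', hB'', hg'', ?_, ?_⟩
  · obtain ⟨e1, e2⟩ := hlink (A.k + B.k - 4) (d + 1) (by omega)
    omega
  · obtain ⟨e1, e2⟩ := hlink (A.k + B.k - 4 + 1) d (by omega)
    omega

/-- The degree just below the third generator, small types. -/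
theorem middle_small (hJ : Homog J) {A B C : GForm K 3} (h : RegL ⊥ [A, B, C]) (hA : A.g ∈ J)
    (hB : B.g ∈ J) (hC : C.g ∈ J) (ha : 2 ≤ A.k) (hab : A.k ≤ B.k) (hbc : B.k ≤ C.k)
    (h3 : A.k + B.k ≤ C.k + 3) {d : ℕ} (hd : C.k = d + 1) (hpos : 0 < hq J d) :
    hq J (d + 1) < hq J d + (gainSet A.k B.k d (hq J d)).card := by
  by_contra hbad
  push Not at hbad
  obtain ⟨hn, hm, hge, hmax, g, J'', hgk, hreg, hJ'', hA'', hB'', hg'', e1, e0⟩ :=
    violation hJ h hA hB hC ha hab hbc hd hpos hbad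
  obtain ⟨P, Q, R, hPQR, hmem, hPQ, hQR, hR, hsum, hQb, hbQ, hPa, hPa', hQeq, hQne⟩ :=
    exists_sorted hreg hab (by omega)
  obtain ⟨hP'', hQ'', hR''⟩ := hmem J'' hA'' hB'' hg''
  rw [hgk] at hR hsum hQeq hQne
  set G := (gainSet A.k B.k d (hq J d)).card with hG
  set N := (d + 2 - B.k) * B.k with hN
  rcases (show A.k + B.k = d + 3 ∨ A.k + B.k = d + 4 by omega) with hab' | hab'
  · rw [show A.k + B.k - 4 = d - 1 by omega] at e0 e1
    rw [show A.k = d + 2 - B.k + 1 by omega, lineSum_T0 (by omega) (by omega), ← hN] at e0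
    rw [show A.k = d + 2 - B.k + 1 by omega, lineSum_full (by omega), Nat.succ_mul, ← hN] at e1
    have hg0 : G ≤ 0 := gain_card_le (by
      rw [add_zero, lineSum_T0 (by omega) (by omega), ← hN]; omega)
    have hpair : RegL ⊥ [P, Q] := ((regL_append ⊥ [P, Q] [R]).mp hPQR).1
    have h2 := two_forms hJ'' hpair hP'' hQ'' hPQ (by omega) (d - 1)
    have hg'0 : (gainSet P.k Q.k (d - 1) (hq J'' (d - 1))).card ≤ 0 := by
      refine gain_card_le (lt_of_lt_of_le ?_ (lineSum_mono _ _ (show 1 ≤ _ by omega)))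
      rw [lineSum_one]
      omega
    omega
  · rw [show A.k + B.k - 4 = d by omega] at e0 e1
    rw [show A.k = d + 2 - B.k + 2 by omega, lineSum_T1 (by omega) (by omega), ← hN] at e0 hmax
    rw [show A.k = d + 1 + 2 - B.k + 1 by omega, lineSum_T0 (by omega) (by omega),
      show d + 1 + 2 - B.k = d + 2 - B.k + 1 by omega, Nat.succ_mul, ← hN] at e1
    have hG1 : G ≤ 1 := gain_card_le (by
      rw [show d + 2 - B.k + 1 + 1 = d + 2 - B.k + 2 by omega, lineSum_T1 (by omega) (by omega),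
        ← hN]
      omega)
    rcases Nat.eq_zero_or_pos (hq J'' d) with h0 | hpos''
    · have h0' := hq_succ_eq_zero h0
      have hG' : 1 ≤ G := le_gain_card (by omega) (by omega) (by omega) (by
        rw [lineSum_T0 (by omega) (by omega), ← hN]; omega)
      omega
    · have hlt : hq J'' d < (d + 2 - Q.k) * Q.k := by
        rcases (show Q.k = B.k ∨ Q.k + 1 = B.k by omega) with hQ | hQ
        · rw [hQ]
          rcases (show 2 ≤ d + 2 - B.k ∨ d + 2 - B.k = 1 by omega) with hn2 | hn1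
          · have := Nat.mul_le_mul_right B.k hn2
            omega
          · have := hQeq hQ
            rw [hn1, one_mul]
            rw [hn1, one_mul] at hN
            omega
        · obtain ⟨hb1, ha1⟩ := hQne hQ
          rw [show d + 2 - Q.k = 2 by omega]
          omega
      have := drop_one hJ'' hPQR hP'' hQ'' hR'' hPQ hQR (by omega) hR hpos'' hlt
      omega

/-- An auxiliary strict inequality for types with `a + b = d + 5`. -/
theorem strict_mid (hJ : Homog J) {A B g : GForm K 3} (h : RegL ⊥ [A, B, g]) (hA : A.g ∈ J)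
    (hB : B.g ∈ J) (hg : g.g ∈ J) {d : ℕ} (hab : A.k ≤ B.k) (hbd : B.k ≤ d + 1)
    (habd : A.k + B.k = d + 5) (hgk : g.k = d) (hpos : 0 < hq J d)
    (hle : hq J d + 7 ≤ 3 * B.k) : hq J (d + 1) < hq J d := by
  rcases (show 6 ≤ A.k ∨ A.k = 4 ∨ A.k = 5 by omega) with ha | ha | ha
  · refine drop_one hJ h hA hB hg hab (by omega) (by omega) (by omega) hpos ?_
    have := Nat.mul_le_mul_right B.k (show 3 ≤ d + 2 - B.k by omega)
    omega
  · obtain ⟨P, Q, R, hPQR, hmem, hPQ, hQR, hR, hsum, hQb, hbQ, hPa, hPa', hQeq, hQne⟩ :=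
      exists_sorted h hab (by omega)
    obtain ⟨hP, hQ', hR'⟩ := hmem J hA hB hg
    rw [hgk] at hR hsum hQeq hQne
    have hRk : R.k = d + 1 := by omega
    have h2 := middle_small hJ hPQR hP hQ' hR' (by omega) hPQ hQR (by omega) hRk hpos
    have hg0 : (gainSet P.k Q.k d (hq J d)).card ≤ 0 := by
      refine gain_card_le ?_
      rw [add_zero, lineSum_T0 (by omega) (by omega)]
      rcases (show Q.k = B.k ∨ Q.k + 1 = B.k by omega) with hQ | hQ
      · have := hQeq hQ
        rw [hQ, show d + 2 - B.k = 1 by omega]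
        omega
      · obtain ⟨hb1, ha1⟩ := hQne hQ
        rw [show d + 2 - Q.k = 2 by omega]
        omega
    omega
  · by_cases hsm : hq J d < 2 * B.k
    · refine drop_one hJ h hA hB hg hab (by omega) (by omega) (by omega) hpos ?_
      rw [show d + 2 - B.k = 2 by omega]
      exact hsm
    obtain ⟨e, rfl⟩ : ∃ e, d = e + 1 := ⟨d - 1, by omega⟩
    have hAv : Avoid J (e + 2) := avoid_three h hA hB hg (by omega) (by omega) (by omega)
    rcases step hJ hAv with h0 | ⟨J', u, u', hle', hJ', e1, e2, hu, -⟩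
    · rw [show e + 1 + 1 = e + 2 from rfl]
      rcases h0 with h0 | h0 <;> omega
    have hkey : hq J' (e + 1) ≤ hq J' e := by
      rcases lower_or_reg hJ' h (hle' hA) (hle' hB) (hle' hg) hab (by omega) (j := e) (by omega)
        hgk with hlow | ⟨g', hgk', hgJ', hreg'⟩
      · have hg1 : (gainSet A.k B.k e (hq J' e)).card ≤ 1 := by
          refine gain_card_le ?_
          rw [show e + 2 - B.k + 1 + 1 = e + 2 - B.k + 2 by omega,
            lineSum_T1 (by omega) (by omega), show e + 2 - B.k = 1 by omega]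
          omega
        omega
      · by_cases h5 : A.k ≤ e
        · have hperm := (regL_perm ((List.Perm.swap g' B []).cons A) Homog.bot hreg').1
          have hpair : RegL ⊥ [A, g'] := ((regL_append ⊥ [A, g'] [B]).mp hperm).1
          have h2 := two_forms hJ' hpair (hle' hA) hgJ' (by omega) (by omega) e
          have hg0 : (gainSet A.k g'.k e (hq J' e)).card ≤ 0 := by
            refine gain_card_le ?_
            rw [add_zero, lineSum_T0 (by omega) (by omega), hgk', show e + 2 - e = 2 by omega]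
            omega
          omega
        · have hperm := (regL_perm (List.perm_append_comm (l₁ := [A, B]) (l₂ := [g']))
            Homog.bot hreg').1
          have hpair : RegL ⊥ [g', A] := ((regL_append ⊥ [g', A] [B]).mp hperm).1
          have h2 := two_forms hJ' hpair hgJ' (hle' hA) (by omega) (by omega) e
          have hg0 : (gainSet g'.k A.k e (hq J' e)).card ≤ 0 := by
            refine gain_card_le ?_
            rw [add_zero, lineSum_T0 (by omega) (by omega), ha, show e + 2 - 5 = 1 by omega]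
            omega
          omega
    rw [show e + 1 + 1 = e + 2 from rfl]
    omega

theorem middle_high {J'' : Ideal (Poly K 3)} (hJ'' : Homog J'') {P Q R : GForm K 3}
    (hreg : RegL ⊥ [P, Q, R]) (hP : P.g ∈ J'') (hQ : Q.g ∈ J'') (hR : R.g ∈ J'')
    (hPQ : P.k ≤ Q.k) (hQR : Q.k ≤ R.k) (hQ2 : 2 ≤ Q.k) {d b N h m G : ℕ} (hRd : R.k ≤ d + 1)
    (hbd : b ≤ d + 1) (hQb : Q.k ≤ b) (hbQ : b ≤ Q.k + 1) (hb4 : 4 ≤ b) (_hd : 0 < d)
    (hG1 : 1 ≤ G) (hG2 : G ≤ 2) (hh : N + (b - 1) ≤ h)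
    (hT1 : N + (b - 1) + (b - 2) ≤ h → 2 ≤ G) (hm : m = h + G)
    (e1 : hq J'' (d + 1) + m + 3 = N + b + (b - 1) + (b - 2))
    (e0 : hq J'' (d + 1 + 1) + h + 1 = N + (b - 1) + (b - 2) + (b - 3)) : False := by
  rcases Nat.eq_zero_or_pos (hq J'' (d + 1)) with h0 | hpos''
  · have h0' := hq_succ_eq_zero h0
    have := hT1 (by omega)
    omega
  · have h2 := Nat.mul_le_mul_right Q.k (show 2 ≤ d + 1 + 2 - Q.k by omega)
    have hlt : hq J'' (d + 1) < (d + 1 + 2 - Q.k) * Q.k := by omega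
    have := drop_one hJ'' hreg hP hQ hR hPQ hQR hQ2 (by omega) hpos'' hlt
    omega

/-- The degree just below the third generator. -/
theorem middle (hJ : Homog J) {A B C : GForm K 3} (h : RegL ⊥ [A, B, C]) (hA : A.g ∈ J)
    (hB : B.g ∈ J) (hC : C.g ∈ J) (ha : 2 ≤ A.k) (hab : A.k ≤ B.k) (hbc : B.k ≤ C.k)
    (h4 : A.k + B.k ≤ C.k + 4) {d : ℕ} (hd : C.k = d + 1) (hpos : 0 < hq J d) :
    hq J (d + 1) < hq J d + (gainSet A.k B.k d (hq J d)).card := by
  by_cases h3 : A.k + B.k ≤ C.k + 3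
  · exact middle_small hJ h hA hB hC ha hab hbc h3 hd hpos
  by_contra hbad
  push Not at hbad
  obtain ⟨hn, hm, -, hmax, g, J'', hgk, hreg, hJ'', hA'', hB'', hg'', e1, e0⟩ :=
    violation hJ h hA hB hC ha hab hbc hd hpos hbad
  have hab' : A.k + B.k = d + 5 := by omega
  have hb4 : 4 ≤ B.k := by omega
  set G := (gainSet A.k B.k d (hq J d)).card with hG
  set N := (d + 2 - B.k) * B.k with hN
  rw [show A.k + B.k - 4 = d + 1 by omega] at e0 e1
  rw [show A.k = d + 2 - B.k + 3 by omega, lineSum_T2 (by omega) (by omega), ← hN] at e0 hmax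
  rw [show A.k = d + 1 + 2 - B.k + 2 by omega, lineSum_T1 (by omega) (by omega),
    show d + 1 + 2 - B.k = d + 2 - B.k + 1 by omega, Nat.succ_mul, ← hN] at e1
  have hG2 : G ≤ 2 := gain_card_le (by
    rw [show d + 2 - B.k + 2 + 1 = d + 2 - B.k + 3 by omega, lineSum_T2 (by omega) (by omega),
      ← hN]
    omega)
  obtain ⟨P, Q, R, hPQR, hmem, hPQ, hQR, hR, hsum, hQb, hbQ, hPa, hPa', hQeq, hQne⟩ :=
    exists_sorted hreg hab (by omega)
  obtain ⟨hP'', hQ'', hR''⟩ := hmem J'' hA'' hB'' hg''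
  rw [hgk] at hR
  by_cases hG0 : hq J d < N + (B.k - 1)
  · have hG0' : G ≤ 0 := gain_card_le (by
      rw [add_zero, lineSum_T0 (by omega) (by omega), ← hN]; exact hG0)
    have hAv : Avoid J'' (d + 2) := avoid_three hPQR hP'' hQ'' hR'' (by omega) (by omega) (by omega)
    rcases step hJ'' hAv with h0 | ⟨J', u, u', hle', hJ', s1, s2, hu, hbd⟩
    · rw [show d + 1 + 1 = d + 2 from rfl] at e0
      rcases h0 with h0 | h0 <;> omega
    have hu' := hbd A B ((regL_append ⊥ [A, B] [g]).mp hreg).1 hA'' hB'' hab (d + 1)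
      (avoid_three hreg hA'' hB'' hg'' (by omega) (by omega) (by omega)) (by omega) (by omega)
    have := strict_mid hJ' hreg (hle' hA'') (hle' hB'') (hle' hg'') hab (by omega) hab' hgk
      (by omega) (by omega)
    rw [show d + 1 + 1 = d + 2 from rfl] at e0
    omega
  · exact middle_high hJ'' hPQR hP'' hQ'' hR'' hPQ hQR (by omega) hR (by omega) hQb hbQ hb4
      (by omega) (le_gain_card (by omega) (by omega) (by omega) (by
        rw [lineSum_T0 (by omega) (by omega), ← hN]; omega)) hG2 (not_lt.mp hG0)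
      (fun h2 => le_gain_card (by omega) (by omega) (by omega) (by
        rw [lineSum_T1 (by omega) (by omega), ← hN]; exact h2)) hm e1 e0

/-- The self-linked degree. -/
theorem middle_two (hJ : Homog J) {A B C : GForm K 3} (h : RegL ⊥ [A, B, C]) (hA : A.g ∈ J)
    (hB : B.g ∈ J) (hC : C.g ∈ J) (ha : 2 ≤ A.k) (hab : A.k ≤ B.k) (hbc : B.k ≤ C.k) {d : ℕ}
    (hd : C.k = d) (habd : A.k + B.k = d + 4) (hpos : 0 < hq J d)
    (hlt : hq J d < (d + 2 - B.k) * B.k) :
    hq J (d + 1) < hq J d ∧ (B.k ≤ hq J d → hq J (d + 1) + 2 ≤ hq J d) := by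
  refine ⟨drop_one hJ h hA hB hC hab hbc (by omega) (by omega) hpos hlt, fun hbh => ?_⟩
  obtain ⟨e, rfl⟩ : ∃ e, d = e + 1 := ⟨d - 1, by omega⟩
  have hAv : Avoid J (e + 2) := avoid_three h hA hB hC (by omega) (by omega) (by omega)
  rw [show e + 1 + 1 = e + 2 from rfl]
  rcases step hJ hAv with h0 | ⟨J', u, u', hle', hJ', s1, s2, hu, hbd⟩
  · rcases h0 with h0 | h0 <;> omega
  have hu' := hbd A B ((regL_append ⊥ [A, B] [C]).mp h).1 hA hB hab (e + 1)
    (avoid_three h hA hB hC (by omega) (by omega) (by omega)) (by omega) (by omega)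
  have hmid := middle hJ' h (hle' hA) (hle' hB) (hle' hC) ha hab hbc (by omega) hd (by omega)
  have hg0 : (gainSet A.k B.k e (hq J' e)).card ≤ 0 := by
    refine gain_card_le ?_
    rw [add_zero, lineSum_T0 (by omega) (by omega)]
    rw [show e + 1 + 2 - B.k = e + 2 - B.k + 1 by omega, Nat.succ_mul] at hlt
    omega
  omega

end

end Vale.Agent.P200
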