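import Vale.Agent.P200.Model

/-!
# Adding variables and changing the field
-/

namespace Vale.Agent.P200

open MvPolynomial Module

noncomputable section

variable {K : Type} [Field K] {n : ℕ}

/-- The first coordinates of an exponent. -/
def expInit (e : Fin (n + 1) →₀ ℕ) : Fin n →₀ ℕ :=
  Finsupp.equivFunOnFinite.symm fun i => e i.castSucc

@[simp] theorem expInit_apply (e : Fin (n + 1) →₀ ℕ) (i : Fin n) :
    expInit e i = e i.castSucc := rfl

/-- Appending a last coordinate to an exponent. -/
def expSnoc (e : Fin n →₀ ℕ) (j : ℕ) : Fin (n + 1) →₀ ℕ :=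
  Finsupp.equivFunOnFinite.symm (Fin.snoc (α := fun _ => ℕ) e j)

@[simp] theorem expSnoc_castSucc (e : Fin n →₀ ℕ) (j : ℕ) (i : Fin n) :
    expSnoc e j i.castSucc = e i := by
  show Fin.snoc (α := fun _ => ℕ) (⇑e) j i.castSucc = e i
  rw [Fin.snoc_castSucc]

@[simp] theorem expSnoc_last (e : Fin n →₀ ℕ) (j : ℕ) : expSnoc e j (Fin.last n) = j := by
  show Fin.snoc (α := fun _ => ℕ) (⇑e) j (Fin.last n) = j
  rw [Fin.snoc_last]

open Classical in
theorem card_degSet_succ (A : ℕ → Set (Fin n →₀ ℕ)) (d : ℕ) :
    ((degSet (n + 1) d).filter fun e => expInit e ∉ A (e (Fin.last n))).card =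
      ∑ j ∈ Finset.range (d + 1), ((degSet n (d - j)).filter fun e => e ∉ A j).card := by
  rw [← Finset.card_sigma]
  refine Finset.card_nbij' (fun e => ⟨e (Fin.last n), expInit e⟩) (fun x => expSnoc x.2 x.1)
    ?_ ?_ ?_ ?_
  · intro e he
    simp only [Finset.mem_coe, Finset.mem_filter, mem_degSet, Finsupp.degree_eq_sum,
      Fin.sum_univ_castSucc] at he
    simp only [Finset.mem_coe, Finset.mem_sigma, Finset.mem_range, Finset.mem_filter, mem_degSet,
      Finsupp.degree_eq_sum, expInit_apply]
    exact ⟨by omega, by omega, he.2⟩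
  · rintro ⟨j, e⟩ hx
    simp only [Finset.mem_coe, Finset.mem_sigma, Finset.mem_range, Finset.mem_filter, mem_degSet,
      Finsupp.degree_eq_sum] at hx
    have he : expInit (expSnoc e j) = e := Finsupp.ext fun i => by simp
    simp only [Finset.mem_coe, Finset.mem_filter, mem_degSet, Finsupp.degree_eq_sum,
      Fin.sum_univ_castSucc, expSnoc_castSucc, expSnoc_last, he]
    exact ⟨by omega, hx.2.2⟩
  · intro e _
    refine Finsupp.ext fun i => ?_
    refine Fin.lastCases ?_ (fun i => ?_) i <;> simp
  · rintro ⟨j, e⟩ _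
    have he : expInit (expSnoc e j) = e := Finsupp.ext fun i => by simp
    simp [he]

theorem colon_pow_succ (I : Ideal (Poly K n)) (l : Poly K n) (i : ℕ) :
    colon (colon I (l ^ i)) l = colon I (l ^ (i + 1)) := by
  ext p
  simp [mem_colon, pow_succ, mul_assoc]

theorem isHomogeneous_linear_pow {l : Poly K n} (hl : l.IsHomogeneous 1) (i : ℕ) :
    (l ^ i).IsHomogeneous i := by
  simpa using hl.pow i

/-- The Hilbert function as a sum over the slices along a linear form. -/
theorem Cut.hq_sum {l : Poly K (n + 1)} (C : Cut K n l) {I : Ideal (Poly K (n + 1))}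
    (hI : Homog I) (hl : l.IsHomogeneous 1) (hl0 : l ≠ 0) (d : ℕ) :
    hq I d = ∑ j ∈ Finset.range (d + 1), hq (C.image (colon I (l ^ j))) (d - j) := by
  suffices h : ∀ m i, hq (colon I (l ^ i)) m =
      ∑ j ∈ Finset.range (m + 1), hq (C.image (colon I (l ^ (i + j)))) (m - j) by
    have h0 : colon I 1 = I := by ext p; simp [mem_colon]
    have := h d 0
    simpa [h0] using this
  intro m
  induction m with
  | zero =>
    intro i
    simpa using C.hq_zero (hI.colon (isHomogeneous_linear_pow hl i)) hl
  | succ m ih =>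
    intro i
    rw [C.hq_succ (hI.colon (isHomogeneous_linear_pow hl i)) hl hl0, colon_pow_succ, ih (i + 1),
      Finset.sum_range_succ' _ (m + 1), add_comm]
    simp only [add_zero, Nat.sub_zero, Nat.succ_sub_succ_eq_sub]
    congr 1
    refine Finset.sum_congr rfl fun j _ => ?_
    rw [show i + 1 + j = i + (j + 1) by omega]

/-- A model in `n` variables gives a model in one more variable. -/
theorem model_succ [Infinite K] {a : List ℕ} (h : a.length ≤ n) :
    Model K n a → Model K (n + 1) a := by
  classical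
  intro hM L hLk hreg P _ I hmono hI hmem
  have hlen : L.length = a.length := by rw [← hLk, List.length_map]
  obtain ⟨l, hl1, hl0, hlz⟩ := exists_nzd_linear (ι := Unit) (fun _ => idl ⊥ L)
    (fun _ => Homog.bot.idl L)
    (fun _ e => noSoc_regL L.length (n + 1) L rfl (by omega) hreg e (by omega))
    (by omega : 0 < n + 1)
  obtain ⟨C⟩ := exists_cut hl1 hl0
  let v : GForm K (n + 1) := ⟨l, 1, hl1, by norm_num⟩
  have hreg' : RegL ⊥ (v :: L) :=
    (regL_perm (List.perm_append_comm (l₁ := L) (l₂ := [v])) Homog.bot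
      ((regL_append _ _ _).mpr ⟨hreg, hlz (), trivial⟩)).1
  have hr := (C.regL_image (L := L) (I := ⊥) hreg'.2).1
  rw [C.image_bot] at hr
  let U : P × ℕ → Ideal (Poly K n) := fun x => C.image (colon (I x.1) (l ^ x.2))
  have hU : Monotone U := by
    rintro ⟨p, i⟩ ⟨q, j⟩ ⟨hpq, hij⟩
    refine C.image_mono fun x hx => ?_
    rw [mem_colon] at hx ⊢
    rw [← Nat.sub_add_cancel (show i ≤ j from hij), pow_add, mul_assoc]
    exact (I q).mul_mem_left _ (hmono hpq hx)
  obtain ⟨s, hs, hsup, hpure, hcnt⟩ := hM (L.map C.gform)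
    (by rw [List.map_map, ← hLk]; rfl) hr (P × ℕ) U hU
    (fun x => C.homog_image ((hI x.1).colon (isHomogeneous_linear_pow hl1 x.2)))
    (fun x f hf => by
      obtain ⟨g, hg, rfl⟩ := List.mem_map.mp hf
      exact C.mem_image.mpr ⟨g.g, le_colon _ _ (hmem x.1 g hg), rfl⟩)
  refine ⟨fun p => {e | expInit e ∈ s (p, e (Fin.last n))}, ?_, ?_, ?_, ?_⟩
  · intro p q hpq e he
    exact hs (show ((p, e (Fin.last n)) : P × ℕ) ≤ (q, e (Fin.last n)) from ⟨hpq, le_rfl⟩) he
  · intro p e e' hee he
    refine hs (show ((p, e (Fin.last n)) : P × ℕ) ≤ (p, e' (Fin.last n)) from ⟨le_rfl, hee _⟩) ?_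
    exact hsup _ (fun i => hee i.castSucc) he
  · intro p i hi hn
    have hin : i < n := by omega
    have e1 : (Fin.castSucc ⟨i, hin⟩ : Fin (n + 1)) = ⟨i, hn⟩ := rfl
    have e2 : expInit (Finsupp.single (⟨i, hn⟩ : Fin (n + 1)) a[i]) =
        Finsupp.single ⟨i, hin⟩ a[i] := by
      refine Finsupp.ext fun j => ?_
      rw [expInit_apply, ← e1]
      simp [Finsupp.single_apply, Fin.ext_iff]
    show expInit _ ∈ s _
    rw [e2]
    exact hpure _ i hi hin
  · intro p d
    rw [C.hq_sum (hI p) hl1 hl0 d]
    refine Eq.trans ?_ (Finset.sum_congr rfl fun j _ => hcnt (p, j) (d - j))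
    refine Eq.trans ?_ (card_degSet_succ (fun j => s (p, j)) d)
    congr 1

theorem model_mono [Infinite K] {a : List ℕ} (h : a.length ≤ n) (hM : Model K n a) :
    ∀ {m : ℕ}, n ≤ m → Model K m a := by
  intro m hm
  induction m, hm using Nat.le_induction with
  | base => exact hM
  | succ m hm ih => exact model_succ (h.trans hm) ih

/-! ## Change of field -/

variable (K' : Type) [Field K'] [Algebra K K']

/-- Extension of scalars. -/
abbrev bc : Poly K n →+* Poly K' n := MvPolynomial.map (algebraMap K K')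

theorem bc_smul (c : K) (p : Poly K n) : bc K' (c • p) = algebraMap K K' c • bc K' p := by
  rw [smul_eq_C_mul, smul_eq_C_mul, map_mul]
  simp [bc]

theorem linearIndependent_bc {ι : Type} {v : ι → Poly K n} (hv : LinearIndependent K v) :
    LinearIndependent K' fun i => bc K' (v i) := by
  rw [linearIndependent_iff'] at hv ⊢
  intro s g hg i hi
  refine (Module.forall_dual_apply_eq_zero_iff K _).mp fun φ => ?_
  refine hv s (fun j => φ (g j)) ?_ i hi
  refine MvPolynomial.ext _ _ fun e => ?_
  have h1 := congrArg φ (congrArg (coeff e) hg)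
  simp only [coeff_sum, coeff_smul, coeff_map, smul_eq_mul, coeff_zero, map_zero, map_sum] at h1 ⊢
  rw [← h1]
  refine Finset.sum_congr rfl fun j _ => ?_
  rw [mul_comm (g j), ← Algebra.smul_def, map_smul, smul_eq_mul, mul_comm]

theorem finrank_span_bc (V : Submodule K (Poly K n)) [FiniteDimensional K V] :
    finrank K' (Submodule.span K' (bc K' '' (V : Set (Poly K n)))) = finrank K V := by
  let b := Module.finBasis K V
  have hv : LinearIndependent K fun i => (b i : Poly K n) :=
    b.linearIndependent.map' V.subtype (Submodule.ker_subtype V)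
  have e : Submodule.span K' (bc K' '' (V : Set (Poly K n))) =
      Submodule.span K' (Set.range fun i => bc K' (b i : Poly K n)) := by
    apply le_antisymm
    · rw [Submodule.span_le]
      rintro _ ⟨x, hx, rfl⟩
      have e := congrArg (fun z : V => bc K' (z : Poly K n)) (b.sum_repr ⟨x, hx⟩)
      simp only [Submodule.coe_sum, Submodule.coe_smul, map_sum, bc_smul] at e
      rw [SetLike.mem_coe, ← e]
      exact Submodule.sum_mem _ fun i _ =>
        Submodule.smul_mem _ _ (Submodule.subset_span ⟨i, rfl⟩)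
    · refine Submodule.span_mono ?_
      rintro _ ⟨i, rfl⟩
      exact ⟨_, (b i).2, rfl⟩
  rw [e, finrank_span_eq_card (linearIndependent_bc K' hv), Fintype.card_fin]

theorem component_bc (p : Poly K n) (d : ℕ) :
    homogeneousComponent d (bc K' p) = bc K' (homogeneousComponent d p) := by
  refine MvPolynomial.ext _ _ fun e => ?_
  simp only [coeff_homogeneousComponent, coeff_map]
  split_ifs <;> simp

theorem mem_map_bc_component {I : Ideal (Poly K n)} (hI : Homog I) {p : Poly K' n}
    (hp : p ∈ I.map (bc K')) (d : ℕ) :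
    homogeneousComponent d p ∈ Submodule.span K' (bc K' '' (part I d : Set (Poly K n))) := by
  let T := Submodule.span K' (bc K' '' (I : Set (Poly K n)))
  have hT : ∀ p ∈ I.map (bc K'), p ∈ T := by
    intro p hp
    refine Submodule.span_induction (p := fun x _ => x ∈ T) ?_ ?_ ?_ ?_ hp
    · exact fun x hx => Submodule.subset_span hx
    · exact zero_mem _
    · exact fun x y _ _ hx hy => add_mem hx hy
    · intro r x _ hx
      rw [smul_eq_mul]
      induction r using MvPolynomial.induction_on' with
      | monomial u a =>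
        refine Submodule.span_induction (p := fun y _ => monomial u a * y ∈ T) ?_ ?_ ?_ ?_ hx
        · rintro _ ⟨y, hy, rfl⟩
          have e : monomial u a * bc K' y = a • bc K' (monomial u 1 * y) := by
            simp [bc, map_mul, map_monomial, ← smul_mul_assoc, smul_monomial]
          rw [e]
          exact Submodule.smul_mem _ _ (Submodule.subset_span ⟨_, I.mul_mem_left _ hy, rfl⟩)
        · simp
        · intro y z _ _ hy hz
          rw [mul_add]
          exact add_mem hy hz
        · intro c y _ hy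
          rw [mul_smul_comm]
          exact Submodule.smul_mem _ _ hy
      | add r r' hr hr' =>
        rw [add_mul]
        exact add_mem hr hr'
  refine Submodule.span_induction (p := fun y _ => homogeneousComponent d y ∈ _) ?_ ?_ ?_ ?_
    (hT p hp)
  · rintro _ ⟨y, hy, rfl⟩
    rw [component_bc]
    exact Submodule.subset_span ⟨_, ⟨hI y hy d, homogeneousComponent_isHomogeneous d y⟩, rfl⟩
  · simp
  · intro y z _ _ hy hz
    rw [map_add]
    exact add_mem hy hz
  · intro c y _ hy
    rw [map_smul]
    exact Submodule.smul_mem _ _ hy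

theorem part_map_bc {I : Ideal (Poly K n)} (hI : Homog I) (d : ℕ) :
    part (I.map (bc K')) d = Submodule.span K' (bc K' '' (part I d : Set (Poly K n))) := by
  apply le_antisymm
  · rintro p ⟨hp, hd⟩
    have := mem_map_bc_component K' hI hp d
    rwa [component_self hd] at this
  · rw [Submodule.span_le]
    rintro _ ⟨y, ⟨hy, hd⟩, rfl⟩
    exact ⟨Ideal.mem_map_of_mem _ hy, hd.map _⟩

theorem Homog.map_bc {I : Ideal (Poly K n)} (hI : Homog I) : Homog (I.map (bc K')) := by
  intro p hp d
  have h := mem_map_bc_component K' hI hp d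
  rw [← part_map_bc K' hI] at h
  exact h.1

theorem hq_map_bc {I : Ideal (Poly K n)} (hI : Homog I) (d : ℕ) :
    hq (I.map (bc K')) d = hq I d := by
  unfold hq
  rw [part_map_bc K' hI, finrank_span_bc]
  congr 1
  rw [forms_eq_restrictSupport, finrank_restrictSupport, forms_eq_restrictSupport,
    finrank_restrictSupport]

theorem map_bc_sup_span (I : Ideal (Poly K n)) (g : Poly K n) :
    (I ⊔ Ideal.span {g}).map (bc K') = I.map (bc K') ⊔ Ideal.span {bc K' g} := by
  rw [Ideal.map_sup, Ideal.map_span, Set.image_singleton]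

theorem nzd_map_bc {I : Ideal (Poly K n)} (hI : Homog I) {g : Poly K n} {k : ℕ}
    (hg : g.IsHomogeneous k) (h : NZD I g) : NZD (I.map (bc K')) (bc K' g) := by
  by_cases hg0 : g = 0
  · have hI' : I = ⊤ := (Ideal.eq_top_iff_one I).mpr (h 1 (by simp [hg0]))
    intro p _
    rw [hI', Ideal.map_top]
    trivial
  have hI' := hI.map_bc K'
  have hgb : bc K' g ≠ 0 := fun h0 =>
    hg0 (map_injective _ (algebraMap K K').injective (by simpa [bc] using h0))
  refine nzd_of_forms hI' (hg.map _) fun p d hp hmem => ?_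
  have h1 : hq (I.map (bc K')) (d + k) = hq (I.map (bc K') ⊔ Ideal.span {bc K' g}) (d + k) +
      hq (colon (I.map (bc K')) (bc K' g)) d := hq_split hI' (hg.map _) hgb d
  have h2 := hq_sup_nzd hI hg hg0 h d
  rw [← map_bc_sup_span, hq_map_bc K' hI (d + k),
    hq_map_bc K' (hI.sup (Homog.span_singleton hg)) (d + k)] at h1
  have h3 : hq (I.map (bc K')) d ≤ hq (colon (I.map (bc K')) (bc K' g)) d := by
    rw [hq_map_bc K' hI]
    omega
  have h4 : p ∈ part (colon (I.map (bc K')) (bc K' g)) d := ⟨hmem, hp⟩
  rw [← part_eq_of_hq_eq (le_colon _ _) h3] at h4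
  exact h4.1

/-- Extension of scalars of a form. -/
def GForm.toExt (f : GForm K n) : GForm K' n :=
  ⟨bc K' f.g, f.k, f.hom.map _, f.pos⟩

theorem regL_map_bc : ∀ {L : List (GForm K n)} {I : Ideal (Poly K n)}, Homog I → RegL I L →
    RegL (I.map (bc K')) (L.map (GForm.toExt K')) := by
  intro L
  induction L with
  | nil => intro I _ _; exact trivial
  | cons f L ih =>
    intro I hI h
    refine ⟨nzd_map_bc K' hI f.hom h.1, ?_⟩
    have := ih (hI.sup (Homog.span_singleton f.hom)) h.2
    rwa [map_bc_sup_span] at this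

/-- A model over an extension field gives monomial ideals over the ground field. -/
theorem exists_upperSet_of_model {a : List ℕ} (hM : Model K' n a) (L : List (GForm K n))
    (hk : L.map GForm.k = a) (hreg : RegL ⊥ L) {I : Ideal (Poly K n)} (hI : Homog I)
    (hmem : ∀ f ∈ L, f.g ∈ I) :
    ∃ (S : Set (Fin n →₀ ℕ)) (hS : IsUpperSet S),
      (∀ i (hi : i < a.length) (hn : i < n), Finsupp.single ⟨i, hn⟩ a[i] ∈ S) ∧
        ∀ d, hq (monIdeal K S hS) d = hq I d := by
  classical
  have hr := regL_map_bc K' Homog.bot hreg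
  rw [Ideal.map_bot] at hr
  obtain ⟨s, -, hs, hpure, hcnt⟩ := hM (L.map (GForm.toExt K'))
    (by rw [List.map_map, ← hk]; rfl) hr Unit (fun _ => I.map (bc K')) monotone_const
    (fun _ => hI.map_bc K') (fun _ f hf => by
      obtain ⟨g, hg, rfl⟩ := List.mem_map.mp hf
      exact Ideal.mem_map_of_mem _ (hmem g hg))
  refine ⟨s (), hs (), hpure (), fun d => ?_⟩
  rw [hq_monIdeal, ← hq_map_bc K' hI d, ← hcnt () d]

/-! ## Regular sequences in the sense of Mathlib -/

theorem regL_of_forall : ∀ {L : List (GForm K n)} {I : Ideal (Poly K n)},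
    (∀ i (hi : i < L.length), NZD (idl I (L.take i)) L[i].g) → RegL I L := by
  intro L
  induction L with
  | nil => intro I _; exact trivial
  | cons f L ih =>
    intro I h
    refine ⟨h 0 (by simp), ih fun i hi => ?_⟩
    exact h (i + 1) (by simpa using hi)

theorem idl_eq_sup_ofList : ∀ (L : List (GForm K n)) (I : Ideal (Poly K n)),
    idl I L = I ⊔ Ideal.ofList (L.map GForm.g) := by
  intro L
  induction L with
  | nil => intro I; simp [idl]
  | cons f L ih =>
    intro I
    rw [idl, ih, List.map_cons, Ideal.ofList_cons, sup_assoc]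

theorem regL_of_isWeaklyRegular {L : List (GForm K n)}
    (h : RingTheory.Sequence.IsWeaklyRegular (Poly K n) (L.map GForm.g)) : RegL ⊥ L := by
  refine regL_of_forall fun i hi p hp => ?_
  have h1 := h.regular_mod_prev i (by simpa using hi)
  rw [idl_eq_sup_ofList, bot_sup_eq, List.map_take] at hp ⊢
  simp only [List.getElem_map] at h1
  have e : (Ideal.ofList ((L.map GForm.g).take i) • ⊤ : Submodule (Poly K n) (Poly K n)) =
      Ideal.ofList ((L.map GForm.g).take i) := by simp
  have h2 : (Submodule.Quotient.mk p : Poly K n ⧸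
      (Ideal.ofList ((L.map GForm.g).take i) • ⊤ : Submodule (Poly K n) (Poly K n))) = 0 := by
    refine h1 ?_
    show L[i].g • Submodule.Quotient.mk p = L[i].g • (0 : Poly K n ⧸ _)
    rw [smul_zero, ← Submodule.Quotient.mk_smul, Submodule.Quotient.mk_eq_zero, e, smul_eq_mul]
    exact hp
  rwa [Submodule.Quotient.mk_eq_zero, e] at h2

/-- A model over the algebraic closure settles the monomial comparison in every number of
variables. -/
theorem egh_three_of_model {K : Type} [Field K] {n : ℕ} (hn : 3 ≤ n) {a b c : ℕ} (ha : 0 < a)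
    (hb : 0 < b) (hc : 0 < c) (hM : Model (AlgebraicClosure K) 3 [a, b, c])
    (f g k : MvPolynomial (Fin n) K) (hf : f.IsHomogeneous a) (hg : g.IsHomogeneous b)
    (hk : k.IsHomogeneous c)
    (hreg : RingTheory.Sequence.IsWeaklyRegular (MvPolynomial (Fin n) K) [f, g, k])
    (I : Ideal (MvPolynomial (Fin n) K)) (hI : ∀ p ∈ I, ∀ d, homogeneousComponent d p ∈ I)
    (hfI : f ∈ I) (hgI : g ∈ I) (hkI : k ∈ I) :
    ∃ S : Set (Fin n →₀ ℕ),
      (X ⟨0, by omega⟩ : MvPolynomial (Fin n) K) ^ a ∈
          Ideal.span ((fun e => monomial e (1 : K)) '' S) ∧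
      (X ⟨1, by omega⟩ : MvPolynomial (Fin n) K) ^ b ∈
          Ideal.span ((fun e => monomial e (1 : K)) '' S) ∧
      (X ⟨2, by omega⟩ : MvPolynomial (Fin n) K) ^ c ∈
          Ideal.span ((fun e => monomial e (1 : K)) '' S) ∧
      ∀ d, finrank K ↥((Ideal.span ((fun e => monomial e (1 : K)) '' S)).restrictScalars K ⊓
            homogeneousSubmodule (Fin n) K d) =
          finrank K ↥(I.restrictScalars K ⊓ homogeneousSubmodule (Fin n) K d) := by
  have hMn := model_mono (n := 3) (by simp) hM hn
  obtain ⟨S, hS, hpure, hcnt⟩ := exists_upperSet_of_model (AlgebraicClosure K) hMn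
    [⟨f, a, hf, ha⟩, ⟨g, b, hg, hb⟩, ⟨k, c, hk, hc⟩] rfl (regL_of_isWeaklyRegular hreg) hI
    (by
      intro x hx
      simp only [List.mem_cons, List.not_mem_nil, or_false] at hx
      rcases hx with rfl | rfl | rfl <;> assumption)
  refine ⟨S, ?_, ?_, ?_, fun d => ?_⟩
  · rw [← monIdeal_eq_span hS]
    exact X_pow_mem_monIdeal hS (hpure 0 (by simp) (by omega))
  · rw [← monIdeal_eq_span hS]
    exact X_pow_mem_monIdeal hS (hpure 1 (by simp) (by omega))
  · rw [← monIdeal_eq_span hS]
    exact X_pow_mem_monIdeal hS (hpure 2 (by simp) (by omega))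
  · rw [← monIdeal_eq_span hS]
    show finrank K (part (monIdeal K S hS) d) = finrank K (part I d)
    have h1 := hq_add (monIdeal K S hS) d
    have h2 := hq_add I d
    rw [hcnt d] at h1
    omega

end

end Vale.Agent.P200
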