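import Vale.Agent.P200.Ladder

/-!
# Extending a window of constant codimension

When `X` is bijective modulo `Z` and the codimension of `Z` stays equal to `D`, the window extends
to the space `V0 × K[t]^D` with two commuting operators, a module over `K[t]`.
-/

namespace Vale.Agent.P200

open Module LinearMap Polynomial

noncomputable section

/-- A window of constant codimension with readings as functionals on an algebra. -/
structure Const (K P V0 V1 V2 : Type) [Field K] [CommRing P] [Algebra K P]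
    [AddCommGroup V0] [Module K V0] [AddCommGroup V1] [Module K V1]
    [AddCommGroup V2] [Module K V2] (D : ℕ) where
  /-- first form -/
  x : P
  /-- second form -/
  y : P
  /-- third form -/
  l : P
  /-- first map, lower level -/
  X0 : V0 →ₗ[K] V1
  /-- second map, lower level -/
  Y0 : V0 →ₗ[K] V1
  /-- injective map, lower level -/
  Z0 : V0 →ₗ[K] V1
  /-- first map, upper level -/
  X1 : V1 →ₗ[K] V2
  /-- second map, upper level -/
  Y1 : V1 →ₗ[K] V2
  /-- injective map, upper level -/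
  Z1 : V1 →ₗ[K] V2
  /-- a complement of the lower image -/
  ι : (Fin D → K) →ₗ[K] V1
  /-- reading of the bottom level -/
  ε0 : V0 →ₗ[K] Dual K P
  /-- reading of the middle level -/
  ε1 : V1 →ₗ[K] Dual K P
  /-- reading of the top level -/
  ε2 : V2 →ₗ[K] Dual K P
  xy : ∀ v, X1 (Y0 v) = Y1 (X0 v)
  xz : ∀ v, X1 (Z0 v) = Z1 (X0 v)
  yz : ∀ v, Y1 (Z0 v) = Z1 (Y0 v)
  b1 : Function.Bijective (Z0.coprod ι)
  b2 : Function.Bijective (Z1.coprod (X1 ∘ₗ ι))
  ex0 : ∀ v g, ε1 (X0 v) g = ε0 v (x * g)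
  ey0 : ∀ v g, ε1 (Y0 v) g = ε0 v (y * g)
  ez0 : ∀ v g, ε1 (Z0 v) g = ε0 v (l * g)
  ex1 : ∀ v g, ε2 (X1 v) g = ε1 v (x * g)
  ey1 : ∀ v g, ε2 (Y1 v) g = ε1 v (y * g)
  ez1 : ∀ v g, ε2 (Z1 v) g = ε1 v (l * g)

namespace Const

variable {K P V0 V1 V2 : Type} [Field K] [CommRing P] [Algebra K P] [AddCommGroup V0] [Module K V0]
  [AddCommGroup V1] [Module K V1] [AddCommGroup V2] [Module K V2] {D : ℕ}
  (W : Const K P V0 V1 V2 D)

/-- Coordinates of the middle level. -/
def e1 : (V0 × (Fin D → K)) ≃ₗ[K] V1 := LinearEquiv.ofBijective _ W.b1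

/-- Coordinates of the top level. -/
def e2 : (V1 × (Fin D → K)) ≃ₗ[K] V2 := LinearEquiv.ofBijective _ W.b2

theorem e1_apply (w : V0 × (Fin D → K)) : W.e1 w = W.Z0 w.1 + W.ι w.2 := rfl

theorem e2_apply (w : V1 × (Fin D → K)) : W.e2 w = W.Z1 w.1 + W.X1 (W.ι w.2) := rfl

/-- Constants as polynomials. -/
def cv : (Fin D → K) →ₗ[K] (Fin D → K[X]) :=
  LinearMap.pi fun i => (monomial 0 : K →ₗ[K] K[X]) ∘ₗ LinearMap.proj i

theorem cv_apply (c : Fin D → K) (i : Fin D) : (cv c : Fin D → K[X]) i = C (c i) := by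
  simp [cv]

/-- Raising the exponent by one. -/
def shift : (Fin D → K[X]) →ₗ[K] (Fin D → K[X]) :=
  LinearMap.pi fun i => (LinearMap.mulLeft K (Polynomial.X : K[X])) ∘ₗ LinearMap.proj i

theorem shift_apply (p : Fin D → K[X]) (i : Fin D) : shift p i = Polynomial.X * p i := rfl

/-- The middle level inside the extension. -/
def j1 : V1 →ₗ[K] V0 × (Fin D → K[X]) :=
  (LinearMap.prodMap LinearMap.id cv) ∘ₗ W.e1.symm.toLinearMap

/-- The first operator. -/
def Xop : (V0 × (Fin D → K[X])) →ₗ[K] (V0 × (Fin D → K[X])) :=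
  W.j1 ∘ₗ W.X0 ∘ₗ LinearMap.fst K V0 _ + LinearMap.inr K V0 _ ∘ₗ shift ∘ₗ LinearMap.snd K V0 _

/-- The top level inside the extension. -/
def j2 : V2 →ₗ[K] V0 × (Fin D → K[X]) :=
  (W.j1 ∘ₗ LinearMap.fst K V1 _ + LinearMap.inr K V0 _ ∘ₗ shift ∘ₗ cv ∘ₗ LinearMap.snd K V1 _) ∘ₗ
    W.e2.symm.toLinearMap

theorem j1_e1 (w : V0 × (Fin D → K)) : W.j1 (W.e1 w) = (w.1, cv w.2) := by simp [j1]

theorem j1_Z0 (v : V0) : W.j1 (W.Z0 v) = (v, 0) := by
  have : W.e1 (v, 0) = W.Z0 v := by simp [e1_apply]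
  rw [← this, j1_e1]; simp

theorem j1_ι (c : Fin D → K) : W.j1 (W.ι c) = (0, cv c) := by
  have : W.e1 (0, c) = W.ι c := by simp [e1_apply]
  rw [← this, j1_e1]

theorem Xop_apply (m : V0 × (Fin D → K[X])) :
    W.Xop m = W.j1 (W.X0 m.1) + (0, shift m.2) := by simp [Xop]

theorem Xop_free (p : Fin D → K[X]) : W.Xop (0, p) = (0, shift p) := by simp [Xop_apply]

theorem j2_e2 (w : V1 × (Fin D → K)) :
    W.j2 (W.e2 w) = W.j1 w.1 + W.Xop (W.j1 (W.ι w.2)) := by
  simp [j2, j1_ι, Xop_free]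

theorem j2_Z1 (w : V1) : W.j2 (W.Z1 w) = W.j1 w := by
  have : W.e2 (w, 0) = W.Z1 w := by simp [e2_apply]
  rw [← this, j2_e2]; simp

theorem j2_X1 (w : V1) : W.j2 (W.X1 w) = W.Xop (W.j1 w) := by
  obtain ⟨⟨v, c⟩, rfl⟩ := W.e1.surjective w
  have : W.e2 (W.X0 v, c) = W.X1 (W.e1 (v, c)) := by simp [e1_apply, e2_apply, W.xz]
  rw [← this, j2_e2, j1_e1, j1_ι, Xop_free, Xop_apply]

/-- Bounded exponents. -/
def Fil (t : ℕ) : Submodule K (V0 × (Fin D → K[X])) where
  carrier := {m | ∀ i j, t ≤ j → (m.2 i).coeff j = 0}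
  add_mem' := fun {m m'} h h' i j hj => by simp [h i j hj, h' i j hj]
  zero_mem' := fun i j _ => by simp
  smul_mem' := fun c m h i j hj => by simp [h i j hj]

theorem mem_Fil {t : ℕ} {m : V0 × (Fin D → K[X])} :
    m ∈ (Fil t : Submodule K (V0 × (Fin D → K[X]))) ↔ ∀ i j, t ≤ j → (m.2 i).coeff j = 0 :=
  Iff.rfl

theorem Fil_mono {s t : ℕ} (hst : s ≤ t) {m : V0 × (Fin D → K[X])}
    (hm : m ∈ (Fil s : Submodule K (V0 × (Fin D → K[X])))) :
    m ∈ (Fil t : Submodule K (V0 × (Fin D → K[X]))) :=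
  fun i j hj => hm i j (hst.trans hj)

theorem fil_base (v : V0) : ((v, 0) : V0 × (Fin D → K[X])) ∈
    (Fil 0 : Submodule K (V0 × (Fin D → K[X]))) := fun i j _ => by simp

theorem fil_j1 (w : V1) : W.j1 w ∈ Fil 1 := fun i j hj => by
  obtain ⟨w, rfl⟩ := W.e1.surjective w
  rw [j1_e1]
  show ((cv w.2 : Fin D → K[X]) i).coeff j = 0
  rw [cv_apply, coeff_C, if_neg (by omega)]

theorem fil_Xop {t : ℕ} {m : V0 × (Fin D → K[X])} (hm : m ∈ Fil t) : W.Xop m ∈ Fil (t + 1) := by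
  rw [Xop_apply]
  refine add_mem (Fil_mono (by omega) (W.fil_j1 _)) fun i j hj => ?_
  obtain ⟨j, rfl⟩ : ∃ j', j = j' + 1 := ⟨j - 1, by omega⟩
  show ((shift m.2 : Fin D → K[X]) i).coeff (j + 1) = 0
  rw [shift_apply, coeff_X_mul]
  exact hm i j (by omega)

theorem fil_j2 (u : V2) : W.j2 u ∈ Fil 2 := by
  obtain ⟨w, rfl⟩ := W.e2.surjective u
  rw [j2_e2]
  exact add_mem (Fil_mono (by omega) (W.fil_j1 _)) (W.fil_Xop (W.fil_j1 _))

/-- Reading an element of the extension as a functional. -/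
def π (t : ℕ) (m : V0 × (Fin D → K[X])) (g : P) : K :=
  W.ε0 m.1 (W.l ^ t * g) +
    ∑ i, ∑ j ∈ Finset.range t,
      (m.2 i).coeff j * W.ε1 (W.ι (Pi.single i 1)) (W.x ^ j * W.l ^ (t - 1 - j) * g)

theorem π_add (t : ℕ) (m m' : V0 × (Fin D → K[X])) (g : P) :
    W.π t (m + m') g = W.π t m g + W.π t m' g := by
  simp only [π, Prod.fst_add, Prod.snd_add, Pi.add_apply, coeff_add, map_add,
    LinearMap.add_apply, add_mul, Finset.sum_add_distrib]
  ring

theorem π_smul (t : ℕ) (a : K) (m : V0 × (Fin D → K[X])) (g : P) :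
    W.π t (a • m) g = a * W.π t m g := by
  simp only [π, Prod.smul_fst, Prod.smul_snd, Pi.smul_apply, coeff_smul, map_smul,
    LinearMap.smul_apply, smul_eq_mul, mul_add, Finset.mul_sum, mul_assoc]

theorem π_sum (t : ℕ) {S : Type} (s : Finset S) (f : S → V0 × (Fin D → K[X])) (g : P) :
    W.π t (∑ i ∈ s, f i) g = ∑ i ∈ s, W.π t (f i) g := by
  classical
  induction s using Finset.induction_on with
  | empty => simp [π]
  | insert a s ha ih => rw [Finset.sum_insert ha, Finset.sum_insert ha, π_add, ih]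

theorem π_l (k : ℕ) {t : ℕ} {m : V0 × (Fin D → K[X])} (hm : m ∈ Fil t) (g : P) :
    W.π (t + k) m g = W.π t m (W.l ^ k * g) := by
  simp only [π, ← mul_assoc, pow_add]
  congr 1
  refine Finset.sum_congr rfl fun i _ => ?_
  rw [Finset.sum_range_add,
    Finset.sum_eq_zero (s := Finset.range k) fun j _ => by rw [hm i (t + j) (by omega), zero_mul],
    add_zero]
  refine Finset.sum_congr rfl fun j hj => ?_
  rw [Finset.mem_range] at hj
  congr 2
  rw [show t + k - 1 - j = t - 1 - j + k by omega, pow_add]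
  ring

theorem π_base (v : V0) (g : P) : W.π 0 (v, 0) g = W.ε0 v g := by simp [π]

theorem π_j1 (w : V1) (g : P) : W.π 1 (W.j1 w) g = W.ε1 w g := by
  obtain ⟨⟨v, c⟩, rfl⟩ := W.e1.surjective w
  rw [j1_e1, e1_apply]
  have hc : c = ∑ i, c i • (Pi.single i (1 : K) : Fin D → K) := by
    funext i
    simp [Finset.sum_apply, Pi.single_apply]
  simp only [π, pow_one, cv_apply, Finset.sum_range_one, coeff_C_zero, pow_zero, one_mul, map_add,
    LinearMap.add_apply, W.ez0, Nat.sub_self]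
  congr 1
  conv_rhs => rw [hc]
  simp [map_sum, LinearMap.sum_apply]

theorem π_x {t : ℕ} {m : V0 × (Fin D → K[X])} (hm : m ∈ Fil t) (g : P) :
    W.π (t + 1) (W.Xop m) g = W.π t m (W.x * g) := by
  rw [Xop_apply, π_add, show t + 1 = 1 + t by omega, W.π_l t (W.fil_j1 _), π_j1, W.ex0]
  simp only [π, map_zero, LinearMap.zero_apply, zero_add, shift_apply]
  congr 1
  · congr 1; ring
  refine Finset.sum_congr rfl fun i _ => ?_
  rw [show 1 + t = t + 1 by omega, Finset.sum_range_succ', coeff_X_mul_zero, zero_mul, add_zero]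
  refine Finset.sum_congr rfl fun j hj => ?_
  rw [coeff_X_mul, show t + 1 - 1 - (j + 1) = t - 1 - j by omega, pow_succ]
  congr 2
  ring

theorem π_xpow (k : ℕ) {t : ℕ} {m : V0 × (Fin D → K[X])} (hm : m ∈ Fil t) :
    (W.Xop ^ k) m ∈ Fil (t + k) ∧
      ∀ g, W.π (t + k) ((W.Xop ^ k) m) g = W.π t m (W.x ^ k * g) := by
  induction k with
  | zero => simpa using hm
  | succ k ih =>
    obtain ⟨i1, i2⟩ := ih
    rw [pow_succ', Module.End.mul_apply]
    refine ⟨W.fil_Xop i1, fun g => ?_⟩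
    rw [← add_assoc, W.π_x i1, i2, pow_succ, mul_assoc]

theorem π_j2 (u : V2) (g : P) : W.π 2 (W.j2 u) g = W.ε2 u g := by
  obtain ⟨⟨w, c⟩, rfl⟩ := W.e2.surjective u
  rw [j2_e2, e2_apply, π_add, show (2 : ℕ) = 1 + 1 from rfl, W.π_l 1 (W.fil_j1 _), π_j1,
    W.π_x (W.fil_j1 _), π_j1, map_add, LinearMap.add_apply, W.ez1, W.ex1, pow_one]

/-- The module over polynomials in one variable. -/
abbrev M := Module.AEval' W.Xop

/-- The identification with the extension. -/
def o : (V0 × (Fin D → K[X])) ≃ₗ[K] W.M := Module.AEval'.of W.Xop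

theorem smul_o (q : K[X]) (m : V0 × (Fin D → K[X])) : q • W.o m = W.o (aeval W.Xop q m) := rfl

theorem X_smul_o (m : V0 × (Fin D → K[X])) :
    (Polynomial.X : K[X]) • W.o m = W.o (W.Xop m) := by rw [smul_o, aeval_X]

theorem C_smul (a : K) (n : W.M) : C a • n = a • n := by
  obtain ⟨m, rfl⟩ := W.o.surjective n
  rw [smul_o, aeval_C, ← map_smul, Module.algebraMap_end_apply]

theorem smul_free (q : K[X]) (p : Fin D → K[X]) :
    q • W.o ((0 : V0), p) = W.o ((0 : V0), q • p) := by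
  induction q using Polynomial.induction_on with
  | C a =>
    rw [C_smul, ← map_smul]
    congr 1
    refine Prod.ext (smul_zero a) ?_
    funext i
    simp [smul_eq_C_mul]
  | add q q' hq hq' => rw [add_smul, hq, hq', ← map_add]; congr 1; simp [add_smul]
  | monomial k a ih =>
    rw [pow_succ', ← mul_assoc, mul_comm (C a) X, mul_assoc, mul_smul, ih, X_smul_o, Xop_free]
    congr 1
    refine Prod.ext rfl ?_
    funext i
    simp [shift_apply, mul_smul, mul_assoc]

/-- Images of the basis under the second map. -/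
def g2 (i : Fin D) : W.M := W.o (W.j2 (W.Y1 (W.ι (Pi.single i 1))))

/-- The second operator. -/
def Yk : (V0 × (Fin D → K[X])) →ₗ[K] W.M :=
  W.o.toLinearMap ∘ₗ W.j1 ∘ₗ W.Y0 ∘ₗ LinearMap.fst K V0 _ +
    ((Fintype.linearCombination K[X] W.g2).restrictScalars K) ∘ₗ LinearMap.snd K V0 _

theorem Yk_apply (m : V0 × (Fin D → K[X])) :
    W.Yk m = W.o (W.j1 (W.Y0 m.1)) + ∑ i, m.2 i • W.g2 i := by
  simp [Yk, Fintype.linearCombination_apply]

theorem Yk_j1 (w : V1) : W.Yk (W.j1 w) = W.o (W.j2 (W.Y1 w)) := by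
  obtain ⟨⟨v, c⟩, rfl⟩ := W.e1.surjective w
  rw [j1_e1, Yk_apply, e1_apply]
  have hc : W.ι c = ∑ i, c i • W.ι (Pi.single i 1) := by
    rw [show c = ∑ i, c i • (Pi.single i (1 : K) : Fin D → K) from by
      funext i; simp [Finset.sum_apply, Pi.single_apply]]
    simp [map_sum, map_smul, Finset.sum_apply, Pi.single_apply]
  simp only [cv_apply, C_smul, g2, map_add, W.yz, j2_Z1, hc, map_sum, map_smul]

theorem Yk_Xop (m : V0 × (Fin D → K[X])) :
    W.Yk (W.Xop m) = (Polynomial.X : K[X]) • W.Yk m := by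
  rw [Xop_apply, map_add, Yk_j1, Yk_apply, Yk_apply, ← W.xy, j2_X1, smul_add, Finset.smul_sum,
    X_smul_o]
  congr 1
  simp only [map_zero, zero_add, shift_apply, mul_smul]

theorem Yk_poly (q : K[X]) (m : V0 × (Fin D → K[X])) :
    W.Yk (aeval W.Xop q m) = q • W.Yk m := by
  induction q using Polynomial.induction_on generalizing m with
  | C a => rw [C_smul, aeval_C, Module.algebraMap_end_apply, map_smul]
  | add q q' hq hq' => rw [map_add, LinearMap.add_apply, map_add, hq, hq', add_smul]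
  | monomial k a ih =>
    rw [pow_succ', ← mul_assoc, mul_comm (C a) X, mul_assoc, map_mul, aeval_X,
      Module.End.mul_apply, Yk_Xop, ih, ← mul_smul]

/-- The second operator on the module. -/
def Ym : W.M →ₗ[K[X]] W.M where
  toFun n := W.Yk (W.o.symm n)
  map_add' n n' := by simp
  map_smul' q n := by
    obtain ⟨m, rfl⟩ := W.o.surjective n
    simp only [smul_o, LinearEquiv.symm_apply_apply, RingHom.id_apply, Yk_poly]

theorem Ym_o (m : V0 × (Fin D → K[X])) : W.Ym (W.o m) = W.Yk m :=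
  congrArg W.Yk (W.o.symm_apply_apply m)

theorem smul_g2 (p : K[X]) {t : ℕ} (hp : ∀ j, t ≤ j → p.coeff j = 0) (i : Fin D) :
    p • W.g2 i = W.o (∑ j ∈ Finset.range t,
      p.coeff j • (W.Xop ^ j) (W.j2 (W.Y1 (W.ι (Pi.single i 1))))) := by
  have hdeg : p = ∑ j ∈ Finset.range t, C (p.coeff j) * Polynomial.X ^ j := by
    ext k
    simp only [finsetSum_coeff, coeff_C_mul_X_pow]
    rw [Finset.sum_ite_eq]
    split_ifs with h
    · rfl
    · exact hp k (by simpa using h)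
  conv_lhs => rw [hdeg]
  rw [Finset.sum_smul, map_sum]
  refine Finset.sum_congr rfl fun j _ => ?_
  rw [mul_smul, C_smul, map_smul, g2, smul_o, map_pow, aeval_X]

theorem π_y {t : ℕ} {m : V0 × (Fin D → K[X])} (hm : m ∈ Fil t) :
    W.o.symm (W.Ym (W.o m)) ∈ Fil (t + 1) ∧
      ∀ g, W.π (t + 1) (W.o.symm (W.Ym (W.o m))) g = W.π t m (W.y * g) := by
  have e : W.o.symm (W.Ym (W.o m)) = W.j1 (W.Y0 m.1) + ∑ i, ∑ j ∈ Finset.range t,
      (m.2 i).coeff j • (W.Xop ^ j) (W.j2 (W.Y1 (W.ι (Pi.single i 1)))) := by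
    apply W.o.injective
    rw [LinearEquiv.apply_symm_apply, Ym_o, Yk_apply, map_add, map_sum]
    congr 1
    exact Finset.sum_congr rfl fun i _ => W.smul_g2 _ (fun j hj => hm i j hj) i
  rw [e]
  refine ⟨add_mem (Fil_mono (by omega) (W.fil_j1 _)) (Submodule.sum_mem _ fun i _ =>
    Submodule.sum_mem _ fun j hj => Submodule.smul_mem _ _ ?_), fun g => ?_⟩
  · rw [Finset.mem_range] at hj
    exact Fil_mono (by omega) (W.π_xpow j (W.fil_j2 _)).1
  rw [π_add, show t + 1 = 1 + t by omega, W.π_l t (W.fil_j1 _), π_j1, W.ey0, π_sum]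
  simp only [π_sum, π_smul]
  simp only [π]
  congr 1
  · congr 1; ring
  refine Finset.sum_congr rfl fun i _ => Finset.sum_congr rfl fun j hj => ?_
  rw [Finset.mem_range] at hj
  congr 1
  have e := W.π_l (t - 1 - j) ((W.π_xpow j (W.fil_j2 (W.Y1 (W.ι (Pi.single i 1))))).1) g
  rw [show 2 + j + (t - 1 - j) = 1 + t by omega, (W.π_xpow j (W.fil_j2 _)).2, π_j2, W.ey1] at e
  simp only [π] at e
  rw [e]
  congr 1
  ring

end Const

end

end Vale.Agent.P200
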