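import Vale.Agent.P200.Mono

/-!
# Monotone monomial models
-/

namespace Vale.Agent.P200

open MvPolynomial Module

noncomputable section

open Classical in
/-- Monotone families of homogeneous ideals containing a regular sequence of degrees `a` have
monotone families of upper sets with the same Hilbert functions and the pure powers. -/
def Model (K : Type) [Field K] (n : ℕ) (a : List ℕ) : Prop :=
  ∀ L : List (GForm K n), L.map GForm.k = a → RegL ⊥ L →
    ∀ (P : Type) [Preorder P] (I : P → Ideal (Poly K n)), Monotone I → (∀ p, Homog (I p)) →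
      (∀ p, ∀ f ∈ L, f.g ∈ I p) →
      ∃ s : P → Set (Fin n →₀ ℕ), Monotone s ∧ (∀ p, IsUpperSet (s p)) ∧
        (∀ p i (hi : i < a.length) (hn : i < n), Finsupp.single ⟨i, hn⟩ a[i] ∈ s p) ∧
        ∀ p d, ((degSet n d).filter fun e => e ∉ s p).card = hq (I p) d

end

end Vale.Agent.P200
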