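import Vale.Agent.P200.Regular

/-!
# Monomial ideals and their Hilbert functions
-/

namespace Vale.Agent.P200

open MvPolynomial Module

noncomputable section

variable {K : Type} [Field K] {n : ℕ}

/-- Exponents of degree `d`. -/
def degSet (n d : ℕ) : Finset (Fin n →₀ ℕ) := Finset.univ.finsuppAntidiag d

theorem mem_degSet {d : ℕ} {e : Fin n →₀ ℕ} : e ∈ degSet n d ↔ e.degree = d := by
  simp [degSet, Finset.mem_finsuppAntidiag, Finsupp.degree_eq_sum]

theorem finrank_restrictSupport (t : Finset (Fin n →₀ ℕ)) :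
    finrank K (restrictSupport K (t : Set (Fin n →₀ ℕ))) = t.card := by
  rw [finrank_eq_card_basis (basisRestrictSupport K (t : Set (Fin n →₀ ℕ)))]
  simp

theorem forms_eq_restrictSupport (d : ℕ) :
    Forms K n d = restrictSupport K (degSet n d : Set (Fin n →₀ ℕ)) := by
  refine (homogeneousSubmodule_eq_finsupp_supported (Fin n) K d).trans ?_
  congr 1
  ext e
  simp [mem_degSet]

/-- The monomial ideal spanned by an upper set of exponents. -/
def monIdeal (K : Type) [Field K] {n : ℕ} (s : Set (Fin n →₀ ℕ)) (hs : IsUpperSet s) :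
    Ideal (Poly K n) :=
  restrictSupportIdeal (R := K) s hs

theorem mem_monIdeal {s : Set (Fin n →₀ ℕ)} (hs : IsUpperSet s) {p : Poly K n} :
    p ∈ monIdeal K s hs ↔ (p.support : Set (Fin n →₀ ℕ)) ⊆ s := by
  change p ∈ (restrictSupportIdeal (R := K) s hs).restrictScalars K ↔ _
  rw [restrictScalars_restrictSupportIdeal, mem_restrictSupport_iff]

theorem monIdeal_eq_span {s : Set (Fin n →₀ ℕ)} (hs : IsUpperSet s) :
    monIdeal K s hs = Ideal.span ((fun e => monomial e (1 : K)) '' s) := by
  ext p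
  rw [mem_monIdeal, mem_ideal_span_monomial_image]
  exact ⟨fun h e he => ⟨e, h he, le_rfl⟩, fun h e he => by
    obtain ⟨e', he', hle⟩ := h e he
    exact hs hle he'⟩

theorem Homog.monIdeal {s : Set (Fin n →₀ ℕ)} (hs : IsUpperSet s) :
    Homog (Vale.Agent.P200.monIdeal K s hs) := by
  intro p hp d
  rw [mem_monIdeal] at hp ⊢
  intro e he
  apply hp
  simp only [Finset.mem_coe, MvPolynomial.mem_support_iff, coeff_homogeneousComponent] at he ⊢
  split_ifs at he with h
  · exact he
  · exact absurd rfl he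

theorem X_pow_mem_monIdeal {s : Set (Fin n →₀ ℕ)} (hs : IsUpperSet s) {i : Fin n} {a : ℕ}
    (h : Finsupp.single i a ∈ s) : (X i : Poly K n) ^ a ∈ monIdeal K s hs := by
  classical
  rw [mem_monIdeal, X_pow_eq_monomial, support_monomial, if_neg one_ne_zero]
  simpa using h

open Classical in
theorem hq_monIdeal {s : Set (Fin n →₀ ℕ)} (hs : IsUpperSet s) (d : ℕ) :
    hq (monIdeal K s hs) d = ((degSet n d).filter fun e => e ∉ s).card := by
  have hp : part (monIdeal K s hs) d =
      restrictSupport K (((degSet n d).filter fun e => e ∈ s) : Set (Fin n →₀ ℕ)) := by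
    ext p
    have hh : p.IsHomogeneous d ↔ p ∈ Forms K n d := Iff.rfl
    rw [mem_part, mem_monIdeal, hh, forms_eq_restrictSupport, mem_restrictSupport_iff,
      mem_restrictSupport_iff]
    simp only [Finset.coe_filter, Set.subset_def, Finset.mem_coe, Set.mem_setOf_eq]
    exact ⟨fun h e he => ⟨h.2 e he, h.1 e he⟩,
      fun h => ⟨fun e he => (h e he).2, fun e he => (h e he).1⟩⟩
  have e1 : finrank K (Forms K n d) = (degSet n d).card := by
    rw [forms_eq_restrictSupport, finrank_restrictSupport]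
  have e2 := finrank_restrictSupport (K := K) ((degSet n d).filter fun e => e ∈ s)
  unfold hq
  rw [e1, hp, e2, ← Finset.card_filter_add_card_filter_not (s := degSet n d) (p := fun e => e ∈ s)]
  omega

/-- Exponents with some bounded coordinate too large. -/
def powSet (n : ℕ) (a : List (Fin n × ℕ)) : Set (Fin n →₀ ℕ) := {e | ∃ p ∈ a, p.2 ≤ e p.1}

theorem powSet_upper (a : List (Fin n × ℕ)) : IsUpperSet (powSet n a) := by
  rintro e e' h ⟨p, hp, hle⟩
  exact ⟨p, hp, hle.trans (h p.1)⟩

/-- The form `X_i ^ k`. -/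
def powForm (p : Fin n × ℕ) (hp : 0 < p.2) : GForm K n where
  g := (X p.1 : Poly K n) ^ p.2
  k := p.2
  hom := isHomogeneous_X_pow (R := K) p.1 p.2
  pos := hp

/-- Forms `X_i ^ k`. -/
def powForms (a : List (Fin n × ℕ)) (h : ∀ p ∈ a, 0 < p.2) : List (GForm K n) :=
  a.pmap powForm h

theorem powForms_degrees (a : List (Fin n × ℕ)) (h : ∀ p ∈ a, 0 < p.2) :
    (powForms (K := K) a h).map GForm.k = a.map Prod.snd := by
  induction a with
  | nil => rfl
  | cons p a ih =>
    simp only [powForms, List.pmap, List.map_cons, List.cons.injEq, powForm, true_and]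
    exact ih fun q hq => h q (List.mem_cons_of_mem _ hq)

theorem monIdeal_append (a : List (Fin n × ℕ)) (p : Fin n × ℕ) :
    monIdeal K (powSet n a) (powSet_upper a) ⊔ Ideal.span {(X p.1 : Poly K n) ^ p.2} =
      monIdeal K (powSet n (a ++ [p])) (powSet_upper _) := by
  rw [monIdeal_eq_span, monIdeal_eq_span]
  apply le_antisymm
  · refine sup_le (Ideal.span_mono ?_) ((Ideal.span_singleton_le_iff_mem _).mpr ?_)
    · rintro _ ⟨e, ⟨q, hq, hle⟩, rfl⟩
      exact ⟨e, ⟨q, List.mem_append_left _ hq, hle⟩, rfl⟩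
    · refine Ideal.subset_span ⟨Finsupp.single p.1 p.2, ⟨p, by simp, by simp⟩, ?_⟩
      rw [X_pow_eq_monomial]
  · rw [Ideal.span_le]
    rintro _ ⟨e, ⟨q, hq, hle⟩, rfl⟩
    rcases List.mem_append.mp hq with hq | hq
    · exact Submodule.mem_sup_left (Ideal.subset_span ⟨e, ⟨q, hq, hle⟩, rfl⟩)
    · rw [List.mem_singleton] at hq
      subst hq
      refine Submodule.mem_sup_right (Ideal.mem_span_singleton.mpr ?_)
      rw [X_pow_eq_monomial]
      exact monomial_dvd_monomial.mpr ⟨Or.inr (Finsupp.single_le_iff.mpr hle), dvd_rfl⟩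

theorem powSet_nil : monIdeal K (powSet n []) (powSet_upper []) = ⊥ := by
  rw [monIdeal_eq_span]
  simp [powSet]

theorem nzd_pow {a : List (Fin n × ℕ)} {i : Fin n} (k : ℕ) (hi : ∀ p ∈ a, p.1 ≠ i) :
    NZD (monIdeal K (powSet n a) (powSet_upper a)) ((X i : Poly K n) ^ k) := by
  intro p hp
  rw [mem_monIdeal] at hp ⊢
  intro e he
  have hmem : e + Finsupp.single i k ∈ ((X i : Poly K n) ^ k * p).support := by
    rw [MvPolynomial.mem_support_iff, X_pow_eq_monomial, add_comm, coeff_monomial_mul, one_mul]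
    exact MvPolynomial.mem_support_iff.mp he
  obtain ⟨q, hq, hle⟩ := hp hmem
  refine ⟨q, hq, ?_⟩
  simpa [Finsupp.add_apply, Finsupp.single_eq_of_ne (hi q hq)] using hle

theorem regL_powForms_aux : ∀ (a : List (Fin n × ℕ)) (h : ∀ p ∈ a, 0 < p.2)
    (a₀ : List (Fin n × ℕ)), (a₀ ++ a).map Prod.fst |>.Nodup →
    RegL (monIdeal K (powSet n a₀) (powSet_upper a₀)) (powForms (K := K) a h) ∧
      idl (monIdeal K (powSet n a₀) (powSet_upper a₀)) (powForms (K := K) a h) =
        monIdeal K (powSet n (a₀ ++ a)) (powSet_upper _) := by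
  intro a
  induction a with
  | nil =>
    intro h a₀ _
    simp [powForms, RegL, idl]
  | cons p a ih =>
    intro h a₀ hnd
    have e : a₀ ++ p :: a = (a₀ ++ [p]) ++ a := by simp
    obtain ⟨h1, h2⟩ := ih (fun q hq => h q (List.mem_cons_of_mem _ hq)) (a₀ ++ [p]) (e ▸ hnd)
    have hn : ∀ q ∈ a₀, q.1 ≠ p.1 := by
      intro q hq he
      rw [List.map_append, List.nodup_append] at hnd
      exact hnd.2.2 _ (List.mem_map_of_mem hq) _ (by simp) he
    simp only [powForms, List.pmap, RegL, idl, powForm]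
    rw [monIdeal_append]
    refine ⟨⟨nzd_pow p.2 hn, h1⟩, ?_⟩
    change idl _ (powForms a fun q hq => h q (List.mem_cons_of_mem _ hq)) = _
    rw [h2]
    simp only [e]

theorem regL_powForms (a : List (Fin n × ℕ)) (h : ∀ p ∈ a, 0 < p.2)
    (hnd : (a.map Prod.fst).Nodup) :
    RegL (⊥ : Ideal (Poly K n)) (powForms (K := K) a h) ∧
      idl ⊥ (powForms (K := K) a h) = monIdeal K (powSet n a) (powSet_upper a) := by
  have := regL_powForms_aux (K := K) a h [] (by simpa using hnd)
  rw [powSet_nil] at this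
  simpa using this

open Classical in
/-- Hilbert function of a complete intersection as a count of exponents in a box. -/
theorem hq_regL {l : List (GForm K n)} (hl : RegL ⊥ l) (a : List (Fin n × ℕ))
    (hk : l.map GForm.k = a.map Prod.snd) (hnd : (a.map Prod.fst).Nodup) (d : ℕ) :
    hq (idl ⊥ l) d = ((degSet n d).filter fun e => ∀ p ∈ a, e p.1 < p.2).card := by
  have hpos : ∀ p ∈ a, 0 < p.2 := by
    intro p hp
    have : p.2 ∈ l.map GForm.k := hk ▸ List.mem_map_of_mem hp
    obtain ⟨g, _, hg⟩ := List.mem_map.mp this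
    exact hg ▸ g.pos
  obtain ⟨h1, h2⟩ := regL_powForms (K := K) a hpos hnd
  rw [regL_hq_congr (by rw [powForms_degrees, hk]) Homog.bot Homog.bot hl h1 (fun _ => rfl)
    hq_bot_zero d, h2, hq_monIdeal]
  congr 1
  refine Finset.filter_congr fun e _ => ?_
  simp [powSet, Set.mem_setOf_eq]

end

end Vale.Agent.P200
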