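import Vale.Agent.P200.Slope

/-!
# Functionals that see a point
-/

namespace Vale.Agent.P200

open MvPolynomial Module

noncomputable section

variable {K : Type} [Field K] {l : Forms K 3 1}

/-- Points with prescribed values of a frame. -/
theorem Frame.exists_point (F : Frame l) (σ τ ρ : K) :
    ∃ v : Fin 3 → K, ∀ s t r : K,
      eval v (((s • F.x + t • F.y + r • l : Forms K 3 1) : Poly K 3)) = s * σ + t * τ + r * ρ := by
  choose s t r h using fun i : Fin 3 => F.spans ⟨X i, isHomogeneous_X K i⟩
  refine ⟨fun i => s i * σ + t i * τ + r i * ρ, fun a b c => ?_⟩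
  obtain ⟨co, hco⟩ := linear_form_eq (a • F.x + b • F.y + c • l : Forms K 3 1).2
  have he : a • F.x + b • F.y + c • l =
      (∑ i, co i * s i) • F.x + (∑ i, co i * t i) • F.y + (∑ i, co i * r i) • l := by
    have : (a • F.x + b • F.y + c • l : Forms K 3 1) =
        ∑ i, co i • (⟨X i, isHomogeneous_X K i⟩ : Forms K 3 1) := Subtype.ext (by simp [← hco])
    rw [this, Finset.sum_smul, Finset.sum_smul, Finset.sum_smul, ← Finset.sum_add_distrib,
      ← Finset.sum_add_distrib]
    exact Finset.sum_congr rfl fun i _ => by rw [h i]; module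
  obtain ⟨ha, hb, hc⟩ := F.indep (a - ∑ i, co i * s i) (b - ∑ i, co i * t i)
    (c - ∑ i, co i * r i) (by
      rw [← sub_eq_zero] at he
      rw [← he]
      module)
  rw [sub_eq_zero] at ha hb hc
  rw [← hco]
  simp only [map_sum, smul_eval, eval_X, mul_add, Finset.sum_add_distrib, ha, hb, hc,
    Finset.sum_mul, mul_assoc]

theorem forms_eq_sum {n j : ℕ} {p : Poly K n} (hp : p.IsHomogeneous (j + 1)) :
    ∃ q : Fin n → Forms K n j, p = ∑ i, (X i : Poly K n) * q i := by
  have hspan : p ∈ Ideal.span (Set.range (X : Fin n → Poly K n)) := by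
    rw [← Set.image_univ, mem_ideal_span_X_image]
    intro m hm
    have hne : m ≠ 0 := by
      intro h0
      have := hp.degree_eq_sum_deg_support hm
      simp [h0] at this
    obtain ⟨i, hi⟩ := Finsupp.ne_iff.mp hne
    exact ⟨i, trivial, hi⟩
  obtain ⟨c, hc⟩ := Ideal.mem_span_range_iff_exists_fun.mp hspan
  refine ⟨fun i => ⟨homogeneousComponent j (c i), homogeneousComponent_isHomogeneous j (c i)⟩, ?_⟩
  have he := component_self hp
  rw [← hc, map_sum] at he
  rw [← hc, ← he]
  refine Finset.sum_congr rfl fun i _ => ?_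
  rw [mul_comm, component_mul (isHomogeneous_X K i)]

/-- A functional on one degree that treats two forms as multiples of the third vanishes, when
the ideal has no zero in that degree. -/
theorem eq_zero_of_point {J : Ideal (Poly K 3)} {N : ℕ} (hA : Avoid J (N + 1)) (F : Frame l)
    {σ τ : K} (Λ : Dual K (QPiece J (N + 1)))
    (hx : ∀ u, Λ (mulQ J F.x N u) = σ * Λ (mulQ J l N u))
    (hy : ∀ u, Λ (mulQ J F.y N u) = τ * Λ (mulQ J l N u)) : Λ = 0 := by
  obtain ⟨v, hv⟩ := F.exists_point σ τ 1
  let lam : Forms K 3 (N + 1) →ₗ[K] K := Λ ∘ₗ Submodule.mkQ _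
  -- pushing a form to the top degree by the third form
  let up : ∀ {j : ℕ}, j ≤ N + 1 → Forms K 3 j → Forms K 3 (N + 1) := fun {j} hj g =>
    ⟨(l : Poly K 3) ^ (N + 1 - j) * g, by
      have := ((isHomogeneous_linear_pow' l (N + 1 - j))).mul g.2
      rwa [Nat.sub_add_cancel hj] at this⟩
  have key : ∀ j (hj : j ≤ N + 1) (g : Forms K 3 j),
      lam (up hj g) = eval v (g : Poly K 3) * lam (up (Nat.zero_le _) ⟨1, isHomogeneous_one _ _⟩) := by
    intro j
    induction j with
    | zero =>
      intro hj g
      have hg : (g : Poly K 3) ∈ homogeneousSubmodule (Fin 3) K 0 := g.2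
      rw [homogeneousSubmodule_zero, Submodule.one_eq_span, Submodule.mem_span_singleton] at hg
      obtain ⟨t, ht⟩ := hg
      have : up hj g = t • up (Nat.zero_le _) ⟨1, isHomogeneous_one _ _⟩ := by
        ext : 1
        simp [up, ← ht]
      rw [this, map_smul, ← ht]
      simp
    | succ j ih =>
      intro hj g
      obtain ⟨q, hq⟩ := forms_eq_sum g.2
      obtain ⟨m, hm⟩ : ∃ m, N = j + m := ⟨N - j, by omega⟩
      have hlin : ∀ (L : Forms K 3 1) (g' : Forms K 3 j),
          lam (up hj ⟨(L : Poly K 3) * g', map_forms_le L.2 j ⟨g', g'.2, rfl⟩⟩) =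
            eval v (L : Poly K 3) * lam (up (by omega : j ≤ N + 1) g') := by
        intro L g'
        obtain ⟨s, t, r, rfl⟩ := F.spans L
        let w : Forms K 3 N := ⟨(l : Poly K 3) ^ (N - j) * g', by
          have := ((isHomogeneous_linear_pow' l (N - j))).mul g'.2
          rwa [Nat.sub_add_cancel (by omega : j ≤ N)] at this⟩
        have e1 : ∀ L : Forms K 3 1,
            (Submodule.Quotient.mk (up hj ⟨(L : Poly K 3) * g', map_forms_le L.2 j ⟨g', g'.2, rfl⟩⟩)
              : QPiece J (N + 1)) = mulQ J L N (Submodule.Quotient.mk w) := by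
          intro L
          rw [mulQ_mk]
          congr 1
          ext : 1
          simp only [up, w]
          rw [show N + 1 - (j + 1) = N - j by omega]
          ring
        have e2 : (Submodule.Quotient.mk (up (by omega : j ≤ N + 1) g') : QPiece J (N + 1)) =
            mulQ J l N (Submodule.Quotient.mk w) := by
          rw [mulQ_mk]
          congr 1
          ext : 1
          simp only [up, w]
          rw [show N + 1 - j = N - j + 1 by omega, pow_succ]
          ring
        simp only [lam, LinearMap.comp_apply, Submodule.mkQ_apply, e1, e2, mulQ_add, mulQ_smul,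
          map_add, map_smul, hx, hy, hv, smul_eq_mul, mul_one]
        ring
      have : up hj g = ∑ i, up hj ⟨(X i : Poly K 3) * q i,
          map_forms_le (isHomogeneous_X K i) j ⟨q i, (q i).2, rfl⟩⟩ := by
        ext : 1
        rw [Submodule.coe_sum]
        simp only [up]
        rw [hq, Finset.mul_sum]
      rw [this, map_sum, hq, map_sum, Finset.sum_mul]
      refine Finset.sum_congr rfl fun i _ => ?_
      rw [hlin ⟨X i, isHomogeneous_X K i⟩ (q i), ih (by omega), map_mul, mul_assoc]
  have hv0 : v ≠ 0 := by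
    intro h0
    have := hv 0 0 1
    rw [h0] at this
    simp [constantCoeff_eq] at this
    rw [l.2.coeff_eq_zero (by simp)] at this
    exact zero_ne_one this
  obtain ⟨p, hpJ, hp, hpv⟩ := hA v hv0
  have e : ∀ g : Forms K 3 (N + 1), up le_rfl g = g := fun g => by
    ext : 1
    simp [up]
  have h1 := key (N + 1) le_rfl ⟨p, hp⟩
  rw [e] at h1
  have h2 : lam ⟨p, hp⟩ = 0 := by
    simp only [lam, LinearMap.comp_apply, Submodule.mkQ_apply]
    rw [(mk_eq_zero_iff (J := J)).mpr hpJ, map_zero]
  rw [h2, eq_comm, mul_eq_zero, or_iff_right hpv] at h1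
  refine LinearMap.ext fun u => ?_
  induction u using Submodule.Quotient.induction_on with
  | _ g =>
    have h3 := key (N + 1) le_rfl g
    rw [e, h1, mul_zero] at h3
    exact h3
where
  isHomogeneous_linear_pow' (l : Forms K 3 1) (i : ℕ) :
      ((l : Poly K 3) ^ i).IsHomogeneous i := by simpa using l.2.pow i

end

end Vale.Agent.P200
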