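import Vale.Agent.P200.CoreA

/-!
# Exact growth numbers in a box

In degree `d` the box piece is cut into lines by the first exponent; `pos b c d i` is the size of
the first `i` lines. Losses happen at the starts of the first lines, gains at the ends of the last
ones.
-/

namespace Vale.Agent.P200

open Finset

/-- Length of a line. -/
def lineLen (b c d i : ℕ) : ℕ := min b (d + 1 - i) - (d + 1 - c - i)

/-- Size of the first `i` lines. -/
def pos (b c d i : ℕ) : ℕ := ∑ j ∈ range i, lineLen b c d j

theorem pos_succ (b c d i : ℕ) : pos b c d (i + 1) = pos b c d i + lineLen b c d i :=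
  sum_range_succ _ _

theorem pos_mono (b c d : ℕ) {i j : ℕ} (h : i ≤ j) : pos b c d i ≤ pos b c d j :=
  sum_le_sum_of_subset (range_mono h)

theorem pos_shift (b c d i : ℕ) :
    pos b c (d + 1) (i + 1) = lineLen b c (d + 1) 0 + pos b c d i := by
  rw [pos, sum_range_succ', add_comm]
  congr 1
  exact sum_congr rfl fun j _ => by unfold lineLen; omega

theorem pos_eq_lineSum {b c d : ℕ} (h : d + 1 ≤ c) (i : ℕ) : pos b c d i = lineSum b d i :=
  sum_congr rfl fun j _ => by unfold lineLen; omega

/-- One line of the box. -/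
theorem card_line {a b c d i : ℕ} (hi : i < a) :
    ((boxSet a b c d).filter fun p => p.1 = i).card = lineLen b c d i := by
  have e : ((boxSet a b c d).filter fun p => p.1 = i) =
      (Ico (d + 1 - c - i) (min b (d + 1 - i))).image fun t => (i, t) := by
    ext ⟨α, β⟩
    simp only [mem_filter, mem_boxSet, mem_image, mem_Ico, Prod.mk.injEq]
    constructor
    · rintro ⟨h, rfl⟩
      exact ⟨β, by omega, rfl, rfl⟩
    · rintro ⟨t, ht, rfl, rfl⟩
      omega
  rw [e, card_image_of_injOn (fun x _ y _ h => congrArg Prod.snd h), Nat.card_Ico]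
  rfl

theorem card_pos (a b c d : ℕ) : (boxSet a b c d).card = pos b c d a := by
  rw [card_eq_sum_card_fiberwise (f := Prod.fst) (t := range a)
    fun p hp => mem_range.mpr (mem_boxSet.mp hp).1]
  exact sum_congr rfl fun i hi => card_line (mem_range.mp hi)

theorem brank_pos {a b c d : ℕ} {p : ℕ × ℕ} (hp : p ∈ boxSet a b c d) :
    brank a b c d p = pos b c d p.1 + (p.2 - (d + 1 - c - p.1)) := by
  obtain ⟨i, β⟩ := p
  rw [mem_boxSet] at hp
  simp only at hp ⊢
  have e : (boxSet a b c d).filter (pairLT · (i, β)) =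
      boxSet i b c d ∪ (Ico (d + 1 - c - i) β).image fun t => (i, t) := by
    ext ⟨x, y⟩
    rw [mem_filter]
    simp only [mem_boxSet, mem_union, mem_image, mem_Ico, Prod.mk.injEq, pairLT]
    constructor
    · rintro ⟨h, hlt | ⟨rfl, hlt⟩⟩
      · exact Or.inl (by omega)
      · exact Or.inr ⟨y, by omega, rfl, rfl⟩
    · rintro (h | ⟨t, ht, rfl, rfl⟩) <;> omega
  rw [brank, e, card_union_of_disjoint, card_pos,
    card_image_of_injOn (fun x _ y _ h => congrArg Prod.snd h), Nat.card_Ico]
  rw [disjoint_left]
  intro q hq hq'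
  obtain ⟨t, -, rfl⟩ := mem_image.mp hq'
  exact lt_irrefl _ (mem_boxSet.mp hq).1

/-- Started lines that lose their first element. -/
def lossSet (b c d h : ℕ) : Finset ℕ := (range (d + 2 - c)).filter fun i => pos b c d i < h

/-- Completed lines that gain an element. -/
def gainPos (a b c d h : ℕ) : Finset ℕ :=
  (range a).filter fun i => d + 2 ≤ i + b ∧ pos b c d (i + 1) ≤ h

/-- The upper bound on growth. -/
def Ok (a b c d h m : ℕ) : Prop :=
  m + (lossSet b c d h).card ≤ h + (gainPos a b c d h).card

theorem lossSet_card_le (b c d h : ℕ) : (lossSet b c d h).card ≤ d + 2 - c :=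
  (card_filter_le _ _).trans_eq (card_range _)

theorem le_lossSet {b c d h j : ℕ} (hj : j < d + 2 - c) (hp : pos b c d j < h) :
    j + 1 ≤ (lossSet b c d h).card := by
  rw [← card_range (j + 1)]
  refine card_le_card fun i hi => ?_
  rw [Finset.mem_range] at hi
  exact mem_filter.mpr ⟨mem_range.mpr (by omega), lt_of_le_of_lt (pos_mono _ _ _ (by omega)) hp⟩

theorem of_le_lossSet {b c d h j : ℕ} (hj : j + 1 ≤ (lossSet b c d h).card) : pos b c d j < h := by
  by_contra hc
  push Not at hc
  have : lossSet b c d h ⊆ range j := fun i hi => by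
    rw [lossSet, mem_filter] at hi
    rw [Finset.mem_range]
    by_contra hij
    have := pos_mono b c d (show j ≤ i by omega)
    omega
  have h1 := card_le_card this
  rw [card_range] at h1
  omega

theorem gainPos_mono {a b c d h h' : ℕ} (hh : h ≤ h') :
    (gainPos a b c d h).card ≤ (gainPos a b c d h').card :=
  card_le_card fun i hi => by
    simp only [gainPos, mem_filter] at hi ⊢
    exact ⟨hi.1, hi.2.1, hi.2.2.trans hh⟩

theorem le_gainPos {a b c d h m : ℕ} (hb : b ≤ d + 2) (ha : d + 2 - b + m ≤ a)
    (hp : pos b c d (d + 2 - b + m) ≤ h) : m ≤ (gainPos a b c d h).card := by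
  have : Ico (d + 2 - b) (d + 2 - b + m) ⊆ gainPos a b c d h := fun i hi => by
    rw [mem_Ico] at hi
    refine mem_filter.mpr ⟨mem_range.mpr (by omega), by omega, ?_⟩
    exact (pos_mono _ _ _ (show i + 1 ≤ d + 2 - b + m by omega)).trans hp
  simpa using card_le_card this

theorem of_le_gainPos {a b c d h m : ℕ} (hm : m ≤ (gainPos a b c d h).card) (h0 : 0 < m) :
    d + 2 - b + m ≤ a ∧ pos b c d (d + 2 - b + m) ≤ h := by
  by_contra hc
  have : gainPos a b c d h ⊆ Ico (d + 2 - b) (d + 2 - b + m - 1) := fun i hi => by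
    simp only [gainPos, mem_filter, Finset.mem_range] at hi
    rw [mem_Ico]
    refine ⟨by omega, ?_⟩
    by_contra hij
    exact hc ⟨by omega, (pos_mono _ _ _ (show d + 2 - b + m ≤ i + 1 by omega)).trans hi.2.2⟩
  have h1 := card_le_card this
  rw [Nat.card_Ico] at h1
  omega

/-- The maximal growth is at least the gains less the losses. -/
theorem cond_of_ok {a b c d h m : ℕ} (hb : b ≤ c) (ha : a ≤ d + 1) (hc : 0 < c)
    (hh : h ≤ (boxSet a b c d).card) (hok : Ok a b c d h m) : Cond a b c d h m := by
  refine cond_of_le_good ?_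
  set F := (boxSet a b c d).filter fun q => brank a b c d q < h
  have hF : F.card = h := card_brank_lt hh
  have hlost : (F.filter fun q => q.1 + q.2 + c = d + 1).card ≤ (lossSet b c d h).card := by
    refine card_le_card_of_injOn Prod.fst (fun q hq => ?_) ?_
    · simp only [F, mem_coe, mem_filter] at hq
      obtain ⟨⟨hbox, hr⟩, he⟩ := hq
      rw [brank_pos hbox] at hr
      rw [mem_boxSet] at hbox
      simp only [lossSet, mem_coe, mem_filter, Finset.mem_range]
      omega
    · intro q hq q' hq' e
      simp only [coe_filter, Set.mem_ofPred_eq] at hq hq'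
      exact Prod.ext e (by omega)
  have hlift : (F.filter fun q => ¬ q.1 + q.2 + c = d + 1) ⊆ good a b c d h := by
    intro q hq
    simp only [F, mem_filter] at hq
    obtain ⟨⟨hbox, hr⟩, hne⟩ := hq
    rw [mem_boxSet] at hbox
    refine mem_filter.mpr ⟨mem_boxSet.mpr ⟨hbox.1, hbox.2.1, by omega, by omega⟩, ?_⟩
    rw [show md d q = q by simp [md, hbox.2.2.1]]
    exact hr
  set P := (gainPos a b c d h).image fun i => (i, d + 1 - i)
  have hgi : P ⊆ good a b c d h := by
    intro p hp
    obtain ⟨i, hi, rfl⟩ := mem_image.mp hp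
    simp only [gainPos, mem_filter, Finset.mem_range] at hi
    obtain ⟨hia, hib, hp⟩ := hi
    refine mem_filter.mpr ⟨mem_boxSet.mpr (by simp only; omega), ?_⟩
    have e : md d (i, d + 1 - i) = (i, d - i) := by
      simp only [md]
      rw [if_neg (by omega), if_pos (by omega), show d + 1 - i - 1 = d - i by omega]
    have hbox : ((i, d - i) : ℕ × ℕ) ∈ boxSet a b c d := mem_boxSet.mpr (by simp only; omega)
    rw [e, brank_pos hbox]
    rw [pos_succ] at hp
    simp only [lineLen] at hp ⊢
    omega
  have hdis : Disjoint P (F.filter fun q => ¬ q.1 + q.2 + c = d + 1) := by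
    rw [disjoint_left]
    intro p hp hq
    obtain ⟨i, hi, rfl⟩ := mem_image.mp hp
    simp only [gainPos, mem_filter, Finset.mem_range] at hi
    simp only [F, mem_filter, mem_boxSet] at hq
    omega
  have h1 := card_le_card (union_subset hgi hlift)
  rw [card_union_of_disjoint hdis,
    card_image_of_injOn (fun x _ y _ e => congrArg Prod.fst e)] at h1
  have h2 := card_filter_add_card_filter_not (s := F) (p := fun q => q.1 + q.2 + c = d + 1)
  unfold Ok at hok
  omega

/-- Below the degree of the third form the bound is the one of two forms. -/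
theorem ok_of_gainSet {a b c d h m : ℕ} (hd : d + 2 ≤ c)
    (hm : m ≤ h + (gainSet a b d h).card) : Ok a b c d h m := by
  have h0 := lossSet_card_le b c d h
  have h1 : (gainSet a b d h).card ≤ (gainPos a b c d h).card := card_le_card fun i hi => by
    simp only [gainSet, gainPos, mem_filter] at hi ⊢
    exact ⟨hi.1, hi.2.1, (pos_eq_lineSum (by omega) _).trans_le hi.2.2.2⟩
  unfold Ok
  omega

section

variable {a b c d : ℕ}

/-- Removing `u` classes while losing at most `u - 1` successors keeps the bound failing. -/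
theorem not_ok_sub {h m u u' : ℕ} (ha : a ≤ b) (hb : b ≤ c) (hk : c ≤ d + 1)
    (hk' : d + 3 ≤ a + b) (hbad : ¬ Ok a b c d h m) (hu : u ≤ h) (hu' : u' + 1 ≤ u)
    (hum : u' ≤ m) (hbound : u + (d + 2) + m ≤ h + b + c ∨ h ≤ m) :
    ¬ Ok a b c d (h - u) (m - u') := by
  unfold Ok at hbad ⊢
  push Not at hbad ⊢
  have hG := gainPos_mono (a := a) (b := b) (c := c) (d := d) (show h - u ≤ h by omega)
  have hL := lossSet_card_le b c d h
  by_cases hfull : d + 2 - c ≤ (lossSet b c d (h - u)).card
  · omega
  have hG0 : (gainPos a b c d (h - u)).card = 0 := by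
    by_contra h0
    obtain ⟨e1, e2⟩ := of_le_gainPos (m := 1) (Nat.pos_of_ne_zero h0) one_pos
    have h3 : pos b c d (d + 1 - c) < h - u := by
      refine lt_of_lt_of_le ?_ ((pos_mono b c d (show d + 1 - c + 1 ≤ d + 2 - b + 1 by omega)).trans e2)
      rw [pos_succ]
      simp only [lineLen]
      omega
    have := le_lossSet (by omega) h3
    omega
  by_cases hD : h ≤ m
  · omega
  -- `D = h - m` lines have started, so `D - 1` still start after the removal
  obtain ⟨e, he⟩ : ∃ e, h - m = e + 1 := ⟨h - m - 1, by omega⟩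
  have h4 : pos b c d (e + 1) < h := of_le_lossSet (by omega)
  rw [pos_succ] at h4
  simp only [lineLen] at h4
  have := le_lossSet (b := b) (c := c) (d := d) (h := h - u) (j := e) (by omega) (by omega)
  omega

/-- With the first gain line reached, removing one class in both degrees keeps the bound
failing. -/
theorem not_ok_pred {h m : ℕ} (ha : a ≤ b) (hb : b ≤ c) (hk : c ≤ d + 1) (hk' : d + 3 ≤ a + b)
    (hbad : ¬ Ok a b c d h m) (hh : pos b c d (d + 2 - b) ≤ h) :
    ¬ Ok a b c d (h - 1) (m - 1) := by
  unfold Ok at hbad ⊢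
  push Not at hbad ⊢
  have hG := gainPos_mono (a := a) (b := b) (c := c) (d := d) (show h - 1 ≤ h by omega)
  have hL := lossSet_card_le b c d h
  have h3 : pos b c d (d + 1 - c) + 1 < h := by
    refine lt_of_lt_of_le ?_ ((pos_mono b c d (show d + 1 - c + 1 ≤ d + 2 - b by omega)).trans hh)
    rw [pos_succ]
    simp only [lineLen]
    omega
  have := le_lossSet (b := b) (c := c) (d := d) (h := h - 1) (j := d + 1 - c) (by omega) (by omega)
  omega

/-- The induction step of the growth bound. -/
theorem step_of_ok {h m h1 : ℕ} (ha : a ≤ b) (hb : b ≤ c) (hk : c ≤ d + 2)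
    (hk' : d + 4 ≤ a + b) (hok : Ok a b c d h1 h) (hbad : ¬ Ok a b c (d + 1) h m)
    (hslope : h1 + m + 1 ≤ 2 * h) :
    pos b c (d + 1) (d + 3 - b) ≤ h ∧ 2 * h ≤ h1 + m + 1 := by
  unfold Ok at hok hbad
  push Not at hbad
  have hL := lossSet_card_le b c (d + 1) h
  by_cases hG1 : (gainPos a b c d h1).card = 0
  · exfalso
    by_cases hL0 : (lossSet b c (d + 1) h).card ≤ 1
    · omega
    obtain ⟨j, hj⟩ : ∃ j, (lossSet b c (d + 1) h).card = j + 2 :=
      ⟨(lossSet b c (d + 1) h).card - 2, by omega⟩
    have h4 : pos b c (d + 1) (j + 1) < h := of_le_lossSet (by omega)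
    rw [pos_shift] at h4
    have := le_lossSet (b := b) (c := c) (d := d) (h := h1) (j := j) (by omega) (by omega)
    omega
  obtain ⟨e1, e2⟩ := of_le_gainPos (m := 1) (Nat.pos_of_ne_zero hG1) one_pos
  have hfull : d + 2 - c ≤ (lossSet b c d h1).card := by
    by_cases hc0 : d + 2 - c = 0
    · omega
    have h3 : pos b c d (d + 1 - c) < h1 := by
      refine lt_of_lt_of_le ?_
        ((pos_mono b c d (show d + 1 - c + 1 ≤ d + 2 - b + 1 by omega)).trans e2)
      rw [pos_succ]
      simp only [lineLen]
      omega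
    have := le_lossSet (b := b) (c := c) (d := d) (j := d + 1 - c) (by omega) h3
    omega
  -- `μ` gains are needed one degree below
  obtain ⟨μ, hμ⟩ : ∃ μ, μ + h1 = d + 2 - c + h :=
    ⟨d + 2 - c + h - h1, by omega⟩
  rcases Nat.eq_zero_or_pos μ with rfl | hμ0
  · exfalso; omega
  obtain ⟨n, rfl⟩ : ∃ n, μ = n + 1 := ⟨μ - 1, by omega⟩
  obtain ⟨e3, e4⟩ := of_le_gainPos (a := a) (b := b) (c := c) (d := d) (h := h1) (m := n + 1)
    (by omega) (by omega)
  have e5 := pos_shift b c d (d + 2 - b + (n + 1))
  rw [pos_succ, show d + 2 - b + (n + 1) = d + 3 - b + n by omega] at e5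
  rw [show d + 2 - b + (n + 1) = d + 3 - b + n by omega] at e4
  simp only [lineLen] at e5
  have hh : pos b c (d + 1) (d + 3 - b + n) ≤ h := by omega
  refine ⟨(pos_mono b c (d + 1) (by omega)).trans hh, ?_⟩
  have := le_gainPos (a := a) (b := b) (c := c) (d := d + 1) (h := h) (m := n) (by omega)
    (by omega) (by rwa [show d + 1 + 2 - b + n = d + 3 - b + n by omega])
  omega

/-- The failing bound needs more started lines than the drop. -/
theorem pos_lt_of_not_ok {h m : ℕ} (hbad : ¬ Ok a b c d h m) (hm : m ≤ h) :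
    pos b c d (h - m) < h := by
  unfold Ok at hbad
  exact of_le_lossSet (by omega)

end

end Vale.Agent.P200
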