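import Vale.Agent.P200.Base

/-!
# Setting a linear form to zero, and linear maps between graded pieces
-/

namespace Vale.Agent.P200

open MvPolynomial Module

noncomputable section

variable {K : Type} [Field K] {n : ℕ}

/-- A graded surjection to one variable fewer with kernel generated by a linear form. -/
structure Cut (K : Type) [Field K] (n : ℕ) (l : Poly K (n + 1)) where
  /-- the projection -/
  φ : Poly K (n + 1) →ₐ[K] Poly K n
  /-- the section -/
  ψ : Poly K n →ₐ[K] Poly K (n + 1)
  φ_hom : ∀ p d, p.IsHomogeneous d → (φ p).IsHomogeneous d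
  ψ_hom : ∀ p d, p.IsHomogeneous d → (ψ p).IsHomogeneous d
  φ_ψ : ∀ p, φ (ψ p) = p
  φ_l : φ l = 0
  sub_mem : ∀ p, ψ (φ p) - p ∈ Ideal.span {l}

theorem linear_form_eq {l : Poly K n} (hl : l.IsHomogeneous 1) :
    ∃ c : Fin n → K, ∑ i, c i • (X i : Poly K n) = l := by
  have h : l ∈ homogeneousSubmodule (Fin n) K 1 := hl
  rw [homogeneousSubmodule_one_eq_span_X] at h
  exact (Submodule.mem_span_range_iff_exists_fun K).mp h

theorem exists_cut {l : Poly K (n + 1)} (hl : l.IsHomogeneous 1) (hl0 : l ≠ 0) :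
    Nonempty (Cut K n l) := by
  obtain ⟨c, rfl⟩ := linear_form_eq hl
  obtain ⟨k, hk⟩ : ∃ k, c k ≠ 0 := by
    by_contra h
    push Not at h
    exact hl0 (Finset.sum_eq_zero fun i _ => by rw [h i, zero_smul])
  let r : Poly K n := -((c k)⁻¹ • ∑ i : Fin n, c (k.succAbove i) • (X i : Poly K n))
  let g : Fin (n + 1) → Poly K n := Fin.insertNth k r X
  have hr : r.IsHomogeneous 1 :=
    Submodule.neg_mem (Forms K n 1) (Submodule.smul_mem _ _ (Submodule.sum_mem _ fun i _ =>
      Submodule.smul_mem _ _ (isHomogeneous_X K i)))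
  have hg : ∀ i, (g i).IsHomogeneous 1 := by
    intro i
    refine Fin.succAboveCases k ?_ (fun j => ?_) i
    · simpa [g] using hr
    · simpa [g] using isHomogeneous_X K j
  let φ : Poly K (n + 1) →ₐ[K] Poly K n := aeval g
  let ψ : Poly K n →ₐ[K] Poly K (n + 1) := rename k.succAbove
  have hψr : ψ r - X k = (-(c k)⁻¹) • ∑ i, c i • (X i : Poly K (n + 1)) := by
    have h1 : ψ r = -((c k)⁻¹ • ∑ i, c (k.succAbove i) • (X (k.succAbove i) : Poly K (n + 1))) := by
      simp [r, ψ, map_neg, map_sum, map_smul, rename_X]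
    rw [h1, Fin.sum_univ_succAbove _ k, smul_add, smul_smul, neg_mul, inv_mul_cancel₀ hk,
      neg_smul, neg_smul, one_smul]
    abel
  have hsub : ∀ p, ψ (φ p) - p ∈ Ideal.span {∑ i, c i • (X i : Poly K (n + 1))} := by
    let I := Ideal.span {∑ i, c i • (X i : Poly K (n + 1))}
    have h : ((Ideal.Quotient.mkₐ K I).comp (ψ.comp φ)) = Ideal.Quotient.mkₐ K I := by
      refine MvPolynomial.algHom_ext fun i => ?_
      simp only [AlgHom.comp_apply, Ideal.Quotient.mkₐ_eq_mk, φ, aeval_X]
      rw [Ideal.Quotient.mk_eq_mk_iff_sub_mem]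
      refine Fin.succAboveCases k ?_ (fun j => ?_) i
      · simp only [g, Fin.insertNth_apply_same]
        rw [hψr, smul_eq_C_mul]
        exact Ideal.mul_mem_left _ _ (Ideal.mem_span_singleton_self _)
      · simp only [g, Fin.insertNth_apply_succAbove, ψ, rename_X, sub_self]
        exact zero_mem _
    intro p
    exact Ideal.Quotient.eq.mp (DFunLike.congr_fun h p)
  refine ⟨⟨φ, ψ, fun p d hp => ?_, fun p d hp => hp.rename_isHomogeneous, fun p => ?_, ?_, hsub⟩⟩
  · have h : (aeval g p).IsHomogeneous (1 * d) := hp.aeval g hg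
    rwa [one_mul] at h
  · change aeval g (rename k.succAbove p) = p
    rw [aeval_rename]
    have : g ∘ k.succAbove = X := funext fun j => by simp [g]
    rw [this, aeval_X_left_apply]
  · simp only [φ, map_sum, map_smul, aeval_X]
    rw [Fin.sum_univ_succAbove _ k]
    simp only [g, Fin.insertNth_apply_same, Fin.insertNth_apply_succAbove, r, smul_neg, smul_smul,
      mul_inv_cancel₀ hk, one_smul, neg_add_cancel]

variable {l : Poly K (n + 1)} (C : Cut K n l)

theorem Cut.ker_iff {p : Poly K (n + 1)} : C.φ p = 0 ↔ p ∈ Ideal.span {l} := by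
  constructor
  · intro h
    have := C.sub_mem p
    rw [h, map_zero, zero_sub] at this
    exact neg_mem_iff.mp this
  · intro h
    obtain ⟨q, rfl⟩ := Ideal.mem_span_singleton'.mp h
    rw [map_mul, C.φ_l, mul_zero]

theorem Cut.component_comm (p : Poly K (n + 1)) (d : ℕ) :
    C.φ (homogeneousComponent d p) = homogeneousComponent d (C.φ p) := by
  conv_rhs => rw [← sum_homogeneousComponent p, map_sum, map_sum]
  have : ∀ i, homogeneousComponent d (C.φ (homogeneousComponent i p)) =
      if d = i then C.φ (homogeneousComponent i p) else 0 := fun i =>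
    homogeneousComponent_of_mem (C.φ_hom _ i (homogeneousComponent_isHomogeneous i p))
  simp only [this, Finset.sum_ite_eq, Finset.mem_range]
  split_ifs with h
  · rfl
  · rw [homogeneousComponent_eq_zero _ _ (by omega), map_zero]

/-- The image of an ideal. -/
def Cut.image (I : Ideal (Poly K (n + 1))) : Ideal (Poly K n) := I.map C.φ.toRingHom

theorem Cut.mem_image {I : Ideal (Poly K (n + 1))} {p : Poly K n} :
    p ∈ C.image I ↔ ∃ q ∈ I, C.φ q = p :=
  Ideal.mem_map_iff_of_surjective C.φ.toRingHom fun x => ⟨C.ψ x, C.φ_ψ x⟩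

theorem Cut.image_mono {I J : Ideal (Poly K (n + 1))} (h : I ≤ J) : C.image I ≤ C.image J :=
  Ideal.map_mono h

theorem Cut.image_sup (I J : Ideal (Poly K (n + 1))) :
    C.image (I ⊔ J) = C.image I ⊔ C.image J := Ideal.map_sup _ _ _

theorem Cut.image_span (s : Set (Poly K (n + 1))) :
    C.image (Ideal.span s) = Ideal.span (C.φ '' s) := Ideal.map_span _ _

theorem Cut.image_bot : C.image (⊥ : Ideal (Poly K (n + 1))) = ⊥ := Ideal.map_bot

theorem Cut.homog_image {I : Ideal (Poly K (n + 1))} (hI : Homog I) : Homog (C.image I) := by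
  intro p hp d
  obtain ⟨q, hq, rfl⟩ := C.mem_image.mp hp
  exact C.mem_image.mpr ⟨_, hI q hq d, C.component_comm q d⟩

theorem Cut.hq_image {I : Ideal (Poly K (n + 1))} (hI : Homog I) (hl : l.IsHomogeneous 1) (d : ℕ) :
    hq (C.image I) d = hq (I ⊔ Ideal.span {l}) d := by
  have hL : Homog (I ⊔ Ideal.span {l}) := hI.sup (Homog.span_singleton hl)
  let f := C.φ.toLinearMap
  have key : ∀ V : Submodule K (Poly K (n + 1)), V ≤ Forms K (n + 1) d →
      finrank K (V.map f) + finrank K (LinearMap.ker f ⊓ V : Submodule K _) = finrank K V := by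
    intro V hV
    haveI : FiniteDimensional K V := Submodule.finiteDimensional_of_le hV
    have h := LinearMap.finrank_range_add_finrank_ker (f.domRestrict V)
    rw [LinearMap.range_domRestrict, LinearMap.ker_domRestrict] at h
    have e : finrank K (Submodule.comap V.subtype (LinearMap.ker f)) =
        finrank K (LinearMap.ker f ⊓ V : Submodule K _) := by
      exact (LinearEquiv.finrank_eq (Submodule.equivMapOfInjective _ (Submodule.injective_subtype V)
        (Submodule.comap V.subtype (LinearMap.ker f)))).trans (by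
          rw [Submodule.map_comap_subtype, inf_comm])
    rw [e] at h
    exact h
  have e1 : (Forms K (n + 1) d).map f = Forms K n d := by
    apply le_antisymm
    · rintro _ ⟨p, hp, rfl⟩; exact C.φ_hom p d hp
    · intro p hp; exact ⟨C.ψ p, C.ψ_hom p d hp, C.φ_ψ p⟩
  have e2 : (part (I ⊔ Ideal.span {l}) d).map f = part (C.image I) d := by
    apply le_antisymm
    · rintro _ ⟨p, ⟨hp, hpd⟩, rfl⟩
      refine ⟨?_, C.φ_hom p d hpd⟩
      obtain ⟨x, hx, y, hy, rfl⟩ := Submodule.mem_sup.mp hp
      refine C.mem_image.mpr ⟨x, hx, ?_⟩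
      change C.φ x = C.φ (x + y)
      rw [map_add, C.ker_iff.mpr hy, add_zero]
    · rintro p ⟨hp, hpd⟩
      obtain ⟨q, hq, rfl⟩ := C.mem_image.mp hp
      refine ⟨homogeneousComponent d q, ⟨Submodule.mem_sup_left (hI q hq d),
        homogeneousComponent_isHomogeneous d q⟩, ?_⟩
      change C.φ (homogeneousComponent d q) = C.φ q
      rw [C.component_comm, component_self hpd]
  have e3 : LinearMap.ker f ⊓ Forms K (n + 1) d =
      LinearMap.ker f ⊓ part (I ⊔ Ideal.span {l}) d := by
    apply le_antisymm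
    · rintro p ⟨hk, hp⟩
      exact ⟨hk, Submodule.mem_sup_right (C.ker_iff.mp hk), hp⟩
    · exact inf_le_inf_left _ (part_le_forms _ d)
  have k1 := key _ le_rfl
  have k2 := key _ (part_le_forms (I ⊔ Ideal.span {l}) d)
  rw [e1, e3] at k1
  rw [e2] at k2
  have a1 := hq_add (C.image I) d
  have a2 := hq_add (I ⊔ Ideal.span {l}) d
  omega

/-- Exact sequence along a linear form, with the quotient written in fewer variables. -/
theorem Cut.hq_succ {I : Ideal (Poly K (n + 1))} (hI : Homog I) (hl : l.IsHomogeneous 1)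
    (hl0 : l ≠ 0) (d : ℕ) : hq I (d + 1) = hq (C.image I) (d + 1) + hq (colon I l) d := by
  rw [C.hq_image hI hl]
  exact hq_split hI hl hl0 d

theorem Cut.hq_zero {I : Ideal (Poly K (n + 1))} (hI : Homog I) (hl : l.IsHomogeneous 1) :
    hq I 0 = hq (C.image I) 0 := by
  rw [C.hq_image hI hl, hq_sup_of_lt hI hl (by omega)]

theorem finrank_forms_succ_succ (d : ℕ) :
    finrank K (Forms K (n + 1) (d + 1)) =
      finrank K (Forms K n (d + 1)) + finrank K (Forms K (n + 1) d) := by
  obtain ⟨C⟩ := exists_cut (isHomogeneous_X K (0 : Fin (n + 1))) (X_ne_zero _)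
  have h := C.hq_succ Homog.bot (isHomogeneous_X K _) (X_ne_zero _) d
  have hc : colon (⊥ : Ideal (Poly K (n + 1))) (X 0) = ⊥ := by
    ext p
    simp [mem_colon, X_ne_zero]
  rw [C.image_bot, hc, hq_forms, hq_forms, hq_forms] at h
  exact h

theorem finrank_forms_empty (d : ℕ) : finrank K (Forms K 0 (d + 1)) = 0 := by
  have : Forms K 0 (d + 1) = ⊥ := by
    rw [Submodule.eq_bot_iff]
    intro p hp
    by_contra h
    have := IsHomogeneous.inj_right hp (isHomogeneous_of_isEmpty (Fin 0) K p) h
    omega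
  rw [this, finrank_bot]

theorem finrank_forms_one (d : ℕ) : finrank K (Forms K 1 d) = 1 := by
  induction d with
  | zero => exact finrank_forms_zero
  | succ d ih => rw [finrank_forms_succ_succ, finrank_forms_empty, ih]

theorem finrank_forms_two (d : ℕ) : finrank K (Forms K 2 d) = d + 1 := by
  induction d with
  | zero => exact finrank_forms_zero
  | succ d ih => rw [finrank_forms_succ_succ, finrank_forms_one, ih]; omega

/-- Every nonzero point is avoided by some element of degree `j` of the ideal. -/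
def Avoid (I : Ideal (Poly K n)) (j : ℕ) : Prop :=
  ∀ v : Fin n → K, v ≠ 0 → ∃ p ∈ I, p.IsHomogeneous j ∧ eval v p ≠ 0

theorem Avoid.mono {I J : Ideal (Poly K n)} {j : ℕ} (h : Avoid I j) (hle : I ≤ J) : Avoid J j :=
  fun v hv => by obtain ⟨p, hp, h1, h2⟩ := h v hv; exact ⟨p, hle hp, h1, h2⟩

theorem Avoid.up {I : Ideal (Poly K n)} {i j : ℕ} (h : Avoid I i) (hij : i ≤ j) : Avoid I j := by
  intro v hv
  obtain ⟨p, hp, h1, h2⟩ := h v hv
  obtain ⟨k, hk⟩ := Function.ne_iff.mp hv
  refine ⟨X k ^ (j - i) * p, I.mul_mem_left _ hp, ?_, ?_⟩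
  · have := (isHomogeneous_X_pow (R := K) k (j - i)).mul h1
    rwa [Nat.sub_add_cancel hij] at this
  · rw [map_mul, map_pow, eval_X]
    exact mul_ne_zero (pow_ne_zero _ hk) h2

theorem Cut.eval_comp (w : Fin n → K) (p : Poly K (n + 1)) :
    eval (fun i => eval w (C.φ (X i))) p = eval w (C.φ p) := by
  have h : (aeval (fun i => eval w (C.φ (X i))) : Poly K (n + 1) →ₐ[K] K) =
      (aeval w).comp C.φ := by
    refine MvPolynomial.algHom_ext fun i => ?_
    simp [aeval_eq_eval]
  simpa [aeval_eq_eval] using DFunLike.congr_fun h p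

theorem Cut.avoid {I : Ideal (Poly K (n + 1))} {j : ℕ} (h : Avoid I j) :
    Avoid (C.image I) j := by
  intro w hw
  have hv : (fun i => eval w (C.φ (X i))) ≠ (0 : Fin (n + 1) → K) := by
    intro hv
    apply hw
    funext i
    have h1 := C.eval_comp w (C.ψ (X i))
    rw [C.φ_ψ, eval_X, hv] at h1
    rw [← h1, eval_zero]
    simpa [constantCoeff_eq] using
      (C.ψ_hom _ 1 (isHomogeneous_X K i)).coeff_eq_zero (d := 0) (by simp)
  obtain ⟨p, hp, h1, h2⟩ := h _ hv
  exact ⟨C.φ p, C.mem_image.mpr ⟨p, hp, rfl⟩, C.φ_hom p j h1, by rwa [C.eval_comp] at h2⟩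

theorem hq_eq_zero_one {I : Ideal (Poly K 1)} {j : ℕ} (h : Avoid I j) : hq I j = 0 := by
  obtain ⟨p, hp, h1, h2⟩ := h (fun _ => 1) (fun h => one_ne_zero (congrFun h 0))
  have hpne : p ≠ 0 := fun h0 => h2 (by rw [h0, map_zero])
  have hle : Submodule.span K {p} ≤ part I j :=
    (Submodule.span_singleton_le_iff_mem _ _).mpr ⟨hp, h1⟩
  have h3 := Submodule.finrank_mono hle
  rw [finrank_span_singleton hpne] at h3
  have h4 := hq_add I j
  rw [finrank_forms_one] at h4
  omega

/-- The degree `d` piece of the quotient by `I`. -/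
abbrev QPiece (I : Ideal (Poly K n)) (d : ℕ) :=
  (Forms K n d) ⧸ (part I d).comap (Forms K n d).subtype

theorem finrank_qPiece (I : Ideal (Poly K n)) (d : ℕ) : finrank K (QPiece I d) = hq I d := by
  have h1 := Submodule.finrank_quotient_add_finrank ((part I d).comap (Forms K n d).subtype)
  have h2 : finrank K ((part I d).comap (Forms K n d).subtype) = finrank K (part I d) :=
    (Submodule.comapSubtypeEquivOfLe (part_le_forms I d)).finrank_eq
  have h3 := hq_add I d
  show finrank K (_ ⧸ _) = _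
  omega

/-- Multiplication by a linear form between pieces of the quotient. -/
def mulQ (I : Ideal (Poly K n)) (g : Forms K n 1) (d : ℕ) :
    QPiece I d →ₗ[K] QPiece I (d + 1) :=
  Submodule.mapQ _ _
    ((mulL (g : Poly K n)).restrict (p := Forms K n d) (q := Forms K n (d + 1))
      fun p hp => map_forms_le g.2 d ⟨p, hp, rfl⟩)
    fun p hp => ⟨I.mul_mem_left _ hp.1, map_forms_le g.2 d ⟨_, p.2, rfl⟩⟩

theorem mulQ_mk (I : Ideal (Poly K n)) (g : Forms K n 1) (d : ℕ) (p : Forms K n d) :
    mulQ I g d (Submodule.Quotient.mk p) =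
      Submodule.Quotient.mk ⟨(g : Poly K n) * p, map_forms_le g.2 d ⟨_, p.2, rfl⟩⟩ := rfl

theorem mulQ_add (I : Ideal (Poly K n)) (g g' : Forms K n 1) (d : ℕ) (x : QPiece I d) :
    mulQ I (g + g') d x = mulQ I g d x + mulQ I g' d x := by
  induction x using Submodule.Quotient.induction_on with
  | _ p =>
    simp only [mulQ_mk, ← Submodule.Quotient.mk_add]
    congr 1
    ext : 1
    simp [add_mul]

theorem mulQ_smul (I : Ideal (Poly K n)) (t : K) (g : Forms K n 1) (d : ℕ) (x : QPiece I d) :
    mulQ I (t • g) d x = t • mulQ I g d x := by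
  induction x using Submodule.Quotient.induction_on with
  | _ p =>
    simp only [mulQ_mk, ← Submodule.Quotient.mk_smul]
    congr 1
    ext : 1
    simp

theorem mulQ_surjective {I : Ideal (Poly K n)} (hI : Homog I) {g : Forms K n 1} {d : ℕ}
    (h : hq (I ⊔ Ideal.span {(g : Poly K n)}) (d + 1) = 0) :
    Function.Surjective (mulQ I g d) := by
  intro y
  induction y using Submodule.Quotient.induction_on with
  | _ p =>
    have hp : (p : Poly K n) ∈ part (I ⊔ Ideal.span {(g : Poly K n)}) (d + 1) :=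
      ⟨hq_eq_zero_iff.mp h p p.2, p.2⟩
    rw [part_sup_span hI g.2] at hp
    obtain ⟨x, hx, _, ⟨q, hq, rfl⟩, hxy⟩ := Submodule.mem_sup.mp hp
    refine ⟨Submodule.Quotient.mk ⟨q, hq⟩, ?_⟩
    rw [mulQ_mk, Submodule.Quotient.eq]
    change (g : Poly K n) * q - (p : Poly K n) ∈ part I (d + 1)
    rw [← hxy, mulL_apply, sub_add_cancel_right]
    exact neg_mem hx

end

end Vale.Agent.P200
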