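import Vale.Agent.P200.Reduce

/-!
# Regular sequences of forms
-/

namespace Vale.Agent.P200

open MvPolynomial Module

noncomputable section

variable {K : Type} [Field K] {n : ℕ}

/-- A form together with its degree. -/
structure GForm (K : Type) [Field K] (n : ℕ) where
  /-- the form -/
  g : Poly K n
  /-- the degree -/
  k : ℕ
  hom : g.IsHomogeneous k
  pos : 0 < k

/-- The ideal generated by a list of forms on top of `I`. -/
def idl : Ideal (Poly K n) → List (GForm K n) → Ideal (Poly K n)
  | I, [] => I
  | I, a :: l => idl (I ⊔ Ideal.span {a.g}) l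

/-- The list is a regular sequence modulo `I`. -/
def RegL : Ideal (Poly K n) → List (GForm K n) → Prop
  | _, [] => True
  | I, a :: l => NZD I a.g ∧ RegL (I ⊔ Ideal.span {a.g}) l

theorem le_idl (I : Ideal (Poly K n)) (l : List (GForm K n)) : I ≤ idl I l := by
  induction l generalizing I with
  | nil => exact le_rfl
  | cons a l ih => exact le_sup_left.trans (ih _)

theorem idl_mono {I J : Ideal (Poly K n)} (h : I ≤ J) (l : List (GForm K n)) :
    idl I l ≤ idl J l := by
  induction l generalizing I J with
  | nil => exact h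
  | cons a l ih => exact ih (sup_le_sup_right h _)

theorem idl_le {I J : Ideal (Poly K n)} (hI : I ≤ J) :
    ∀ {l : List (GForm K n)}, (∀ a ∈ l, a.g ∈ J) → idl I l ≤ J := by
  intro l
  induction l generalizing I with
  | nil => intro _; exact hI
  | cons a l ih =>
    intro h
    exact ih (sup_le hI ((Ideal.span_singleton_le_iff_mem _).mpr (h a List.mem_cons_self)))
      fun b hb => h b (List.mem_cons_of_mem _ hb)

theorem mem_idl {I : Ideal (Poly K n)} :
    ∀ {l : List (GForm K n)} {a : GForm K n}, a ∈ l → a.g ∈ idl I l := by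
  intro l
  induction l generalizing I with
  | nil => intro a h; simp at h
  | cons b l ih =>
    intro a h
    rcases List.mem_cons.mp h with h | h
    · subst h
      exact le_idl _ l (Submodule.mem_sup_right (Ideal.mem_span_singleton_self _))
    · exact ih h

theorem Homog.idl {I : Ideal (Poly K n)} (hI : Homog I) (l : List (GForm K n)) :
    Homog (Vale.Agent.P200.idl I l) := by
  induction l generalizing I with
  | nil => exact hI
  | cons a l ih => exact ih (hI.sup (Homog.span_singleton a.hom))

theorem idl_append (I : Ideal (Poly K n)) (l l' : List (GForm K n)) :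
    idl I (l ++ l') = idl (idl I l) l' := by
  induction l generalizing I with
  | nil => rfl
  | cons a l ih => exact ih _

theorem regL_append (I : Ideal (Poly K n)) (l l' : List (GForm K n)) :
    RegL I (l ++ l') ↔ RegL I l ∧ RegL (idl I l) l' := by
  induction l generalizing I with
  | nil => simp [RegL, idl]
  | cons a l ih => simp [RegL, idl, ih, and_assoc]

theorem mem_of_components {I : Ideal (Poly K n)} {p : Poly K n}
    (h : ∀ d, homogeneousComponent d p ∈ I) : p ∈ I := by
  rw [← sum_homogeneousComponent p]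
  exact Submodule.sum_mem _ fun d _ => h d

theorem nzd_of_forms {I : Ideal (Poly K n)} (hI : Homog I) {g : Poly K n} {k : ℕ}
    (hg : g.IsHomogeneous k)
    (h : ∀ p : Poly K n, ∀ d, p.IsHomogeneous d → g * p ∈ I → p ∈ I) : NZD I g := by
  intro p hp
  refine mem_of_components fun d => h _ d (homogeneousComponent_isHomogeneous d p) ?_
  rw [← component_mul hg]
  exact hI _ hp _

theorem regL_swap {I : Ideal (Poly K n)} (hI : Homog I) (a b : GForm K n)
    (ha : NZD I a.g) (hb : NZD (I ⊔ Ideal.span {a.g}) b.g) :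
    NZD I b.g ∧ NZD (I ⊔ Ideal.span {b.g}) a.g := by
  have hbI : NZD I b.g := by
    refine nzd_of_forms hI b.hom fun p d => ?_
    induction d using Nat.strong_induction_on generalizing p with
    | _ d ih =>
      intro hp hmem
      have h1 := hb p (Submodule.mem_sup_left hmem)
      obtain ⟨i, hi, y, hy, hsum⟩ := Submodule.mem_sup.mp h1
      obtain ⟨q, rfl⟩ := Ideal.mem_span_singleton'.mp hy
      have hc := component_self hp
      rw [← hsum, map_add, mul_comm q a.g] at hc
      rw [← hsum, mul_comm q a.g, ← hc]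
      by_cases hd : d < a.k
      · rw [component_mul_lt a.hom q hd, add_zero]
        exact hI i hi d
      · obtain ⟨j, rfl⟩ : ∃ j, d = j + a.k := ⟨d - a.k, by omega⟩
        rw [component_mul a.hom] at hc ⊢
        have hy' : homogeneousComponent j q ∈ I := by
          refine ih j (by have := a.pos; omega) _ (homogeneousComponent_isHomogeneous j q) (ha _ ?_)
          have : b.g * (homogeneousComponent (j + a.k) i + a.g * homogeneousComponent j q) ∈ I := by
            rw [hc, mul_comm a.g q, hsum]; exact hmem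
          rw [mul_add] at this
          have := (Ideal.add_mem_iff_right _ (I.mul_mem_left b.g (hI i hi _))).mp this
          rwa [← mul_assoc, mul_comm b.g a.g, mul_assoc] at this
        exact add_mem (hI i hi _) (I.mul_mem_left _ hy')
  refine ⟨hbI, fun x hx => ?_⟩
  obtain ⟨i, hi, y, hy, hsum⟩ := Submodule.mem_sup.mp hx
  obtain ⟨y, rfl⟩ := Ideal.mem_span_singleton'.mp hy
  have h1 : b.g * y ∈ I ⊔ Ideal.span {a.g} := by
    have : b.g * y = -i + a.g * x := by rw [← hsum]; ring
    rw [this]
    exact Submodule.add_mem_sup (neg_mem hi)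
      (Ideal.mul_mem_right _ _ (Ideal.mem_span_singleton_self _))
  obtain ⟨i', hi', z, hz, hy'⟩ := Submodule.mem_sup.mp (hb y h1)
  obtain ⟨z, rfl⟩ := Ideal.mem_span_singleton'.mp hz
  have h2 : x - z * b.g ∈ I := by
    refine ha _ ?_
    have : a.g * (x - z * b.g) = i + i' * b.g := by
      rw [← hy'] at hsum
      linear_combination -hsum
    rw [this]
    exact add_mem hi (I.mul_mem_right _ hi')
  have : x = (x - z * b.g) + z * b.g := by ring
  rw [this]
  exact Submodule.add_mem_sup h2 (Ideal.mul_mem_left _ _ (Ideal.mem_span_singleton_self _))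

theorem regL_perm {l l' : List (GForm K n)} (h : l.Perm l') :
    ∀ {I : Ideal (Poly K n)}, Homog I → RegL I l → RegL I l' ∧ idl I l = idl I l' := by
  induction h with
  | nil => intro I _ h; exact ⟨h, rfl⟩
  | cons a _ ih =>
    intro I hI h
    have := ih (hI.sup (Homog.span_singleton a.hom)) h.2
    exact ⟨⟨h.1, this.1⟩, this.2⟩
  | swap a b l =>
    intro I hI h
    obtain ⟨hb, ha, hl⟩ := h
    obtain ⟨h1, h2⟩ := regL_swap hI b a hb ha
    have e : I ⊔ Ideal.span {b.g} ⊔ Ideal.span {a.g} = I ⊔ Ideal.span {a.g} ⊔ Ideal.span {b.g} :=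
      sup_right_comm _ _ _
    rw [e] at hl
    exact ⟨⟨h1, h2, hl⟩, by simp only [idl]; rw [e]⟩
  | trans _ _ ih1 ih2 =>
    intro I hI h
    obtain ⟨h1, e1⟩ := ih1 hI h
    obtain ⟨h2, e2⟩ := ih2 hI h1
    exact ⟨h2, e1.trans e2⟩

theorem ne_zero_of_nzd {I : Ideal (Poly K n)} (hI : I ≠ ⊤) {g : Poly K n} (h : NZD I g) :
    g ≠ 0 := by
  intro h0
  exact hI ((Ideal.eq_top_iff_one I).mpr (h 1 (by simp [h0])))

theorem ne_top_of_hq_zero {I : Ideal (Poly K n)} (h : hq I 0 = 1) : I ≠ ⊤ := by
  intro he
  have : hq I 0 = 0 := hq_eq_zero_iff.mpr fun p _ => by simp [he]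
  omega

theorem hq_bot_zero : hq (⊥ : Ideal (Poly K n)) 0 = 1 := by
  rw [hq_forms, finrank_forms_zero]

theorem regL_hq_zero {I : Ideal (Poly K n)} (hI : Homog I) (h : hq I 0 = 1)
    (l : List (GForm K n)) : hq (idl I l) 0 = 1 := by
  induction l generalizing I with
  | nil => exact h
  | cons a l ih =>
    exact ih (hI.sup (Homog.span_singleton a.hom)) (by rw [hq_sup_of_lt hI a.hom a.pos, h])

/-- Hilbert functions of regular sequences depend only on the degrees. -/
theorem regL_hq_congr {n' : ℕ} {K' : Type} [Field K'] :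
    ∀ {l : List (GForm K n)} {l' : List (GForm K' n')} {I : Ideal (Poly K n)}
      {I' : Ideal (Poly K' n')}, l.map GForm.k = l'.map GForm.k → Homog I → Homog I' →
      RegL I l → RegL I' l' → (∀ d, hq I d = hq I' d) → hq I 0 = 1 →
      ∀ d, hq (idl I l) d = hq (idl I' l') d := by
  intro l
  induction l with
  | nil =>
    intro l' I I' hk _ _ _ _ heq _
    rw [List.map_nil, eq_comm, List.map_eq_nil_iff] at hk
    subst hk
    exact heq
  | cons a l ih =>
    intro l' I I' hk hI hI' h h' heq h0
    rcases l' with _ | ⟨b, l'⟩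
    · simp at hk
    ·
      simp only [List.map_cons, List.cons.injEq] at hk
      have hb0 : b.g ≠ 0 := ne_zero_of_nzd (ne_top_of_hq_zero (by rw [← heq, h0])) h'.1
      have ha0 : a.g ≠ 0 := ne_zero_of_nzd (ne_top_of_hq_zero h0) h.1
      simp only [idl]
      refine ih hk.2 (hI.sup (Homog.span_singleton a.hom)) (hI'.sup (Homog.span_singleton b.hom))
        h.2 h'.2 (fun d => ?_) (by rw [hq_sup_of_lt hI a.hom a.pos, h0])
      by_cases hd : d < a.k
      · rw [hq_sup_of_lt hI a.hom hd, hq_sup_of_lt hI' b.hom (by omega), heq]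
      · obtain ⟨j, rfl⟩ : ∃ j, d = j + a.k := ⟨d - a.k, by omega⟩
        have e1 := hq_sup_nzd hI a.hom ha0 h.1 j
        have e2 := hq_sup_nzd hI' b.hom hb0 h'.1 j
        rw [← hk.1] at e2
        have := heq j
        have := heq (j + a.k)
        omega

/-- The socle-type ideal of elements killed by all variables modulo `I`. -/
def soc (I : Ideal (Poly K n)) : Ideal (Poly K n) := ⨅ i, colon I (X i)

theorem mem_soc {I : Ideal (Poly K n)} {p : Poly K n} : p ∈ soc I ↔ ∀ i, X i * p ∈ I := by
  simp [soc, Submodule.mem_iInf, mem_colon]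

/-- No socle element in degree `d`. -/
def NoSoc (I : Ideal (Poly K n)) (d : ℕ) : Prop :=
  ∀ p : Poly K n, p.IsHomogeneous d → (∀ i, X i * p ∈ I) → p ∈ I

theorem exists_nzd_linear [Infinite K] {ι : Type} [Finite ι] (I : ι → Ideal (Poly K n))
    (hH : ∀ k, Homog (I k)) (hI : ∀ k d, NoSoc (I k) d) (hn : 0 < n) :
    ∃ l : Poly K n, l.IsHomogeneous 1 ∧ l ≠ 0 ∧ ∀ k, NZD (I k) l := by
  classical
  let P : Set (Ideal (Poly K n)) := ⋃ k, associatedPrimes (Poly K n) (Poly K n ⧸ I k)
  have hP : P.Finite := Set.finite_iUnion fun k => associatedPrimes.finite _ _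
  let sub : Ideal (Poly K n) → Subspace K (Forms K n 1) := fun p =>
    (p.restrictScalars K).comap (Forms K n 1).subtype
  let s : Finset (Subspace K (Forms K n 1)) := insert ⊥ (hP.toFinset.image sub)
  have hs : ⊤ ∉ s := by
    intro h
    rcases Finset.mem_insert.mp h with h | h
    · have h1 : (⟨X ⟨0, hn⟩, isHomogeneous_X K _⟩ : Forms K n 1) ∈
          (⊥ : Subspace K (Forms K n 1)) := h ▸ Submodule.mem_top
      rw [Submodule.mem_bot, Subtype.ext_iff] at h1
      exact X_ne_zero (R := K) (⟨0, hn⟩ : Fin n) h1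
    · obtain ⟨p, hp, hpt⟩ := Finset.mem_image.mp h
      simp only [Set.Finite.mem_toFinset, P, Set.mem_iUnion] at hp
      obtain ⟨k, hk⟩ := hp
      obtain ⟨hprime, x, hx⟩ := isAssociatedPrime_iff.mp hk
      obtain ⟨f, rfl⟩ := Ideal.Quotient.mk_surjective x
      have hX : ∀ i, X i * f ∈ I k := by
        intro i
        have h1 : (⟨X i, isHomogeneous_X K i⟩ : Forms K n 1) ∈ sub p := hpt ▸ Submodule.mem_top
        have h2 : (X i : Poly K n) ∈ p := h1
        rw [hx, Submodule.mem_colon_singleton, Submodule.mem_bot] at h2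
        refine Ideal.Quotient.eq_zero_iff_mem.mp ?_
        rw [map_mul]; exact h2
      have hf : f ∈ I k := mem_of_components fun d => hI k d _
        (homogeneousComponent_isHomogeneous d f) fun i => by
          rw [← component_mul (isHomogeneous_X K i)]
          exact hH k _ (hX i) _
      apply hprime.ne_top
      rw [hx, Ideal.Quotient.eq_zero_iff_mem.mpr hf]
      simp [Submodule.colon]
  obtain ⟨l, hl⟩ := (Set.ne_univ_iff_exists_notMem _).mp (Subspace.biUnion_ne_univ_of_top_notMem hs)
  simp only [Set.mem_iUnion, not_exists] at hl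
  refine ⟨l, l.2, fun h => hl ⊥ (Finset.mem_insert_self _ _) ?_, fun k p hp => ?_⟩
  · rw [SetLike.mem_coe, Submodule.mem_bot]; exact Subtype.ext h
  · by_contra hpI
    have hz : (l : Poly K n) ∈ {r : Poly K n | ∃ x : Poly K n ⧸ I k, x ≠ 0 ∧ r • x = 0} :=
      ⟨Ideal.Quotient.mk _ p, by simpa [Ideal.Quotient.eq_zero_iff_mem] using hpI,
        (by change Ideal.Quotient.mk (I k) ((l : Poly K n) * p) = 0; exact Ideal.Quotient.eq_zero_iff_mem.mpr hp)⟩
    rw [← biUnion_associatedPrimes_eq_zero_divisors] at hz
    obtain ⟨q, hq, hlq⟩ := Set.mem_iUnion₂.mp hz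
    exact hl (sub q) (Finset.mem_insert_of_mem (Finset.mem_image_of_mem _
      (hP.mem_toFinset.mpr (Set.mem_iUnion.mpr ⟨k, hq⟩)))) hlq

/-- Socle exchange between two nonzerodivisors of positive degree. -/
theorem noSoc_exchange {I : Ideal (Poly K n)} (hI : Homog I) (u v : GForm K n)
    (hu : NZD I u.g) (hv : NZD I v.g) {d : ℕ}
    (h : u.k ≤ d + v.k → NoSoc (I ⊔ Ideal.span {v.g}) (d + v.k - u.k)) :
    NoSoc (I ⊔ Ideal.span {u.g}) d := by
  intro x hx hsoc
  have hall : ∀ p, p.IsHomogeneous v.k → p * x ∈ I ⊔ Ideal.span {u.g} := by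
    intro p hp
    have hspan : p ∈ Ideal.span (Set.range (X : Fin n → Poly K n)) := by
      rw [← Set.image_univ, mem_ideal_span_X_image]
      intro m hm
      have hne : m ≠ 0 := by
        intro h0
        have := hp.degree_eq_sum_deg_support hm
        simp [h0] at this
        exact absurd this v.pos.ne'
      obtain ⟨i, hi⟩ := Finsupp.ne_iff.mp hne
      exact ⟨i, trivial, hi⟩
    clear hp
    induction hspan using Submodule.span_induction with
    | mem q hq => obtain ⟨i, rfl⟩ := hq; exact hsoc i
    | zero => simp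
    | add a b _ _ ha hb => rw [add_mul]; exact add_mem ha hb
    | smul r a _ ha => rw [smul_eq_mul, mul_assoc]; exact Ideal.mul_mem_left _ _ ha
  have hmem : v.g * x ∈ part (I ⊔ Ideal.span {u.g}) (d + v.k) :=
    ⟨hall v.g v.hom, by rw [add_comm]; exact v.hom.mul hx⟩
  by_cases hle : u.k ≤ d + v.k
  · obtain ⟨j, hj⟩ : ∃ j, d + v.k = j + u.k := ⟨d + v.k - u.k, by omega⟩
    rw [hj, part_sup_span hI u.hom] at hmem
    obtain ⟨i, hi, _, ⟨z, hz, rfl⟩, hsum⟩ := Submodule.mem_sup.mp hmem
    rw [mulL_apply] at hsum
    have hzs : z ∈ I ⊔ Ideal.span {v.g} := by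
      refine h hle z ((by omega : d + v.k - u.k = j) ▸ hz) fun t => ?_
      obtain ⟨i', hi', w, hw, hw'⟩ := Submodule.mem_sup.mp (hsoc t)
      obtain ⟨w, rfl⟩ := Ideal.mem_span_singleton'.mp hw
      have : X t * z - w * v.g ∈ I := by
        refine hu _ ?_
        have e : u.g * (X t * z - w * v.g) = v.g * i' - X t * i := by
          linear_combination (X t : Poly K n) * hsum - v.g * hw'
        rw [e]
        exact sub_mem (I.mul_mem_left _ hi') (I.mul_mem_left _ hi.1)
      have e : X t * z = (X t * z - w * v.g) + w * v.g := by ring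
      rw [e]
      exact Submodule.add_mem_sup this (Ideal.mul_mem_left _ _ (Ideal.mem_span_singleton_self _))
    obtain ⟨i₂, hi₂, w, hw, hzw⟩ := Submodule.mem_sup.mp hzs
    obtain ⟨w, rfl⟩ := Ideal.mem_span_singleton'.mp hw
    have h2 : x - w * u.g ∈ I := by
      refine hv _ ?_
      have e : v.g * (x - w * u.g) = i + u.g * i₂ := by
        linear_combination -hsum - u.g * hzw
      rw [e]
      exact add_mem hi.1 (I.mul_mem_left _ hi₂)
    have e : x = (x - w * u.g) + w * u.g := by ring
    rw [e]
    exact Submodule.add_mem_sup h2 (Ideal.mul_mem_left _ _ (Ideal.mem_span_singleton_self _))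
  · obtain ⟨i, hi, y, hy, hsum⟩ := Submodule.mem_sup.mp hmem.1
    obtain ⟨y, rfl⟩ := Ideal.mem_span_singleton'.mp hy
    have hc := component_self hmem.2
    rw [← hsum, map_add, mul_comm y u.g, component_mul_lt u.hom y (by omega), add_zero] at hc
    refine Submodule.mem_sup_left (hv x ?_)
    rw [← hsum, mul_comm y u.g, ← hc]
    exact hI i hi _

/-- Top socle degree of a complete intersection. -/
def socTop (l : List (GForm K n)) : ℕ := (l.map fun a => a.k - 1).sum

theorem socTop_append (l l' : List (GForm K n)) : socTop (l ++ l') = socTop l + socTop l' := by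
  simp [socTop]

theorem Cut.nzd_image {l : Poly K (n + 1)} (C : Cut K n l) {I : Ideal (Poly K (n + 1))}
    {g : Poly K (n + 1)} (h : NZD (I ⊔ Ideal.span {l}) g) : NZD (C.image I) (C.φ g) := by
  intro p hp
  obtain ⟨q, hq, he⟩ := C.mem_image.mp hp
  have h1 : g * C.ψ p ∈ I ⊔ Ideal.span {l} := by
    have : g * C.ψ p - q ∈ Ideal.span {l} := C.ker_iff.mp (by
      rw [map_sub, map_mul, C.φ_ψ, he, sub_self])
    have e : g * C.ψ p = q + (g * C.ψ p - q) := by ring
    rw [e]
    exact Submodule.add_mem_sup hq this
  obtain ⟨x, hx, y, hy, hxy⟩ := Submodule.mem_sup.mp (h _ h1)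
  refine C.mem_image.mpr ⟨x, hx, ?_⟩
  have := congrArg C.φ hxy
  rwa [map_add, C.ker_iff.mpr hy, add_zero, C.φ_ψ] at this

/-- Restriction of a form. -/
def Cut.gform {l : Poly K (n + 1)} (C : Cut K n l) (a : GForm K (n + 1)) : GForm K n :=
  ⟨C.φ a.g, a.k, C.φ_hom _ _ a.hom, a.pos⟩

theorem Cut.regL_image {l : Poly K (n + 1)} (C : Cut K n l) :
    ∀ {L : List (GForm K (n + 1))} {I : Ideal (Poly K (n + 1))},
      RegL (I ⊔ Ideal.span {l}) L → RegL (C.image I) (L.map C.gform) ∧
        idl (C.image I) (L.map C.gform) = C.image (idl I L) := by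
  intro L
  induction L with
  | nil => intro I _; exact ⟨trivial, rfl⟩
  | cons a L ih =>
    intro I h
    have hh := h.2
    rw [sup_right_comm] at hh
    obtain ⟨h1, h2⟩ := ih hh
    have e : C.image I ⊔ Ideal.span {(C.gform a).g} = C.image (I ⊔ Ideal.span {a.g}) := by
      rw [C.image_sup, C.image_span, Set.image_singleton]; rfl
    simp only [List.map_cons, RegL, idl]
    rw [e]
    exact ⟨⟨C.nzd_image h.1, h1⟩, h2⟩

theorem Cut.noSoc {l : Poly K (n + 1)} (C : Cut K n l) {I : Ideal (Poly K (n + 1))} {d : ℕ}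
    (h : NoSoc (C.image I) d) : NoSoc (I ⊔ Ideal.span {l}) d := by
  intro p hp hX
  have hφ : ∀ q : Poly K (n + 1), q.IsHomogeneous 1 → q * p ∈ I ⊔ Ideal.span {l} := by
    intro q hq
    obtain ⟨c, rfl⟩ := linear_form_eq hq
    rw [Finset.sum_mul]
    refine Submodule.sum_mem _ fun i _ => ?_
    rw [smul_mul_assoc]
    exact Submodule.smul_of_tower_mem _ _ (hX i)
  have h1 : C.φ p ∈ C.image I := by
    refine h _ (C.φ_hom p d hp) fun i => ?_
    obtain ⟨x, hx, y, hy, hxy⟩ := Submodule.mem_sup.mp
      (hφ _ (C.ψ_hom _ 1 (isHomogeneous_X K i)))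
    refine C.mem_image.mpr ⟨x, hx, ?_⟩
    have := congrArg C.φ hxy
    rwa [map_add, C.ker_iff.mpr hy, add_zero, map_mul, C.φ_ψ] at this
  obtain ⟨x, hx, he⟩ := C.mem_image.mp h1
  have e : p = x + (p - x) := by ring
  rw [e]
  exact Submodule.add_mem_sup hx (C.ker_iff.mp (by rw [map_sub, he, sub_self]))

/-- A complete intersection of `k ≤ n` forms has no socle below `socTop`, and none at all if
`k < n`. -/
theorem noSoc_regL [Infinite K] :
    ∀ (k n : ℕ) (L : List (GForm K n)), L.length = k → k ≤ n → RegL ⊥ L → ∀ d,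
      (k = n → d < socTop L) → NoSoc (idl ⊥ L) d := by
  intro k
  induction k using Nat.strong_induction_on with
  | _ k ih =>
    intro n L hlen hkn hreg d hd
    rcases L.eq_nil_or_concat' with rfl | ⟨L₀, u, rfl⟩
    · intro p hp hX
      simp only [List.length_nil] at hlen
      subst hlen
      match n, hkn with
      | 0, _ => exact absurd (hd rfl) (by simp [socTop])
      | n + 1, _ =>
        have := hX 0
        simp only [idl, Ideal.mem_bot, mul_eq_zero, X_ne_zero, false_or] at this ⊢
        exact this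
    · simp only [List.length_append, List.length_singleton] at hlen
      match n, hkn with
      | 0, h => omega
      | n + 1, hkn =>
        rw [regL_append] at hreg
        obtain ⟨hreg₀, hu, -⟩ := hreg
        obtain ⟨l, hl1, hl0, hlz⟩ := exists_nzd_linear (ι := Fin k)
          (fun j => idl ⊥ (L₀.take (j : ℕ))) (fun j => Homog.bot.idl _)
          (fun j e => by
            refine ih (L₀.take (j : ℕ)).length ?_ (n + 1) _ rfl ?_ ?_ e ?_
            · simp only [List.length_take]; omega
            · simp only [List.length_take]; omega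
            · rw [← List.take_append_drop (j : ℕ) L₀, regL_append] at hreg₀
              exact hreg₀.1
            · intro h; simp only [List.length_take] at h; omega) (by omega)
        obtain ⟨C⟩ := exists_cut hl1 hl0
        let v : GForm K (n + 1) := ⟨l, 1, hl1, by norm_num⟩
        have hv : NZD (idl ⊥ L₀) l := by
          have := hlz ⟨L₀.length, by omega⟩
          simpa using this
        rw [idl_append]
        refine noSoc_exchange (Homog.bot.idl L₀) u v hu hv fun hle => ?_
        have hreg' : RegL ⊥ (v :: L₀) :=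
          (regL_perm (List.perm_append_comm (l₁ := L₀) (l₂ := [v])) Homog.bot
            ((regL_append _ _ _).mpr ⟨hreg₀, hv, trivial⟩)).1
        obtain ⟨hr, he⟩ := C.regL_image (L := L₀) (I := ⊥) hreg'.2
        rw [C.image_bot] at hr he
        have hns : NoSoc (idl ⊥ (L₀.map C.gform)) (d + 1 - u.k) := by
          refine ih L₀.length (by omega) n _ (by simp) (by omega) hr _ ?_
          intro hn
          have h1 := hd (by omega)
          rw [socTop_append] at h1
          have e1 : socTop (L₀.map C.gform) = socTop L₀ := by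
            simp [socTop, Function.comp_def, Cut.gform]
          have e2 : socTop [u] = u.k - 1 := by simp [socTop]
          have := u.pos
          have hle' : u.k ≤ d + 1 := hle
          omega
        rw [he] at hns
        exact C.noSoc hns

/-- Pairing: below the top degree a nonzero class has a nonzero multiple in the top degree. -/
theorem exists_top_mul {I : Ideal (Poly K n)} {s : ℕ} (hI : ∀ d, d < s → NoSoc I d) :
    ∀ j i, i + j = s → ∀ p : Poly K n, p.IsHomogeneous i → p ∉ I →
      ∃ t : Poly K n, t.IsHomogeneous j ∧ p * t ∉ I := by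
  intro j
  induction j with
  | zero =>
    intro i _ p _ hp
    exact ⟨1, isHomogeneous_one _ _, by simpa using hp⟩
  | succ j ih =>
    intro i hij p hp hpI
    obtain ⟨x, hx⟩ : ∃ x, X x * p ∉ I := by
      by_contra h
      push Not at h
      exact hpI (hI i (by omega) p hp h)
    obtain ⟨t, ht, htI⟩ := ih (1 + i) (by omega) _ ((isHomogeneous_X K x).mul hp) hx
    refine ⟨X x * t, by rw [add_comm]; exact (isHomogeneous_X K x).mul ht, ?_⟩
    rwa [mul_left_comm, ← mul_assoc]

/-- The linked ideal `I : J`. -/
def link (I J : Ideal (Poly K n)) : Ideal (Poly K n) := I.colon (J : Set (Poly K n))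

theorem mem_link {I J : Ideal (Poly K n)} {p : Poly K n} :
    p ∈ link I J ↔ ∀ x ∈ J, p * x ∈ I := by
  simp [link, Submodule.mem_colon, smul_eq_mul]

theorem le_link (I J : Ideal (Poly K n)) : I ≤ link I J :=
  fun _ hp => mem_link.mpr fun x _ => I.mul_mem_right x hp

theorem Homog.link {I J : Ideal (Poly K n)} (hI : Homog I) (hJ : Homog J) :
    Homog (Vale.Agent.P200.link I J) := by
  intro p hp d
  rw [mem_link] at hp ⊢
  intro x hx
  rw [← sum_homogeneousComponent x, Finset.mul_sum]
  refine Submodule.sum_mem _ fun j _ => ?_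
  rw [mul_comm, ← component_mul (homogeneousComponent_isHomogeneous j x), mul_comm]
  exact hI _ (hp _ (hJ x hx j)) _

/-- Hilbert function of the linked ideal. -/
theorem hq_link {I J : Ideal (Poly K n)} (hI : Homog I) (hJ : Homog J) (hIJ : I ≤ J) {s : ℕ}
    (hns : ∀ d, d < s → NoSoc I d) (htop : hq I s = 1) (hbig : ∀ d, s < d → hq I d = 0)
    {i j : ℕ} (hij : i + j = s) : hq (link I J) i + hq J j = hq I j := by
  have hcomm : ∀ (p x : Poly K n), p.IsHomogeneous i → x.IsHomogeneous j →
      (p * x).IsHomogeneous s := fun p x hp hx => hij ▸ hp.mul hx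
  let α : Forms K n i →ₗ[K] part J j →ₗ[K] QPiece I s :=
    LinearMap.mk₂ K
      (fun p x => Submodule.Quotient.mk ⟨(p : Poly K n) * x, hcomm _ _ p.2 x.2.2⟩)
      (fun a b x => by rw [← Submodule.Quotient.mk_add]; congr 1; ext : 1; simp [add_mul])
      (fun t a x => by rw [← Submodule.Quotient.mk_smul]; congr 1; ext : 1; simp)
      (fun a x y => by rw [← Submodule.Quotient.mk_add]; congr 1; ext : 1; simp [mul_add])
      (fun t a x => by rw [← Submodule.Quotient.mk_smul]; congr 1; ext : 1; simp)
  have hz : ∀ (p : Forms K n i) (x : part J j), α p x = 0 ↔ (p : Poly K n) * x ∈ I := by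
    intro p x
    simp only [α, LinearMap.mk₂_apply, Submodule.Quotient.mk_eq_zero, Submodule.mem_comap,
      Submodule.subtype_apply, mem_part]
    exact ⟨And.left, fun h => ⟨h, hcomm _ _ p.2 x.2.2⟩⟩
  have k1 : LinearMap.ker α = (part (link I J) i).comap (Forms K n i).subtype := by
    ext p
    simp only [LinearMap.mem_ker, Submodule.mem_comap, Submodule.subtype_apply, mem_part]
    constructor
    · intro h
      refine ⟨mem_link.mpr fun x hx => ?_, p.2⟩
      rw [← sum_homogeneousComponent x, Finset.mul_sum]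
      refine Submodule.sum_mem _ fun e _ => ?_
      set y := homogeneousComponent e x
      have hy : y ∈ J := hJ x hx e
      have hyh : y.IsHomogeneous e := homogeneousComponent_isHomogeneous e x
      rcases lt_trichotomy e j with he | he | he
      · by_contra hc
        obtain ⟨t, ht, htI⟩ := exists_top_mul hns (j - e) (i + e) (by omega) _ (p.2.mul hyh) hc
        apply htI
        have hyt : y * t ∈ part J j :=
          ⟨J.mul_mem_right _ hy, (by omega : e + (j - e) = j) ▸ hyh.mul ht⟩
        rw [mul_assoc]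
        exact (hz p ⟨_, hyt⟩).mp (by rw [h]; rfl)
      · subst he
        exact (hz p ⟨y, hy, hyh⟩).mp (by rw [h]; rfl)
      · exact hq_eq_zero_iff.mp (hbig (i + e) (by omega)) _ (p.2.mul hyh)
    · rintro ⟨h, -⟩
      exact LinearMap.ext fun x => (hz p x).mpr (mem_link.mp h x x.2.1)
  have k2 : LinearMap.ker α.flip = (part I j).comap (part J j).subtype := by
    ext x
    simp only [LinearMap.mem_ker, Submodule.mem_comap, Submodule.subtype_apply, mem_part]
    constructor
    · intro h
      refine ⟨?_, x.2.2⟩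
      by_contra hc
      obtain ⟨t, ht, htI⟩ := exists_top_mul hns i j (by omega) _ x.2.2 hc
      apply htI
      rw [mul_comm]
      exact (hz ⟨t, ht⟩ x).mp (by
        have := LinearMap.congr_fun h ⟨t, ht⟩
        simpa [LinearMap.flip_apply] using this)
    · rintro ⟨h, -⟩
      exact LinearMap.ext fun p => (hz p x).mpr (I.mul_mem_left _ h)
  have hQ : finrank K (QPiece I s) = finrank K K := by
    rw [finrank_qPiece, htop, Module.finrank_self]
  let eQ : QPiece I s ≃ₗ[K] K := LinearEquiv.ofFinrankEq _ _ hQ
  let γ : Forms K n i →ₗ[K] Module.Dual K (part J j) :=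
    (eQ.toLinearMap.compRight K).comp α
  have r1 : LinearMap.ker γ = LinearMap.ker α := by
    ext p
    simp [γ, LinearMap.ext_iff]
  have r2 : LinearMap.ker (γ.dualMap.comp (Module.Dual.eval K (part J j))) =
      LinearMap.ker α.flip := by
    ext x
    simp [γ, LinearMap.ext_iff, Module.Dual.eval]
  have f1 := LinearMap.finrank_range_add_finrank_ker γ
  have f2 := LinearMap.finrank_range_add_finrank_ker
    (γ.dualMap.comp (Module.Dual.eval K (part J j)))
  have f3 : finrank K (LinearMap.range (γ.dualMap.comp (Module.Dual.eval K (part J j)))) =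
      finrank K (LinearMap.range γ) := by
    have hev : LinearMap.range (Module.Dual.eval K (part J j)) = ⊤ :=
      LinearMap.range_eq_top.mpr (Module.evalEquiv K (part J j)).surjective
    rw [LinearMap.range_comp_of_range_eq_top _ hev]
    exact LinearMap.finrank_range_dualMap_eq_finrank_range γ
  rw [r1, k1, (Submodule.comapSubtypeEquivOfLe (part_le_forms _ i)).finrank_eq] at f1
  rw [r2, k2, f3, (Submodule.comapSubtypeEquivOfLe (part_mono hIJ j)).finrank_eq] at f2
  have a1 := hq_add (link I J) i
  have a2 := hq_add J j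
  have a3 := hq_add I j
  omega

end

end Vale.Agent.P200
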