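import Vale.Agent.P200.CoreA

/-!
# Enlarging an ideal inside one degree, frames, and singular pencils
-/

namespace Vale.Agent.P200

open MvPolynomial Module

noncomputable section

variable {K : Type} [Field K] {n : ℕ}

/-- Components of elements of an ideal generated in one degree. -/
theorem component_span {e i : ℕ} {T : Set (Poly K n)} (hT : ∀ f ∈ T, f.IsHomogeneous e)
    (P : Submodule K (Poly K n)) (hP : ∀ r : Poly K n, r.IsHomogeneous i → ∀ f ∈ T, r * f ∈ P)
    {y : Poly K n} (hy : y ∈ Ideal.span T) : homogeneousComponent (i + e) y ∈ P := by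
  suffices h : ∀ r : Poly K n, homogeneousComponent (i + e) (r * y) ∈ P by simpa using h 1
  induction hy using Submodule.span_induction with
  | mem f hf =>
    intro r
    rw [mul_comm, component_mul (hT f hf), mul_comm]
    exact hP _ (homogeneousComponent_isHomogeneous i r) f hf
  | zero => intro r; rw [mul_zero, map_zero]; exact zero_mem _
  | add x z _ _ hx hz => intro r; rw [mul_add, map_add]; exact add_mem (hx r) (hz r)
  | smul s x _ hx => intro r; rw [smul_eq_mul, ← mul_assoc]; exact hx _

theorem mk_eq_zero_iff {J : Ideal (Poly K n)} {d : ℕ} {p : Forms K n d} :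
    (Submodule.Quotient.mk p : QPiece J d) = 0 ↔ (p : Poly K n) ∈ J := by
  rw [Submodule.Quotient.mk_eq_zero]
  exact ⟨fun h => h.1, fun h => ⟨h, p.2⟩⟩

/-- No class of degree `d` is killed by all linear forms. -/
def SocFree (J : Ideal (Poly K n)) (d : ℕ) : Prop :=
  ∀ u : QPiece J d, (∀ L : Forms K n 1, mulQ J L d u = 0) → u = 0

theorem mulQ_comm (J : Ideal (Poly K n)) (L L' : Forms K n 1) (d : ℕ) (u : QPiece J d) :
    mulQ J L (d + 1) (mulQ J L' d u) = mulQ J L' (d + 1) (mulQ J L d u) := by
  induction u using Submodule.Quotient.induction_on with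
  | _ p =>
    simp only [mulQ_mk]
    congr 1
    ext : 1
    exact mul_left_comm _ _ _

theorem finrank_range_mulQ (J : Ideal (Poly K n)) (g : Forms K n 1) (d : ℕ) :
    finrank K (LinearMap.range (mulQ J g d)) = hq (colon J (g : Poly K n)) d := by
  let f : Forms K n d →ₗ[K] QPiece J (d + 1) := mulQ J g d ∘ₗ Submodule.mkQ _
  have hr : LinearMap.range f = LinearMap.range (mulQ J g d) :=
    LinearMap.range_comp_of_range_eq_top _ (Submodule.range_mkQ _)
  have hk : LinearMap.ker f = (part (colon J (g : Poly K n)) d).comap (Forms K n d).subtype := by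
    ext p
    simp only [LinearMap.mem_ker, f, LinearMap.comp_apply, Submodule.mkQ_apply, mulQ_mk,
      mk_eq_zero_iff, Submodule.mem_comap, Submodule.subtype_apply, mem_part, mem_colon]
    exact ⟨fun h => ⟨h, p.2⟩, And.left⟩
  have h1 := LinearMap.finrank_range_add_finrank_ker f
  rw [hr, hk, (Submodule.comapSubtypeEquivOfLe (part_le_forms _ d)).finrank_eq] at h1
  have := hq_add (colon J (g : Poly K n)) d
  omega

/-- The sequence of multiplication by a linear form. -/
theorem mulQ_dims {J : Ideal (Poly K n)} (hJ : Homog J) (g : Forms K n 1)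
    (hg : (g : Poly K n) ≠ 0) (d : ℕ) :
    hq J (d + 1) + finrank K (LinearMap.ker (mulQ J g d)) =
      hq J d + hq (J ⊔ Ideal.span {(g : Poly K n)}) (d + 1) := by
  have h1 := LinearMap.finrank_range_add_finrank_ker (mulQ J g d)
  rw [finrank_range_mulQ, finrank_qPiece] at h1
  have h2 := hq_split hJ g.2 hg d
  omega

/-- Passing to a larger ideal. -/
theorem hq_le_enlarge {J J' : Ideal (Poly K n)} {j : ℕ} (hle : J ≤ J')
    (W : Submodule K (QPiece J j)) :
    ((∀ p : Forms K n j, (p : Poly K n) ∈ J' → Submodule.Quotient.mk p ∈ W) →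
      hq J j ≤ hq J' j + finrank K W) ∧
    ((∀ p : Forms K n j, Submodule.Quotient.mk p ∈ W → (p : Poly K n) ∈ J') →
      hq J' j + finrank K W ≤ hq J j) := by
  let π : QPiece J j →ₗ[K] QPiece J' j :=
    Submodule.mapQ _ _ LinearMap.id fun p hp => ⟨hle hp.1, hp.2⟩
  have hπ : ∀ p, π (Submodule.Quotient.mk p) = Submodule.Quotient.mk p := fun p => rfl
  have hs : Function.Surjective π := fun y => by
    induction y using Submodule.Quotient.induction_on with
    | _ p => exact ⟨_, hπ p⟩
  have h1 := LinearMap.finrank_range_add_finrank_ker π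
  rw [LinearMap.range_eq_top.mpr hs, finrank_top, finrank_qPiece, finrank_qPiece] at h1
  refine ⟨fun h => ?_, fun h => ?_⟩
  · have : LinearMap.ker π ≤ W := fun u hu => by
      induction u using Submodule.Quotient.induction_on with
      | _ p =>
        rw [LinearMap.mem_ker, hπ, mk_eq_zero_iff] at hu
        exact h p hu
    have := Submodule.finrank_mono this
    omega
  · have : W ≤ LinearMap.ker π := fun u hu => by
      induction u using Submodule.Quotient.induction_on with
      | _ p =>
        rw [LinearMap.mem_ker, hπ, mk_eq_zero_iff]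
        exact h p hu
    have := Submodule.finrank_mono this
    omega

/-- Quotient by classes in one degree whose successors lie in a given space. -/
theorem exists_enlarge {J : Ideal (Poly K n)} (hJ : Homog J) {d : ℕ}
    (U : Submodule K (QPiece J d)) (W : Submodule K (QPiece J (d + 1)))
    (hUW : ∀ (L : Forms K n 1), ∀ u ∈ U, mulQ J L d u ∈ W) :
    ∃ J' : Ideal (Poly K n), J ≤ J' ∧ Homog J' ∧ hq J' d + finrank K U = hq J d ∧
      hq J (d + 1) ≤ hq J' (d + 1) + finrank K W := by
  let T : Submodule K (Poly K n) :=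
    (U.comap ((part J d).comap (Forms K n d).subtype).mkQ).map (Forms K n d).subtype
  have hT : ∀ f ∈ (T : Set (Poly K n)), f.IsHomogeneous d := by
    rintro _ ⟨p, -, rfl⟩; exact p.2
  refine ⟨J ⊔ Ideal.span (T : Set (Poly K n)), le_sup_left,
    hJ.sup (Homog.span fun f hf => ⟨d, hT f hf⟩), le_antisymm ?_ ?_, ?_⟩
  · refine (hq_le_enlarge le_sup_left U).2 fun p hp => ?_
    exact Submodule.mem_sup_right (Ideal.subset_span ⟨p, hp, rfl⟩)
  · refine (hq_le_enlarge le_sup_left U).1 fun p hp => ?_
    obtain ⟨x, hx, y, hy, hxy⟩ := Submodule.mem_sup.mp hp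
    have hy' : homogeneousComponent (0 + d) y ∈ T := by
      refine component_span hT T (fun r hr f hf => ?_) hy
      have hr' : r ∈ homogeneousSubmodule (Fin n) K 0 := hr
      rw [homogeneousSubmodule_zero, Submodule.one_eq_span,
        Submodule.mem_span_singleton] at hr'
      obtain ⟨t, rfl⟩ := hr'
      rw [smul_mul_assoc, one_mul]
      exact T.smul_mem t hf
    rw [zero_add] at hy'
    obtain ⟨q, hq, hqy⟩ := hy'
    have he := component_self p.2
    rw [← hxy, map_add, ← hqy, Submodule.subtype_apply, hxy] at he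
    have hx' : (p : Poly K n) - q ∈ J := by rw [← he, add_sub_cancel_right]; exact hJ x hx d
    have : (Submodule.Quotient.mk p : QPiece J d) = Submodule.Quotient.mk q := by
      rw [Submodule.Quotient.eq]
      exact ⟨hx', (p - q).2⟩
    rw [this]
    exact hq
  · refine (hq_le_enlarge le_sup_left W).1 fun p hp => ?_
    obtain ⟨x, hx, y, hy, hxy⟩ := Submodule.mem_sup.mp hp
    let P : Submodule K (Poly K n) :=
      (W.comap ((part J (d + 1)).comap (Forms K n (d + 1)).subtype).mkQ).map
        (Forms K n (d + 1)).subtype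
    have hy' : homogeneousComponent (1 + d) y ∈ P := by
      refine component_span hT P (fun r hr f hf => ?_) hy
      obtain ⟨q, hq, rfl⟩ := hf
      exact ⟨⟨r * q, map_forms_le hr d ⟨q, q.2, rfl⟩⟩, hUW ⟨r, hr⟩ _ hq, rfl⟩
    rw [add_comm 1 d] at hy'
    obtain ⟨q, hq, hqy⟩ := hy'
    have he := component_self p.2
    rw [← hxy, map_add, ← hqy, Submodule.subtype_apply, hxy] at he
    have hx' : (p : Poly K n) - q ∈ J := by rw [← he, add_sub_cancel_right]; exact hJ x hx _
    have : (Submodule.Quotient.mk p : QPiece J (d + 1)) = Submodule.Quotient.mk q := by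
      rw [Submodule.Quotient.eq]
      exact ⟨hx', (p - q).2⟩
    rw [this]
    exact hq

/-- Filling the socle of one degree changes no higher degree. -/
theorem exists_socFree {J : Ideal (Poly K n)} (hJ : Homog J) (e : ℕ) :
    ∃ J' : Ideal (Poly K n), J ≤ J' ∧ Homog J' ∧ SocFree J' e ∧
      ∀ j, e < j → hq J' j = hq J j := by
  let T : Set (Poly K n) := {f | f.IsHomogeneous e ∧ ∀ i, X i * f ∈ J}
  have hT : ∀ f ∈ T, f.IsHomogeneous e := fun f hf => hf.1
  have hJ' : Homog (J ⊔ Ideal.span T) := hJ.sup (Homog.span fun f hf => ⟨e, hT f hf⟩)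
  have high : ∀ j, e < j → ∀ p : Poly K n, p.IsHomogeneous j → p ∈ J ⊔ Ideal.span T → p ∈ J := by
    intro j hj p hpj hp
    obtain ⟨x, hx, y, hy, hxy⟩ := Submodule.mem_sup.mp hp
    have hy' : homogeneousComponent (j - e + e) y ∈ J.restrictScalars K := by
      refine component_span hT _ (fun r hr f hf => ?_) hy
      have hspan : r ∈ Ideal.span (Set.range (X : Fin n → Poly K n)) := by
        rw [← Set.image_univ, mem_ideal_span_X_image]
        intro m hm
        have hne : m ≠ 0 := by
          intro h0
          have := hr.degree_eq_sum_deg_support hm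
          simp [h0] at this
          omega
        obtain ⟨i, hi⟩ := Finsupp.ne_iff.mp hne
        exact ⟨i, trivial, hi⟩
      obtain ⟨c, rfl⟩ := Ideal.mem_span_range_iff_exists_fun.mp hspan
      rw [Submodule.restrictScalars_mem, Finset.sum_mul]
      exact Submodule.sum_mem _ fun i _ => by
        rw [mul_assoc]; exact J.mul_mem_left _ (hf.2 i)
    rw [Nat.sub_add_cancel hj.le] at hy'
    rw [← component_self hpj, ← hxy, map_add]
    exact add_mem (hJ x hx j) hy'
  refine ⟨J ⊔ Ideal.span T, le_sup_left, hJ', fun u hu => ?_, fun j hj => ?_⟩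
  · induction u using Submodule.Quotient.induction_on with
    | _ p =>
      rw [mk_eq_zero_iff]
      refine Submodule.mem_sup_right (Ideal.subset_span ⟨p.2, fun i => ?_⟩)
      have h1 := hu ⟨X i, isHomogeneous_X K i⟩
      rw [mulQ_mk, mk_eq_zero_iff] at h1
      exact high (e + 1) (by omega) _ (map_forms_le (isHomogeneous_X K i) e ⟨p, p.2, rfl⟩) h1
  · exact hq_eq_of_part_eq (le_antisymm (fun p hp => ⟨high j hj p hp.2 hp.1, hp.2⟩)
      (part_mono le_sup_left j))

/-- Three independent linear forms, the last one given. -/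
structure Frame (l : Forms K 3 1) where
  /-- first form -/
  x : Forms K 3 1
  /-- second form -/
  y : Forms K 3 1
  spans : ∀ L : Forms K 3 1, ∃ s t r : K, L = s • x + t • y + r • l
  indep : ∀ s t r : K, s • x + t • y + r • l = 0 → s = 0 ∧ t = 0 ∧ r = 0

theorem exists_frame {l : Forms K 3 1} (hl : (l : Poly K 3) ≠ 0) : Nonempty (Frame l) := by
  obtain ⟨C⟩ := exists_cut l.2 hl
  let x : Forms K 3 1 := ⟨C.ψ (X 0), C.ψ_hom _ _ (isHomogeneous_X K 0)⟩
  let y : Forms K 3 1 := ⟨C.ψ (X 1), C.ψ_hom _ _ (isHomogeneous_X K 1)⟩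
  refine ⟨⟨x, y, fun L => ?_, fun s t r h => ?_⟩⟩
  · obtain ⟨c, hc⟩ := linear_form_eq (C.φ_hom _ _ L.2)
    obtain ⟨q, hq⟩ := Ideal.mem_span_singleton'.mp (C.sub_mem L)
    have hh : (C.ψ (C.φ L) - (L : Poly K 3)).IsHomogeneous 1 :=
      Submodule.sub_mem (Forms K 3 1) (C.ψ_hom _ _ (C.φ_hom _ _ L.2)) L.2
    have h0 := component_self hh
    rw [← hq, mul_comm q (l : Poly K 3)] at h0
    have h2 := component_mul l.2 q 0
    rw [zero_add, h0, homogeneousComponent_zero, mul_comm (l : Poly K 3) (MvPolynomial.C (coeff 0 q)),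
      ← smul_eq_C_mul, mul_comm (l : Poly K 3) q, hq] at h2
    refine ⟨c 0, c 1, -coeff 0 q, Subtype.ext ?_⟩
    rw [← hc, Fin.sum_univ_two, map_add, map_smul, map_smul, sub_eq_iff_eq_add] at h2
    simp only [x, y, Submodule.coe_add, Submodule.coe_smul, h2, neg_smul]
    abel
  · have h1 := congrArg (fun L : Forms K 3 1 => C.φ (L : Poly K 3)) h
    simp only [x, y, Submodule.coe_add, Submodule.coe_smul, map_add, map_smul, C.φ_ψ, C.φ_l,
      smul_zero, add_zero, Submodule.coe_zero, map_zero] at h1
    have hs := congrArg (eval ![(1 : K), 0]) h1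
    have ht := congrArg (eval ![(0 : K), 1]) h1
    simp [smul_eval] at hs ht
    subst hs ht
    simp only [zero_smul, zero_add, smul_eq_zero] at h
    exact ⟨rfl, rfl, h.resolve_right fun h0 => hl (by rw [h0]; rfl)⟩

/-- A frame through a given member of the pencil. -/
theorem Frame.exists_member {l : Forms K 3 1} (F : Frame l) {s t : K} (h : s ≠ 0 ∨ t ≠ 0) :
    ∃ G : Frame l, G.x = s • F.x + t • F.y := by
  rcases h with h | h
  · refine ⟨⟨s • F.x + t • F.y, F.y, fun L => ?_, fun p q r e => ?_⟩, rfl⟩
    · obtain ⟨p, q, r, rfl⟩ := F.spans L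
      refine ⟨p / s, q - p / s * t, r, ?_⟩
      simp only [smul_add, smul_smul, div_mul_cancel₀ p h]
      module
    · obtain ⟨h1, h2, h3⟩ := F.indep (p * s) (p * t + q) r (by
        rw [← e, smul_add, smul_smul, smul_smul, add_smul]; abel)
      have hp : p = 0 := (mul_eq_zero.mp h1).resolve_right h
      exact ⟨hp, by simpa [hp] using h2, h3⟩
  · refine ⟨⟨s • F.x + t • F.y, F.x, fun L => ?_, fun p q r e => ?_⟩, rfl⟩
    · obtain ⟨p, q, r, rfl⟩ := F.spans L
      refine ⟨q / t, p - q / t * s, r, ?_⟩
      simp only [smul_add, smul_smul, div_mul_cancel₀ q h]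
      module
    · obtain ⟨h1, h2, h3⟩ := F.indep (p * s + q) (p * t) r (by
        rw [← e, smul_add, smul_smul, smul_smul, add_smul]; abel)
      have hp : p = 0 := (mul_eq_zero.mp h2).resolve_right h
      exact ⟨hp, by simpa [hp] using h1, h3⟩

/-- A pencil without injective members has a subspace with too few successors. -/
theorem exists_small_image [Infinite K] {V W : Type} [AddCommGroup V] [Module K V]
    [FiniteDimensional K V] [AddCommGroup W] [Module K W] (f g : V →ₗ[K] W)
    (h : ∀ s t : K, (s ≠ 0 ∨ t ≠ 0) → ∃ v, v ≠ 0 ∧ s • f v + t • g v = 0) :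
    ∃ U : Submodule K V, U.map g ≤ U.map f ∧ finrank K (U.map f) < finrank K U := by
  classical
  let U : Submodule K V := ⨆ s : K, LinearMap.ker (s • f + g)
  have hmem : ∀ s, LinearMap.ker (s • f + g) ≤ U := fun s =>
    le_iSup (fun s : K => LinearMap.ker (s • f + g)) s
  refine ⟨U, ?_, ?_⟩
  · rw [Submodule.map_iSup, iSup_le_iff]
    rintro s _ ⟨v, hv, rfl⟩
    refine ⟨-(s • v), Submodule.neg_mem _ (Submodule.smul_mem _ _ (hmem s hv)), ?_⟩
    rw [SetLike.mem_coe, LinearMap.mem_ker, LinearMap.add_apply, LinearMap.smul_apply,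
      add_eq_zero_iff_neg_eq] at hv
    rw [map_neg, map_smul, hv]
  · by_contra hge
    push Not at hge
    have hf : ∀ v ∈ U, f v = 0 → v = 0 := by
      intro v hv h0
      have h1 := LinearMap.finrank_range_add_finrank_ker (f.domRestrict U)
      rw [LinearMap.range_domRestrict] at h1
      have h2 : LinearMap.ker (f.domRestrict U) = ⊥ := Submodule.finrank_eq_zero.mp (by omega)
      have h3 : (⟨v, hv⟩ : U) ∈ LinearMap.ker (f.domRestrict U) := h0
      rw [h2, Submodule.mem_bot] at h3
      exact congrArg Subtype.val h3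
    choose v hv0 hv using fun s : K => h s 1 (Or.inr one_ne_zero)
    have hv' : ∀ s, v s ∈ LinearMap.ker (s • f + g) := fun s => by
      simpa using hv s
    -- the kernels of different members are independent
    have hli : ∀ (S : Finset K) (co : K → K), ∑ s ∈ S, co s • v s = 0 → ∀ s ∈ S, co s = 0 := by
      intro S
      induction S using Finset.induction_on with
      | empty => intro co _ s hs; exact absurd hs (Finset.notMem_empty s)
      | insert r S hr ih =>
        intro co hsum
        have hsum' : ∑ s ∈ insert r S, (co s * (s - r)) • v s = 0 := by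
          refine hf _ (Submodule.sum_mem _ fun s _ => Submodule.smul_mem _ _ (hmem s (hv' s))) ?_
          rw [map_sum]
          have h1 := congrArg g hsum
          have h2 := congrArg f hsum
          rw [map_sum, map_zero] at h1 h2
          have h3 : ∀ s, (co s * (s - r)) • f (v s) = -(co s • g (v s)) - r • (co s • f (v s)) := by
            intro s
            have := hv' s
            rw [LinearMap.mem_ker, LinearMap.add_apply, LinearMap.smul_apply,
              add_eq_zero_iff_eq_neg] at this
            rw [mul_sub, sub_smul, mul_smul, this, smul_neg, mul_smul, smul_comm r (co s)]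
          simp only [map_smul] at h1 h2 ⊢
          simp only [h3, Finset.sum_sub_distrib, Finset.sum_neg_distrib, ← Finset.smul_sum,
            h1, h2, smul_zero, neg_zero, sub_zero]
        rw [Finset.sum_insert hr, sub_self, mul_zero, zero_smul, zero_add] at hsum'
        have hS : ∀ s ∈ S, co s = 0 := fun s hs =>
          (mul_eq_zero.mp (ih _ hsum' s hs)).resolve_right
            (sub_ne_zero.mpr fun e => hr (e ▸ hs))
        intro s hs
        rcases Finset.mem_insert.mp hs with rfl | hs
        · rw [Finset.sum_insert hr, Finset.sum_eq_zero fun t ht => by rw [hS t ht, zero_smul],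
            add_zero] at hsum
          exact (smul_eq_zero.mp hsum).resolve_right (hv0 s)
        · exact hS s hs
    have hli' : LinearIndependent K v := linearIndependent_iff'.mpr fun S co h => hli S co h
    have := hli'.finite
    exact not_finite K

end

end Vale.Agent.P200
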