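import Vale.Agent.P200.CoreB
import Vale.Agent.P200.Model

/-!
# Three variables
-/

namespace Vale.Agent.P200

open MvPolynomial Module Finset

noncomputable section

variable {K : Type} [Field K] [IsAlgClosed K] {J : Ideal (Poly K 3)}

theorem cond_low (hJ : Homog J) {A B C : GForm K 3} (h : RegL ⊥ [A, B, C]) (hA : A.g ∈ J)
    (hB : B.g ∈ J) (hC : C.g ∈ J) (ha : 2 ≤ A.k) (hab : A.k ≤ B.k) (hbc : B.k ≤ C.k)
    (h4 : A.k + B.k ≤ C.k + 4) {d : ℕ} (hd : d + 1 ≤ C.k) :
    Cond A.k B.k C.k d (hq J d) (hq J (d + 1)) := by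
  have hbox := hq_le_box h hA hB hC d
  refine cond_of_le_good ?_
  rcases Nat.eq_zero_or_pos (hq J d) with h0 | hpos
  · rw [hq_succ_eq_zero h0]; exact Nat.zero_le _
  have hlow := le_good (a := A.k) (b := B.k) C.pos hbox
  have h2 := two_forms hJ ((regL_append ⊥ [A, B] [C]).mp h).1 hA hB hab (by omega) d
  rcases (show d + 2 ≤ C.k ∨ C.k = d + 1 by omega) with hlt | heq
  · have hz : ((boxSet A.k B.k C.k d).filter
        fun q => q.1 + q.2 + C.k = d + 1 ∧ brank A.k B.k C.k d q < hq J d) = ∅ := by
      rw [filter_eq_empty_iff]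
      intro q hq
      omega
    rw [hz, card_empty] at hlow
    omega
  · have hz : ((boxSet A.k B.k C.k d).filter
        fun q => q.1 + q.2 + C.k = d + 1 ∧ brank A.k B.k C.k d q < hq J d) ⊆ {(0, 0)} := by
      intro q hq
      rw [mem_filter] at hq
      simp only [Finset.mem_singleton, Prod.ext_iff]
      omega
    have h1 := card_le_card hz
    rw [card_singleton] at h1
    have := middle hJ h hA hB hC ha hab hbc h4 heq hpos
    omega

theorem cond_self (hJ : Homog J) {A B C : GForm K 3} (h : RegL ⊥ [A, B, C]) (hA : A.g ∈ J)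
    (hB : B.g ∈ J) (hC : C.g ∈ J) (ha : 2 ≤ A.k) (hab : A.k ≤ B.k) (hbc : B.k ≤ C.k) {d : ℕ}
    (hd : C.k = d) (habd : A.k + B.k = d + 4) (hlt : hq J d < (d + 2 - B.k) * B.k) :
    Cond A.k B.k C.k d (hq J d) (hq J (d + 1)) := by
  have hbox := hq_le_box h hA hB hC d
  refine cond_of_le_good ?_
  rcases Nat.eq_zero_or_pos (hq J d) with h0 | hpos
  · rw [hq_succ_eq_zero h0]; exact Nat.zero_le _
  have hlow := le_good (a := A.k) (b := B.k) C.pos hbox
  obtain ⟨h1, h2⟩ := middle_two hJ h hA hB hC ha hab hbc hd habd hpos hlt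
  have hsub : ((boxSet A.k B.k C.k d).filter
      fun q => q.1 + q.2 + C.k = d + 1 ∧ brank A.k B.k C.k d q < hq J d) ⊆
      {(0, 1), (1, 0)} := by
    intro q hq
    rw [mem_filter] at hq
    simp only [Finset.mem_insert, Finset.mem_singleton, Prod.ext_iff]
    omega
  by_cases hb : B.k ≤ hq J d
  · have := card_le_card hsub
    rw [card_pair (by simp)] at this
    have := h2 hb
    omega
  · have hsub' : ((boxSet A.k B.k C.k d).filter
        fun q => q.1 + q.2 + C.k = d + 1 ∧ brank A.k B.k C.k d q < hq J d) ⊆ {(0, 1)} := by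
      intro q hq
      have hq' := hsub hq
      rw [mem_filter] at hq
      simp only [Finset.mem_insert, Finset.mem_singleton] at hq' ⊢
      rcases hq' with rfl | rfl
      · rfl
      · have := brank_one_zero (a := A.k) (b := B.k) (c := C.k) (d := d) (by omega) (by omega)
          (by omega)
        omega
    have := card_le_card hsub'
    rw [card_singleton] at this
    omega

theorem good_mono {a b c d h h' : ℕ} (hh : h ≤ h') :
    (good a b c d h).card ≤ (good a b c d h').card :=
  card_le_card fun p hp => by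
    simp only [good, mem_filter] at hp ⊢
    exact ⟨hp.1, by omega⟩

/-- The upper-set step holds in every degree. -/
theorem cond_all (hJ : Homog J) {A B C : GForm K 3} (h : RegL ⊥ [A, B, C]) (hA : A.g ∈ J)
    (hB : B.g ∈ J) (hC : C.g ∈ J) (ha : 2 ≤ A.k) (hab : A.k ≤ B.k) (hbc : B.k ≤ C.k)
    (h4 : A.k + B.k ≤ C.k + 4) (d : ℕ) :
    Cond A.k B.k C.k d (hq J d) (hq J (d + 1)) := by
  by_cases hd : d + 1 ≤ C.k
  · exact cond_low hJ h hA hB hC ha hab hbc h4 hd
  by_cases htop : A.k + B.k + C.k ≤ d + 3
  · exact cond_top htop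
  obtain ⟨J', hJ', hA', hB', hC', hlink⟩ := exists_linked hJ h hA hB hC
  have hb0 := hq_le_box h hA hB hC d
  have hb1 := hq_le_box h hA hB hC (d + 1)
  obtain ⟨e, he⟩ : ∃ e, d + e + 4 = A.k + B.k + C.k := ⟨A.k + B.k + C.k - 4 - d, by omega⟩
  obtain ⟨l1, l1'⟩ := hlink e (d + 1) (by omega)
  obtain ⟨l0, l0'⟩ := hlink (e + 1) d (by omega)
  have hlinked : Cond A.k B.k C.k e (hq J' e) (hq J' (e + 1)) →
      Cond A.k B.k C.k d (hq J d) (hq J (d + 1)) := by
    intro hc
    refine cond_of_link he hb0 hb1 ?_
    rwa [show (boxSet A.k B.k C.k (d + 1)).card - hq J (d + 1) = hq J' e by omega,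
      show (boxSet A.k B.k C.k d).card - hq J d = hq J' (e + 1) by omega]
  by_cases hlow : e + 1 ≤ C.k
  · exact hlinked (cond_low hJ' h hA' hB' hC' ha hab hbc h4 hlow)
  have hde : e = d := by omega
  subst hde
  have hdC : C.k = e := by omega
  by_cases hs : hq J e < (e + 2 - B.k) * B.k
  · exact cond_self hJ h hA hB hC ha hab hbc hdC (by omega) hs
  by_cases hs' : hq J' e < (e + 2 - B.k) * B.k
  · exact hlinked (cond_self hJ' h hA' hB' hC' ha hab hbc hdC (by omega) hs')
  refine cond_of_le_good ?_
  have hcard := (card_box_pred (d := e) ha (ha.trans hab)).1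
  rw [hdC] at l1 l1' hb0
  rw [show A.k = e + 2 - B.k + 2 by omega, lineSum_T1 (by omega) (by omega)] at hcard
  rw [show A.k = e + 2 - B.k + 2 by omega] at l1 l1'
  have hn := Nat.mul_le_mul_right B.k (show 2 ≤ e + 2 - B.k by omega)
  have hlow := le_good (a := A.k) (b := B.k) (c := C.k) (d := e)
    (h := (e + 2 - B.k) * B.k - 1) C.pos (by omega)
  have hsub : ((boxSet A.k B.k C.k e).filter fun q => q.1 + q.2 + C.k = e + 1 ∧
      brank A.k B.k C.k e q < (e + 2 - B.k) * B.k - 1) ⊆ {(0, 1), (1, 0)} := by
    intro q hq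
    rw [mem_filter] at hq
    simp only [Finset.mem_insert, Finset.mem_singleton, Prod.ext_iff]
    omega
  have h2 := card_le_card hsub
  rw [card_pair (by simp)] at h2
  have h3 := good_mono (a := A.k) (b := B.k) (c := C.k) (d := e)
    (show (e + 2 - B.k) * B.k - 1 ≤ hq J e by omega)
  omega

/-- The exponents outside the first `h` of each degree of the box. -/
def lexSet (a b c : ℕ) (h : ℕ → ℕ) : Set (Fin 3 →₀ ℕ) :=
  {e | (e 0 < a ∧ e 1 < b ∧ e 2 < c) → h e.degree ≤ brank a b c e.degree (e 0, e 1)}

theorem lexSet_mono {a b c : ℕ} {h h' : ℕ → ℕ} (hh : ∀ d, h' d ≤ h d) :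
    lexSet a b c h ⊆ lexSet a b c h' := fun _ he hbox => (hh _).trans (he hbox)

theorem degree_three (e : Fin 3 →₀ ℕ) : e.degree = e 0 + e 1 + e 2 := by
  rw [Finsupp.degree_eq_sum, Fin.sum_univ_three]

theorem lexSet_upper {a b c : ℕ} {h : ℕ → ℕ} (hc : ∀ d, Cond a b c d (h d) (h (d + 1))) :
    IsUpperSet (lexSet a b c h) := by
  have key : ∀ k (e f : Fin 3 →₀ ℕ), e ≤ f → f.degree = e.degree + k → e ∈ lexSet a b c h →
      f ∈ lexSet a b c h := by
    intro k
    induction k with
    | zero =>
      intro e f hle hdeg he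
      have : e = f := by
        rw [degree_three, degree_three] at hdeg
        have h0 := hle 0; have h1 := hle 1; have h2 := hle 2
        ext i
        fin_cases i <;> simp <;> omega
      exact this ▸ he
    | succ k ih =>
      intro e f hle hdeg he
      obtain ⟨i, hi⟩ : ∃ i, e i < f i := by
        by_contra hno
        push Not at hno
        have := hno 0; have := hno 1; have := hno 2
        rw [degree_three, degree_three] at hdeg
        omega
      set f' : Fin 3 →₀ ℕ := f - Finsupp.single i 1 with hf'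
      have hle' : e ≤ f' := fun j => by
        have := hle j
        by_cases hji : j = i
        · subst hji; simp [f']; omega
        · simp [f', Finsupp.single_eq_of_ne hji]; exact this
      have hval : ∀ j, f' j + (if j = i then 1 else 0) = f j := fun j => by
        by_cases hji : j = i
        · subst hji; simp [f']; omega
        · simp [f', Finsupp.single_eq_of_ne hji, hji]
      have hd : f.degree = f'.degree + 1 := by
        have := hval 0; have := hval 1; have := hval 2
        rw [degree_three, degree_three]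
        fin_cases i <;> simp at * <;> omega
      have hf : f' ∈ lexSet a b c h := ih e f' hle' (by omega) he
      intro hbox
      have v0 := hval 0; have v1 := hval 1; have v2 := hval 2
      rw [hd]
      refine hc _ _ (mem_boxSet.mpr ?_) (f' 0, f' 1) (mem_boxSet.mpr ?_) ?_ (hf ?_)
      · rw [degree_three] at hd ⊢
        rw [degree_three] at hd
        simp only
        omega
      · rw [degree_three]
        simp only
        refine ⟨?_, ?_, ?_, ?_⟩ <;> fin_cases i <;> simp at * <;> omega
      · fin_cases i <;> simp [Div, Prod.ext_iff] at * <;> omega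
      · refine ⟨?_, ?_, ?_⟩ <;> fin_cases i <;> simp at * <;> omega
  intro e f hle he
  refine key (f.degree - e.degree) e f hle ?_ he
  have := hle 0; have := hle 1; have := hle 2
  rw [degree_three, degree_three]
  omega

open Classical in
theorem card_lexSet {a b c : ℕ} {h : ℕ → ℕ} {d : ℕ} (hd : h d ≤ (boxSet a b c d).card) :
    ((degSet 3 d).filter fun e => e ∉ lexSet a b c h).card = h d := by
  refine Eq.trans ?_ (card_brank_lt hd)
  refine card_bij' (fun e _ => (e 0, e 1))
    (fun p _ => Finsupp.equivFunOnFinite.symm ![p.1, p.2, d - p.1 - p.2]) ?_ ?_ ?_ ?_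
  · intro e he
    simp only [mem_filter, mem_degSet, lexSet, Set.mem_setOf_eq, Classical.not_imp, not_le] at he
    obtain ⟨hdeg, hbox, hr⟩ := he
    rw [hdeg] at hr
    rw [mem_filter, mem_boxSet]
    refine ⟨?_, hr⟩
    rw [degree_three] at hdeg
    simp only
    omega
  · intro p hp
    rw [mem_filter, mem_boxSet] at hp
    simp only [mem_filter, mem_degSet, lexSet, Set.mem_setOf_eq, Classical.not_imp, not_le]
    have hdeg : (Finsupp.equivFunOnFinite.symm ![p.1, p.2, d - p.1 - p.2]).degree = d := by
      rw [degree_three]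
      simp
      omega
    refine ⟨hdeg, ?_, ?_⟩
    · simp
      omega
    · rw [hdeg]
      simpa using hp.2
  · intro e he
    simp only [mem_filter, mem_degSet] at he
    have hdeg := he.1
    rw [degree_three] at hdeg
    ext i
    fin_cases i <;> simp <;> omega
  · intro p hp
    simp

/-- The three-variable statement. -/
theorem model_three {a b c : ℕ} (ha : 2 ≤ a) (hab : a ≤ b) (hbc : b ≤ c) (h4 : a + b ≤ c + 4) :
    Model K 3 [a, b, c] := by
  intro L hk hreg P _ I hmono hhom hmem
  match L, hk with
  | [A, B, C], hk =>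
    simp only [List.map_cons, List.map_nil, List.cons.injEq, and_true] at hk
    obtain ⟨rfl, rfl, rfl⟩ := hk
    refine ⟨fun p => lexSet A.k B.k C.k (hq (I p)),
      fun p q hpq => lexSet_mono fun d => hq_anti (hmono hpq) d, fun p => lexSet_upper fun d =>
        cond_all (hhom p) hreg (hmem p A (by simp)) (hmem p B (by simp)) (hmem p C (by simp))
          ha hab hbc h4 d, fun p i hi hn => ?_, fun p d => ?_⟩
    · intro hbox
      simp only [List.length_cons, List.length_nil] at hi
      rcases (show i = 0 ∨ i = 1 ∨ i = 2 by omega) with rfl | rfl | rfl <;> simp at hbox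
    · exact card_lexSet (hq_le_box hreg (hmem p A (by simp)) (hmem p B (by simp))
        (hmem p C (by simp)) d)

end

end Vale.Agent.P200
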