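import Vale.Agent.P200.Binary
import Vale.Agent.P200.Comb

/-!
# Growth over two forms in three variables
-/

namespace Vale.Agent.P200

open MvPolynomial Module Finset

noncomputable section

variable {K : Type} [Field K]

theorem hq_succ_eq_zero {n : ℕ} {J : Ideal (Poly K n)} {d : ℕ} (h : hq J d = 0) :
    hq J (d + 1) = 0 := by
  rw [hq_eq_zero_iff] at h ⊢
  intro p hp
  have hspan : p ∈ Ideal.span (Set.range (X : Fin n → Poly K n)) := by
    rw [← Set.image_univ, mem_ideal_span_X_image]
    intro m hm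
    have hne : m ≠ 0 := by
      intro h0
      have := hp.degree_eq_sum_deg_support hm
      simp [h0] at this
    obtain ⟨i, hi⟩ := Finsupp.ne_iff.mp hne
    exact ⟨i, trivial, hi⟩
  obtain ⟨c, hc⟩ := (Ideal.mem_span_range_iff_exists_fun).mp hspan
  have he := component_self hp
  rw [← hc, map_sum] at he
  rw [← hc, ← he]
  refine Submodule.sum_mem _ fun i _ => ?_
  rw [mul_comm, component_mul (isHomogeneous_X K i)]
  exact J.mul_mem_left _ (h _ (homogeneousComponent_isHomogeneous d _))

/-- A binary value either does not grow or is maximal. -/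
theorem hq_growth [Infinite K] {U : Ideal (Poly K 2)} (hU : Homog U) (s : ℕ) :
    hq U (s + 1) ≤ hq U s ∨ hq U (s + 1) = s + 2 := by
  by_cases h : part U (s + 1) = ⊥
  · right
    have := hq_add U (s + 1)
    rw [h, finrank_bot, finrank_forms_two] at this
    omega
  · left
    obtain ⟨p, hp, hp0⟩ := Submodule.exists_mem_ne_zero_of_ne_bot h
    exact hq_succ_le hU hp.1 hp.2 hp0

/-- The layers of a homogeneous ideal along a linear form. -/
theorem hq_layers {n : ℕ} {l : Poly K (n + 1)} (C : Cut K n l) (hl : l.IsHomogeneous 1)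
    (hl0 : l ≠ 0) :
    ∀ (d : ℕ) {J : Ideal (Poly K (n + 1))}, Homog J →
      hq J d = ∑ i ∈ range (d + 1), hq (C.image (colon J (l ^ i))) (d - i) := by
  intro d
  induction d with
  | zero =>
    intro J hJ
    have e : colon J (l ^ 0) = J := by ext p; simp [mem_colon]
    rw [Finset.sum_range_one, e, Nat.sub_zero, ← C.hq_zero hJ hl]
  | succ d ih =>
    intro J hJ
    have e : colon J (l ^ 0) = J := by ext p; simp [mem_colon]
    rw [sum_range_succ', C.hq_succ hJ hl hl0, ih (hJ.colon hl), e, Nat.sub_zero, add_comm]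
    congr 1
    refine Finset.sum_congr rfl fun i _ => ?_
    rw [show d + 1 - (i + 1) = d - i by omega]
    congr 2
    ext p
    simp only [mem_colon]
    rw [pow_succ, mul_comm (l ^ i) l, mul_assoc]

theorem colon_pow_mono {n : ℕ} {J : Ideal (Poly K n)} {l : Poly K n} {i j : ℕ} (h : i ≤ j) :
    colon J (l ^ i) ≤ colon J (l ^ j) := by
  intro p hp
  rw [mem_colon] at hp ⊢
  have : l ^ j * p = l ^ (j - i) * (l ^ i * p) := by
    rw [← mul_assoc, ← pow_add, Nat.sub_add_cancel h]
  rw [this]
  exact J.mul_mem_left _ hp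

/-- Initial segments on the lines `α + β = s`, `s < D + 1`. -/
def segments (b D : ℕ) (u : ℕ → ℕ) : Finset (ℕ × ℕ) :=
  (range (D + 1)).biUnion fun s => (Ico (s + 1 - b) (s + 1 - b + u s)).image fun t => (t, s - t)

theorem mem_segments {a b D : ℕ} {u : ℕ → ℕ} (hu : ∀ s, u s ≤ min a (s + 1) - (s + 1 - b))
    {p : ℕ × ℕ} :
    p ∈ segments b D u ↔ p.1 + p.2 ≤ D ∧ p.1 + p.2 + 1 - b ≤ p.1 ∧
      p.1 < p.1 + p.2 + 1 - b + u (p.1 + p.2) := by
  simp only [segments, mem_biUnion, Finset.mem_range, mem_image, mem_Ico]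
  constructor
  · rintro ⟨s, hs, t, ⟨h1, h2⟩, rfl⟩
    have := hu s
    simp only
    rw [show t + (s - t) = s by omega]
    exact ⟨by omega, h1, h2⟩
  · rintro ⟨h1, h2, h3⟩
    refine ⟨p.1 + p.2, by omega, p.1, ⟨h2, h3⟩, ?_⟩
    simp

theorem card_segments {a b D : ℕ} {u : ℕ → ℕ} (hu : ∀ s, u s ≤ min a (s + 1) - (s + 1 - b)) :
    (segments b D u).card = ∑ s ∈ range (D + 1), u s := by
  rw [segments, card_biUnion]
  · refine Finset.sum_congr rfl fun s _ => ?_
    rw [card_image_of_injOn, Nat.card_Ico, Nat.add_sub_cancel_left]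
    intro t _ t' _ h
    exact congrArg Prod.fst h
  · intro s _ s' _ hne
    simp only [Function.onFun, disjoint_left, mem_image, mem_Ico]
    rintro _ ⟨t, ⟨-, ht⟩, rfl⟩ ⟨t', ⟨-, ht'⟩, he⟩
    simp only [Prod.mk.injEq] at he
    have := hu s
    have := hu s'
    omega

/-- Growth of the Hilbert function in three variables over a regular pair. -/
theorem two_forms [IsAlgClosed K] {J : Ideal (Poly K 3)} (hJ : Homog J) {A B : GForm K 3}
    (h : RegL ⊥ [A, B]) (hA : A.g ∈ J) (hB : B.g ∈ J) (hab : A.k ≤ B.k) (hb : 2 ≤ B.k) (d : ℕ) :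
    hq J (d + 1) ≤ hq J d + (gainSet A.k B.k d (hq J d)).card := by
  classical
  obtain ⟨l, hl1, hl0, hlz⟩ := exists_nzd_linear (ι := Unit) (fun _ => idl ⊥ [A, B])
    (fun _ => Homog.bot.idl _)
    (fun _ e => noSoc_regL 2 3 [A, B] rfl (by norm_num) h e (by omega)) (by norm_num)
  obtain ⟨C⟩ := exists_cut hl1 hl0
  let v : GForm K 3 := ⟨l, 1, hl1, by norm_num⟩
  have hreg : RegL ⊥ [v, A, B] :=
    (regL_perm (List.perm_append_comm (l₁ := [A, B]) (l₂ := [v])) Homog.bot
      ((regL_append _ _ _).mpr ⟨h, hlz (), trivial⟩)).1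
  obtain ⟨hr, -⟩ := C.regL_image (L := [A, B]) (I := ⊥) hreg.2
  rw [C.image_bot] at hr
  set U : ℕ → Ideal (Poly K 2) := fun i => C.image (colon J (l ^ i)) with hUdef
  have hU : ∀ i, Homog (U i) := fun i => by
    have hp : (l ^ i).IsHomogeneous (1 * i) := hl1.pow i
    exact C.homog_image (hJ.colon hp)
  have hmem : ∀ i, ∀ F ∈ [A, B].map C.gform, F.g ∈ U i := by
    intro i F hF
    simp only [List.map_cons, List.map_nil, List.mem_cons, List.not_mem_nil, or_false] at hF
    rcases hF with rfl | rfl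
    · exact C.mem_image.mpr ⟨_, le_colon J _ hA, rfl⟩
    · exact C.mem_image.mpr ⟨_, le_colon J _ hB, rfl⟩
  have bound : ∀ i s, hq (U i) s ≤ min A.k (s + 1) - (s + 1 - B.k) := by
    intro i s
    refine (hq_anti (idl_le bot_le (hmem i)) s).trans ?_
    rw [hq_regL hr [((0 : Fin 2), A.k), ((1 : Fin 2), B.k)] rfl (by simp)]
    refine le_trans (card_le_card_of_injOn (fun e => e 0)
      (t := Ico (s + 1 - B.k) (min A.k (s + 1))) (fun e he => ?_) ?_) (by simp)
    · rw [mem_coe, mem_filter, mem_degSet, Finsupp.degree_eq_sum, Fin.sum_univ_two] at he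
      have h1 := he.2 (0, A.k) (by simp)
      have h2 := he.2 (1, B.k) (by simp)
      simp only [mem_coe, mem_Ico] at h1 h2 ⊢
      omega
    · intro e he e' he' heq
      simp only [coe_filter, Set.mem_setOf_eq, mem_degSet, Finsupp.degree_eq_sum,
        Fin.sum_univ_two] at he he'
      simp only at heq
      ext j
      fin_cases j
      · exact heq
      · have := he.1; have := he'.1
        simp only [Fin.mk_one, Fin.isValue]
        omega
  have havoid : ∀ i j, A.k ≤ j → B.k ≤ j → Avoid (U i) j := fun i j hja hjb =>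
    avoid_image_pair C (by have := hreg.2; rwa [bot_sup_eq] at this) (le_colon J _ hA) (le_colon J _ hB) hja hjb
  let u : ℕ → ℕ → ℕ := fun D s => hq (U (D - s)) s
  have hu : ∀ D s, u D s ≤ min A.k (s + 1) - (s + 1 - B.k) := fun D s => bound _ s
  have hcard : ∀ D, (segments B.k D (u D)).card = hq J D := by
    intro D
    rw [card_segments (hu D), hq_layers C hl1 hl0 D hJ, ← Finset.sum_range_reflect]
    refine Finset.sum_congr rfl fun i hi => ?_
    rw [Finset.mem_range] at hi
    simp only [u, U]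
    rw [show D - (D + 1 - 1 - i) = i by omega, show D + 1 - 1 - i = D - i by omega]
  have hmm : ∀ D p, p ∈ segments B.k D (u D) → p.1 < A.k ∧ p.2 < B.k ∧ p.1 + p.2 ≤ D := by
    intro D p hp
    rw [mem_segments (hu D)] at hp
    have := hu D (p.1 + p.2)
    omega
  have key : ∀ p ∈ segments B.k (d + 1) (u (d + 1)), 0 < p.1 + p.2 →
      (0 < p.1 → (p.1 - 1, p.2) ∈ segments B.k d (u d)) ∧
        (0 < p.2 → (p.1, p.2 - 1) ∈ segments B.k d (u d)) := by
    intro p hp hpos
    rw [mem_segments (hu _)] at hp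
    obtain ⟨s, hs⟩ : ∃ s, p.1 + p.2 = s + 1 := ⟨p.1 + p.2 - 1, by omega⟩
    rw [hs] at hp
    have hv : u (d + 1) (s + 1) = hq (U (d - s)) (s + 1) := by
      simp only [u]
      rw [show d + 1 - (s + 1) = d - s by omega]
    rw [hv] at hp
    have hb2 := bound (d - s) (s + 1)
    have hg := hq_growth (hU (d - s)) s
    have hlt : B.k ≤ s + 1 → hq (U (d - s)) (s + 1) < hq (U (d - s)) s := by
      intro hle
      refine hq_succ_lt (hU _) (havoid _ _ (hab.trans hle) hle) ?_
      rcases hg with hg | hg <;> omega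
    refine ⟨fun h1 => ?_, fun h1 => ?_⟩
    · rw [mem_segments (hu d), show p.1 - 1 + p.2 = s by omega]
      refine ⟨by omega, by omega, ?_⟩
      change p.1 - 1 < s + 1 - B.k + hq (U (d - s)) s
      by_cases hle : B.k ≤ s + 1
      · have := hlt hle; omega
      · have := hq_succ_le_succ (hU (d - s)) s; omega
    · rw [mem_segments (hu d), show p.1 + (p.2 - 1) = s by omega]
      refine ⟨by omega, by omega, ?_⟩
      change p.1 < s + 1 - B.k + hq (U (d - s)) s
      by_cases hle : B.k ≤ s + 1
      · have := hlt hle; omega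
      · have := hq_succ_le_succ (hU (d - s)) s
        rcases hg with hg | hg <;> omega
  have hclosed : ClosedPair A.k B.k d (segments B.k d (u d)) (segments B.k (d + 1) (u (d + 1))) := by
    refine ⟨hmm d, hmm (d + 1), fun p hp h1 => (key p hp (by omega)).1 h1,
      fun p hp h1 => (key p hp (by omega)).2 h1, fun p hp hle => ?_⟩
    rw [mem_segments (hu _)] at hp ⊢
    refine ⟨hle, hp.2.1, lt_of_lt_of_le hp.2.2 (Nat.add_le_add_left ?_ _)⟩
    exact hq_anti (C.image_mono (colon_pow_mono (by omega))) _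
  have := card_le_add_gain hab hb hclosed
  rwa [hcard, hcard] at this

theorem lineSum_succ (b d k : ℕ) :
    lineSum b d (k + 1) = lineSum b d k + min b (d + 1 - k) := sum_range_succ _ _

theorem lineSum_mono (b d : ℕ) {i j : ℕ} (h : i ≤ j) : lineSum b d i ≤ lineSum b d j :=
  sum_le_sum_of_subset (range_mono h)

theorem lineSum_full {b d k : ℕ} (h : k + b ≤ d + 2) : lineSum b d k = k * b := by
  induction k with
  | zero => simp [lineSum]
  | succ k ih => rw [lineSum_succ, ih (by omega), Nat.succ_mul]; omega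

theorem gain_card_le {a b d h k : ℕ} (hk : h < lineSum b d (d + 2 - b + k + 1)) :
    (gainSet a b d h).card ≤ k := by
  have : gainSet a b d h ⊆ Ico (d + 2 - b) (d + 2 - b + k) := by
    intro α hα
    simp only [gainSet, mem_filter, Finset.mem_range] at hα
    rw [mem_Ico]
    refine ⟨by omega, ?_⟩
    by_contra hc
    have := lineSum_mono b d (show d + 2 - b + k + 1 ≤ α + 1 by omega)
    omega
  simpa using card_le_card this

theorem le_gain_card {a b d h k : ℕ} (hb : b ≤ d + 2) (ha : d + 2 - b + k ≤ a)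
    (hd : d + 2 - b + k ≤ d + 2) (hk : lineSum b d (d + 2 - b + k) ≤ h) :
    k ≤ (gainSet a b d h).card := by
  have : Ico (d + 2 - b) (d + 2 - b + k) ⊆ gainSet a b d h := by
    intro α hα
    rw [mem_Ico] at hα
    simp only [gainSet, mem_filter, Finset.mem_range]
    have := lineSum_mono b d (show α + 1 ≤ d + 2 - b + k by omega)
    omega
  simpa using card_le_card this

end

end Vale.Agent.P200
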